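import Crest.Agent.X261.Ans.Man2
import Crest.Agent.X261.Ans.Dec

/-!
# X261/Ans/Comp (helper7): irreducible components of analytic subsets of a manifold

* `HA.dec` : the local decomposition, read on the manifold;
* `HA.Comp.irr`, `HA.comp_lf`, `HA.comp_cover` : the components are irreducible, locally finite and
  cover;
* `HA.Irr.cov`, `HA.Irr.drop`, `HA.Irr.not_cov` : dimension of irreducible sets;
* `HA.img_comp`, `HA.Irr.img_comp` : images of irreducible sets lie in one component;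
* `HA.gen` : a submanifold of top dimension is generically open in an analytic set.
-/

set_option autoImplicit false
set_option linter.unusedSectionVars false

open Set Filter Topology Module

namespace Crest.Agent.X261.Ans

variable {E F : Type} [NormedAddCommGroup E] [NormedSpace ℂ E] [FiniteDimensional ℂ E]
  [NormedAddCommGroup F] [NormedSpace ℂ F] [FiniteDimensional ℂ F]
  {M N : Type} [TopologicalSpace M] [TopologicalSpace N] {A : HA E M} {B : HA F N}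

namespace HA

theorem mem_closure_symm {i : A.ι} {S : Set E} (hS : S ⊆ (A.e i).target) {y : M}
    (hy : y ∈ (A.e i).source) : y ∈ closure ((A.e i).symm '' S) ↔ A.e i y ∈ closure S := by
  rw [mem_closure_iff_frequently, mem_closure_iff_frequently, fr_chart hy]
  refine frequently_congr ((ev_target hy).mono fun z hz => ⟨?_, fun h => ⟨z, h, rfl⟩⟩)
  rintro ⟨w, hw, h⟩
  rwa [← (A.e i).symm.injOn (hS hw) hz h]

/-- the local decomposition on a manifold -/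
theorem dec {U Z : Set M} {x : M} (hU : IsOpen U) (hx : x ∈ U) (hZ : A.An U Z) :
    ∃ (W : Set M) (𝒞 : Set (Set M × ℕ)), IsOpen W ∧ x ∈ W ∧ W ⊆ U ∧ 𝒞.Finite ∧
      (∀ C ∈ 𝒞, C.1 ⊆ Z ∩ U ∧ IsPreconnected C.1 ∧
        (∀ y ∈ C.1, A.Reg Z C.2 y ∧ ∀ᶠ z in 𝓝 y, z ∈ Z → z ∈ C.1) ∧
        x ∈ closure C.1 ∧ A.An W (closure C.1) ∧ A.Cov C.2 ((closure C.1 ∩ W) \ C.1)) ∧
      Z ∩ W ⊆ ⋃ C ∈ 𝒞, closure C.1 := by
  obtain ⟨i, hi⟩ := A.cover x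
  obtain ⟨W, 𝒞, h1, h2, h3, h4, h5, h6⟩ := Ans.dec ((A.e i).isOpen_inter_preimage_symm hU)
    (x := A.e i x) ⟨(A.e i).map_source hi, by
      rw [mem_preimage, (A.e i).left_inv hi]; exact hx⟩ (hZ.chart i)
  have hWt : W ⊆ (A.e i).target := fun z hz => (h3 hz).1
  have hW : ∀ y ∈ (A.e i).symm '' W, y ∈ (A.e i).source ∧ A.e i y ∈ W := fun y hy => by
    rwa [symm_image_eq hWt] at hy
  refine ⟨(A.e i).symm '' W, (fun C => ((A.e i).symm '' C.1, C.2)) '' 𝒞,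
    isOpen_symm_image hWt h1, ⟨_, h2, (A.e i).left_inv hi⟩, ?_, h4.image _, ?_, ?_⟩
  · rintro _ ⟨z, hz, rfl⟩
    exact (h3 hz).2
  · rintro _ ⟨C, hC, rfl⟩
    obtain ⟨a1, a2, a3, a4, a5, a6⟩ := h5 C hC
    have hCt : C.1 ⊆ (A.e i).target := fun z hz => (a1 hz).2.1
    refine ⟨?_, preconnected_symm_image hCt a2, ?_, (mem_closure_symm hCt hi).2 a4, ?_, ?_⟩
    · rintro _ ⟨z, hz, rfl⟩
      exact ⟨(a1 hz).1, (a1 hz).2.2⟩
    · rintro _ ⟨z, hz, rfl⟩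
      have b1 := (A.e i).map_target (hCt hz)
      have b2 := (A.e i).right_inv (hCt hz)
      refine ⟨⟨i, b1, b2.symm ▸ (a3 z hz).1⟩, (ev_chart b1).2 ?_⟩
      rw [b2]
      exact (a3 z hz).2.mono fun w hw h => ⟨w, hw h, rfl⟩
    · intro y hy
      refine (anAt_of_chart (hW y hy).1 ⟨W, h1, (hW y hy).2, a5⟩).congr ?_
      filter_upwards [ev_source (hW y hy).1] with z hz using (mem_closure_symm hCt hz).symm
    · refine (cov_symm (fun z hz => hWt hz.1.2) a6).sub fun y hy => ?_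
      obtain ⟨b1, b2⟩ := hW y hy.1.2
      exact ⟨A.e i y, ⟨⟨(mem_closure_symm hCt b1).1 hy.1.1, b2⟩,
        fun h => hy.2 ⟨_, h, (A.e i).left_inv b1⟩⟩, (A.e i).left_inv b1⟩
  · intro y hy
    obtain ⟨b1, b2⟩ := hW y hy.2
    obtain ⟨C, hC, h⟩ := mem_iUnion₂.1 (h6 ⟨by
      rw [mem_preimage, (A.e i).left_inv b1]; exact hy.1, b2⟩)
    exact mem_biUnion (mem_image_of_mem _ hC)
      ((mem_closure_symm (fun z hz => ((h5 C hC).1 hz).2.1) b1).2 h)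

/-! ### regular points -/

variable (A) in
/-- the regular points of `Z` in `U` -/
def rg (U Z : Set M) : Set M := {y | y ∈ U ∧ ∃ d, A.Reg Z d y}

theorem rg_sub {U Z : Set M} : A.rg U Z ⊆ U ∩ Z := fun _ hy => ⟨hy.1, hy.2.choose_spec.mem⟩

theorem comp_iff {U Z Y : Set M} : A.Comp U Z Y ↔
    ∃ y ∈ A.rg U Z, Y = U ∩ closure (connectedComponentIn (A.rg U Z) y) :=
  ⟨fun ⟨y, h1, h2, h3⟩ => ⟨y, ⟨h1, h2⟩, h3⟩, fun ⟨y, h1, h3⟩ => ⟨y, h1.1, h1.2, h3⟩⟩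

/-- the connected components of the regular locus are open in `Z` -/
theorem cc_open {U Z : Set M} (hU : IsOpen U) {y z : M}
    (hz : z ∈ connectedComponentIn (A.rg U Z) y) :
    ∀ᶠ w in 𝓝 z, w ∈ Z → w ∈ connectedComponentIn (A.rg U Z) y := by
  obtain ⟨h1, d, h2⟩ := connectedComponentIn_subset _ _ hz
  obtain ⟨W, a1, a2, a3, a4⟩ := h2.locconn ((hU.eventually_mem h1).and h2.eventually)
  filter_upwards [a1.mem_nhds a2] with w hw hwZ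
  rw [connectedComponentIn_eq hz]
  have h3 : Z ∩ W ⊆ A.rg U Z := fun v hv => ⟨(a3 hv.2).1, d, (a3 hv.2).2 hv.1⟩
  exact a4.subset_connectedComponentIn ⟨h2.mem, a2⟩ h3 ⟨hwZ, hw⟩

/-- the dimension is constant on a connected set of regular points -/
theorem reg_of_preconnected {Z K : Set M} (hK : IsPreconnected K) (h : ∀ y ∈ K, ∃ d, A.Reg Z d y)
    {d : ℕ} {x : M} (hx : x ∈ K) (hd : A.Reg Z d x) : ∀ y ∈ K, A.Reg Z d y := by
  intro y hy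
  refine hK.induction₂' (fun a b => A.Reg Z d a → A.Reg Z d b) (fun a ha => ?_)
    (fun _ _ _ _ _ _ h1 h2 h3 => h2 (h1 h3)) hx hy hd
  obtain ⟨k, hk⟩ := h a ha
  filter_upwards [mem_nhdsWithin_of_mem_nhds hk.eventually, self_mem_nhdsWithin] with b h1 h2
  have h3 : A.Reg Z k b := h1 (h b h2).choose_spec.mem
  exact ⟨fun h4 => hk.unique h4 ▸ h3, fun h4 => h3.unique h4 ▸ hk⟩

/-- local description of the closure of a component -/
theorem cc_local {U Z W : Set M} (hU : IsOpen U) (hW : IsOpen W) {𝒞 : Set (Set M × ℕ)}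
    (hf : 𝒞.Finite) (h1 : ∀ C ∈ 𝒞, C.1 ⊆ A.rg U Z ∧ IsPreconnected C.1)
    (h2 : Z ∩ W ⊆ ⋃ C ∈ 𝒞, closure C.1) (y : M) {z : M} (hz : z ∈ W) :
    z ∈ closure (connectedComponentIn (A.rg U Z) y) ↔
      ∃ C ∈ 𝒞, C.1 ⊆ connectedComponentIn (A.rg U Z) y ∧ z ∈ closure C.1 := by
  refine ⟨fun h => ?_, fun ⟨C, _, h3, h4⟩ => closure_mono h3 h4⟩
  have h3 : W ∩ connectedComponentIn (A.rg U Z) y ⊆
      ⋃ C ∈ {C | C ∈ 𝒞 ∧ C.1 ⊆ connectedComponentIn (A.rg U Z) y}, closure C.1 := by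
    intro w hw
    obtain ⟨C, hC, h4⟩ := mem_iUnion₂.1
      (h2 ⟨(rg_sub (connectedComponentIn_subset _ _ hw.2)).2, hw.1⟩)
    obtain ⟨v, h5, h6⟩ := ((mem_closure_iff_frequently.1 h4).and_eventually
      (cc_open hU hw.2)).exists
    refine mem_biUnion ⟨hC, ?_⟩ h4
    rw [connectedComponentIn_eq (h6 (rg_sub ((h1 C hC).1 h5)).2)]
    exact (h1 C hC).2.subset_connectedComponentIn h5 (h1 C hC).1
  have h4 := closure_minimal h3 ((hf.subset fun C hC => hC.1).isClosed_biUnion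
    fun _ _ => isClosed_closure) (hW.inter_closure ⟨hz, h⟩)
  obtain ⟨C, hC, h5⟩ := mem_iUnion₂.1 h4
  exact ⟨C, hC.1, hC.2, h5⟩

theorem Comp.sub {U Z Y : Set M} (hZ : A.An U Z) (h : A.Comp U Z Y) : Y ⊆ U ∩ Z := by
  obtain ⟨y, -, rfl⟩ := comp_iff.1 h
  exact fun z hz => ⟨hz.1, hZ.closure_sub ⟨hz.1, closure_mono
    (fun w hw => (rg_sub (connectedComponentIn_subset _ _ hw)).2) hz.2⟩⟩

theorem Comp.nonempty {U Z Y : Set M} (h : A.Comp U Z Y) : Y.Nonempty := by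
  obtain ⟨y, hy, rfl⟩ := comp_iff.1 h
  exact ⟨y, hy.1, subset_closure (mem_connectedComponentIn hy)⟩

theorem Comp.an {U Z Y : Set M} (hU : IsOpen U) (hZ : A.An U Z) (h : A.Comp U Z Y) : A.An U Y := by
  obtain ⟨y, -, rfl⟩ := comp_iff.1 h
  intro x hx
  obtain ⟨W, 𝒞, h1, h2, h3, h4, h5, h6⟩ := dec hU hx hZ
  have h7 := fun z hz => cc_local hU h1 h4 (fun C hC =>
    ⟨fun w hw => ⟨((h5 C hC).1 hw).2, _, ((h5 C hC).2.2.1 w hw).1⟩, (h5 C hC).2.1⟩) h6 y (z := z) hz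
  refine (anAt_biUnion (t := {C | C ∈ 𝒞 ∧ C.1 ⊆ connectedComponentIn (A.rg U Z) y})
    (Z := fun C => closure C.1) (h4.subset fun C hC => hC.1)
    fun C hC => (h5 C hC.1).2.2.2.2.1 x h2).congr ?_
  filter_upwards [h1.mem_nhds h2] with z hz
  rw [mem_inter_iff, h7 z hz, mem_iUnion₂]
  exact ⟨fun ⟨C, hC, h⟩ => ⟨h3 hz, C, hC.1, hC.2, h⟩, fun ⟨_, C, a, b, c⟩ => ⟨C, ⟨a, b⟩, c⟩⟩

/-- a component has a dense connected subset which is open in `Z` and consists of regular points -/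
theorem Comp.core {U Z Y : Set M} (hU : IsOpen U) (hZ : A.An U Z) (h : A.Comp U Z Y) :
    ∃ (d : ℕ) (K : Set M), K.Nonempty ∧ IsPreconnected K ∧ Y = U ∩ closure K ∧ K ⊆ Y ∧
      ∀ y ∈ K, A.Reg Z d y ∧ A.Reg Y d y ∧ ∀ᶠ z in 𝓝 y, z ∈ Z → z ∈ K := by
  have h0 := h.sub hZ
  obtain ⟨y, hy, rfl⟩ := comp_iff.1 h
  obtain ⟨d, hd⟩ := hy.2
  have h1 := reg_of_preconnected (isPreconnected_connectedComponentIn (F := A.rg U Z) (x := y))
    (fun z hz => (connectedComponentIn_subset _ _ hz).2) (mem_connectedComponentIn hy) hd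
  have h2 : connectedComponentIn (A.rg U Z) y ⊆ U ∩ closure (connectedComponentIn (A.rg U Z) y) :=
    fun z hz => ⟨(connectedComponentIn_subset _ _ hz).1, subset_closure hz⟩
  refine ⟨d, _, ⟨y, mem_connectedComponentIn hy⟩, isPreconnected_connectedComponentIn, rfl, h2,
    fun z hz => ⟨h1 z hz, (h1 z hz).congr ?_, cc_open hU hz⟩⟩
  exact (cc_open hU hz).mono fun w hw => ⟨fun h3 => h2 (hw h3), fun h3 => (h0 h3).2⟩

theorem Comp.irr {U Z Y : Set M} (hU : IsOpen U) (hZ : A.An U Z) (h : A.Comp U Z Y) :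
    Y ⊆ Z ∧ ∃ d, A.Irr U Y d := by
  obtain ⟨d, K, h1, h2, h3, h4, h5⟩ := h.core hU hZ
  exact ⟨fun z hz => (h.sub hZ hz).2, d, irr_of_dense (h.an hU hZ) h1 h2
    (fun y hy => ⟨(h.sub hZ (h4 hy)).1, (h5 y hy).2.1⟩) fun y hy => (h3 ▸ hy.2).2⟩

theorem comp_lf {U Z : Set M} (hU : IsOpen U) (hZ : A.An U Z) {x : M} (hx : x ∈ U) :
    ∃ N ∈ 𝓝 x, {Y | A.Comp U Z Y ∧ (Y ∩ N).Nonempty}.Finite := by
  obtain ⟨W, 𝒞, h1, h2, -, h4, h5, h6⟩ := dec hU hx hZ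
  refine ⟨W, h1.mem_nhds h2, (h4.image fun C =>
    U ∩ closure (⋃ y ∈ C.1, connectedComponentIn (A.rg U Z) y)).subset ?_⟩
  rintro Y ⟨hY, z, hz, hzW⟩
  obtain ⟨y, -, rfl⟩ := comp_iff.1 hY
  obtain ⟨C, hC, h7, h8⟩ := (cc_local hU h1 h4 (fun C hC =>
    ⟨fun w hw => ⟨((h5 C hC).1 hw).2, _, ((h5 C hC).2.2.1 w hw).1⟩, (h5 C hC).2.1⟩) h6 y hzW).1 hz.2
  refine ⟨C, hC, congrArg (fun S => U ∩ closure S) (subset_antisymm ?_ ?_)⟩
  · exact iUnion₂_subset fun w hw => (connectedComponentIn_eq (h7 hw)).ge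
  · obtain ⟨w, hw⟩ := closure_nonempty_iff.1 ⟨z, h8⟩
    exact (connectedComponentIn_eq (h7 hw)).le.trans
      (subset_biUnion_of_mem (u := fun y => connectedComponentIn (A.rg U Z) y) hw)

theorem comp_cover {U Z : Set M} (hU : IsOpen U) (hZ : A.An U Z) {x : M} (hx : x ∈ U)
    (hxZ : x ∈ Z) : ∃ Y, A.Comp U Z Y ∧ x ∈ Y := by
  obtain ⟨W, 𝒞, -, h2, -, -, h5, h6⟩ := dec hU hx hZ
  obtain ⟨C, hC, h7⟩ := mem_iUnion₂.1 (h6 ⟨hxZ, h2⟩)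
  obtain ⟨w, hw⟩ := closure_nonempty_iff.1 ⟨x, h7⟩
  have h8 : C.1 ⊆ A.rg U Z := fun v hv => ⟨((h5 C hC).1 hv).2, _, ((h5 C hC).2.2.1 v hv).1⟩
  exact ⟨_, comp_iff.2 ⟨w, h8 hw, rfl⟩, hx,
    closure_mono ((h5 C hC).2.1.subset_connectedComponentIn hw h8) h7⟩


theorem comp_countable [Countable A.ι] {U Z : Set M} (hU : IsOpen U) (hZ : A.An U Z) :
    {Y | A.Comp U Z Y}.Countable := by
  have := A.secondCountable
  choose! W hW hf using fun x (hx : x ∈ U) => comp_lf hU hZ hx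
  obtain ⟨t, h1, h2, h3⟩ := TopologicalSpace.countable_cover_nhdsWithin
    (s := U) (f := W) fun z hz => mem_nhdsWithin_of_mem_nhds (hW z hz)
  refine (h2.biUnion fun x hx => (hf x (h1 hx)).countable).mono fun Y hY => ?_
  obtain ⟨y, hy⟩ := Comp.nonempty hY
  obtain ⟨x, hx, h4⟩ := mem_iUnion₂.1 (h3 (Comp.sub hZ hY hy).1)
  exact mem_biUnion hx ⟨hY, y, hy, h4⟩

/-- only finitely many components meet a compact set -/
theorem comp_finite {U Z K : Set M} (hU : IsOpen U) (hZ : A.An U Z) (hK : IsCompact K)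
    (hKU : K ⊆ U) : {Y | A.Comp U Z Y ∧ (Y ∩ K).Nonempty}.Finite := by
  choose! W hW hf using fun x (hx : x ∈ U) => comp_lf hU hZ hx
  obtain ⟨t, h1, h2⟩ := hK.elim_nhds_subcover W fun x hx => hW x (hKU hx)
  refine (t.finite_toSet.biUnion fun x hx => hf x (hKU (h1 x hx))).subset ?_
  rintro Y ⟨hY, y, hy, hyK⟩
  obtain ⟨x, hx, h4⟩ := mem_iUnion₂.1 (h2 hyK)
  exact mem_biUnion hx ⟨hY, y, hy, h4⟩

/-- any union of components is analytic -/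
theorem an_sUnion_comp {U Z : Set M} (hU : IsOpen U) (hZ : A.An U Z) {T : Set (Set M)}
    (hT : ∀ Y ∈ T, A.Comp U Z Y) : A.An U (⋃₀ T) := by
  intro x hx
  obtain ⟨W, hW, hf⟩ := comp_lf hU hZ hx
  refine (anAt_biUnion (t := {Y | Y ∈ T ∧ (Y ∩ W).Nonempty}) (Z := id)
    (hf.subset fun Y hY => ⟨hT Y hY.1, hY.2⟩) fun Y hY => (hT Y hY.1).an hU hZ x hx).congr ?_
  filter_upwards [hW] with z hz
  rw [mem_iUnion₂]
  exact ⟨fun ⟨Y, hY, h⟩ => ⟨Y, hY.1, h⟩, fun ⟨Y, hY, h⟩ => ⟨Y, ⟨hY, z, h, hz⟩, h⟩⟩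

/-! ### dimension -/

/-- if all regular points have dimension `≤ d`, then the points which are not regular of dimension
`d` form a set of dimension `< d` -/
theorem An.cov_sing' {U Z : Set M} {d : ℕ} (hU : IsOpen U) (hZ : A.An U Z)
    (hd : ∀ y ∈ U, ∀ k, A.Reg Z k y → k ≤ d) : A.Cov d {y | y ∈ U ∩ Z ∧ ¬ A.Reg Z d y} := by
  refine cov_of_local fun x hx => ?_
  obtain ⟨W, 𝒞, h1, h2, -, h4, h5, h6⟩ := dec hU hx.1.1 hZ
  refine ⟨W, h1.mem_nhds h2, (cov_biUnion h4.countable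
    (S := fun C => {y | y ∈ closure C.1 ∩ W ∧ ¬ A.Reg Z d y}) fun C hC => ?_).sub fun y hy => ?_⟩
  · obtain ⟨a1, -, a3, a4, -, a6⟩ := h5 C hC
    obtain ⟨w, hw⟩ := closure_nonempty_iff.1 ⟨x, a4⟩
    rcases (hd w (a1 hw).2 _ (a3 w hw).1).eq_or_lt with h | h
    · exact (h ▸ a6).sub fun y hy => ⟨hy.1, fun h7 => hy.2 (h ▸ (a3 y h7).1)⟩
    · refine (((cov_of_reg fun y hy => (a3 y hy).1).mono h).union (a6.mono h.le)).sub
        fun y hy => ?_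
      by_cases h7 : y ∈ C.1
      · exact Or.inl h7
      · exact Or.inr ⟨hy.1, h7⟩
  · obtain ⟨C, hC, h7⟩ := mem_iUnion₂.1 (h6 ⟨hy.1.1.2, hy.2⟩)
    exact mem_biUnion hC ⟨⟨h7, hy.2⟩, hy.1.2⟩

theorem le_of_cov {U Z : Set M} {d k : ℕ} (hU : IsOpen U) (hd : A.Cov (d + 1) (U ∩ Z)) {y : M}
    (hy : y ∈ U) (h : A.Reg Z k y) : k ≤ d := by
  by_contra h1
  exact h.not_cov (hU.mem_nhds hy) ((hd.mono (not_le.1 h1)).sub (inter_comm _ _).le)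

theorem An.cov_sing {U Z : Set M} {d : ℕ} (hU : IsOpen U) (hZ : A.An U Z)
    (hd : A.Cov (d + 1) (U ∩ Z)) : A.Cov d {y | y ∈ U ∩ Z ∧ ¬ A.Reg Z d y} :=
  hZ.cov_sing' hU fun _ hy _ h => le_of_cov hU hd hy h

/-- the dimension of an analytic set is bounded by the dimensions at the regular points -/
theorem An.cov_of_le {U Z : Set M} {d : ℕ} (hU : IsOpen U) (hZ : A.An U Z)
    (hd : ∀ y ∈ U, ∀ k, A.Reg Z k y → k ≤ d) : A.Cov (d + 1) (U ∩ Z) := by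
  refine (((hZ.cov_sing' hU hd).mono d.le_succ).union
    (cov_of_reg (S := {y | A.Reg Z d y}) fun _ h => h)).sub fun y hy => ?_
  by_cases h : A.Reg Z d y
  · exact Or.inr h
  · exact Or.inl ⟨hy, h⟩

theorem Irr.cov {U Y : Set M} {d : ℕ} (hU : IsOpen U) (h : A.Irr U Y d) :
    A.Cov (d + 1) (U ∩ Y) := h.1.cov_of_le hU fun _ hy _ hk => (h.reg_eq hy hk).le

theorem Irr.cov_sing {U Y : Set M} {d : ℕ} (hU : IsOpen U) (h : A.Irr U Y d) :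
    A.Cov d {y | y ∈ U ∩ Y ∧ ¬ A.Reg Y d y} := h.1.cov_sing hU (h.cov hU)

/-- the regular locus is a submanifold -/
theorem reg_reg {U Y : Set M} {d : ℕ} (hU : IsOpen U) {y : M} (hy : y ∈ U) (h : A.Reg Y d y) :
    A.Reg {y | y ∈ U ∧ A.Reg Y d y} d y :=
  h.congr (((hU.eventually_mem hy).and h.eventually).mono fun _ hz =>
    ⟨fun h1 => ⟨hz.1, hz.2 h1⟩, fun h1 => h1.2.mem⟩)

/-- the identity theorem for irreducible sets -/
theorem Irr.dich {U Y Z : Set M} {d : ℕ} (hU : IsOpen U) (h : A.Irr U Y d) (hZ : A.An U Z) :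
    U ∩ Y ⊆ Z ∨ (A.Cov d (U ∩ Y ∩ Z) ∧ IsPreconnected ({y | y ∈ U ∧ A.Reg Y d y} \ Z) ∧
      U ∩ Y ⊆ closure ({y | y ∈ U ∧ A.Reg Y d y} \ Z)) := by
  rcases ident h.2.2.1 (fun y hy => reg_reg hU hy.1 hy.2) (hZ.mono fun _ hy => hy.1) with h1 | h1
  · exact Or.inl fun y hy => hZ.closure_sub ⟨hy.1, closure_mono h1 (h.2.2.2 hy)⟩
  · refine Or.inr ⟨(h1.1.union (h.cov_sing hU)).sub fun y hy => ?_, h1.2.1,
      h.2.2.2.trans (closure_minimal h1.2.2 isClosed_closure)⟩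
    by_cases h2 : A.Reg Y d y
    · exact Or.inl ⟨⟨hy.1.1, h2⟩, hy.2⟩
    · exact Or.inr ⟨hy.1, h2⟩

theorem Irr.drop {U Y Z : Set M} {d : ℕ} (hU : IsOpen U) (h : A.Irr U Y d) (hZ : A.An U Z) :
    U ∩ Y ⊆ Z ∨ A.Cov d (U ∩ Y ∩ Z) := (h.dich hU hZ).imp_right fun h => h.1

theorem Irr.not_cov {U Y : Set M} {d : ℕ} (hU : IsOpen U) (h : A.Irr U Y d) {O : Set M}
    (hO : IsOpen O) (hne : (O ∩ U ∩ Y).Nonempty) : ¬ A.Cov d (O ∩ U ∩ Y) := by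
  obtain ⟨x, hx⟩ := hne
  obtain ⟨y, h1, h2⟩ := mem_closure_iff.1 (h.2.2.2 ⟨hx.1.2, hx.2⟩) O hO hx.1.1
  exact fun h3 => h2.2.not_cov ((hO.inter hU).mem_nhds ⟨h1, h2.1⟩) (h3.sub (inter_comm _ _).le)

theorem Irr.not_cov' {U Y : Set M} {d : ℕ} (hU : IsOpen U) (h : A.Irr U Y d) :
    ¬ A.Cov d (U ∩ Y) := by
  simpa using h.not_cov hU isOpen_univ (by simpa using h.nonempty)

/-- an analytic set which contains an open piece of an irreducible set contains it -/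
theorem Irr.sub_of_open {U Y Z : Set M} {d : ℕ} (hU : IsOpen U) (h : A.Irr U Y d) (hZ : A.An U Z)
    {x : M} (hx : x ∈ U ∩ Y) (h1 : ∀ᶠ y in 𝓝 x, y ∈ Y → y ∈ Z) : U ∩ Y ⊆ Z := by
  refine (h.drop hU hZ).resolve_right fun h2 => ?_
  obtain ⟨O, a1, a2, a3⟩ := _root_.eventually_nhds_iff.1 h1
  exact h.not_cov hU a2 ⟨x, ⟨a3, hx.1⟩, hx.2⟩
    (h2.sub fun y hy => ⟨⟨hy.1.2, hy.2⟩, a1 y hy.1.1 hy.2⟩)

/-- a subset of dimension `< d` is nowhere dense in an irreducible set of dimension `d` -/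
theorem Irr.sub_closure_diff {U Y S : Set M} {d : ℕ} (hU : IsOpen U) (h : A.Irr U Y d)
    (hS : A.Cov d S) : U ∩ Y ⊆ closure ((U ∩ Y) \ S) := fun x hx =>
  mem_closure_iff.2 fun O hO hxO => by
    by_contra h1
    refine h.not_cov hU hO ⟨x, ⟨hxO, hx.1⟩, hx.2⟩ (hS.sub fun y hy => ?_)
    by_contra h2
    exact h1 ⟨y, hy.1.1, ⟨hy.1.2, hy.2⟩, h2⟩

/-- irreducible sets are not countable unions of proper analytic subsets -/
theorem Irr.sub_iUnion {U Y : Set M} {d : ℕ} (hU : IsOpen U) (h : A.Irr U Y d) {ι : Sort*}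
    [Countable ι] {Z : ι → Set M} (hZ : ∀ i, A.An U (Z i)) (hs : U ∩ Y ⊆ ⋃ i, Z i) :
    ∃ i, U ∩ Y ⊆ Z i := by
  by_contra h1
  refine h.not_cov' hU ((cov_iUnion fun i => (h.drop hU (hZ i)).resolve_left
    fun h2 => h1 ⟨i, h2⟩).sub fun y hy => ?_)
  obtain ⟨i, hi⟩ := mem_iUnion.1 (hs hy)
  exact mem_iUnion.2 ⟨i, hy, hi⟩


/-- irreducible sets of the same dimension, one inside the other, are equal -/
theorem Irr.sub_of_sub {U Y Y' : Set M} {d k : ℕ} (hU : IsOpen U) (h : A.Irr U Y d)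
    (h' : A.Irr U Y' k) (hs : U ∩ Y ⊆ Y') (hk : k ≤ d) : U ∩ Y' ⊆ Y :=
  (h'.drop hU h.1).resolve_right fun h1 =>
    h.not_cov' hU ((h1.mono hk).sub fun _ hy => ⟨⟨hy.1, hs hy⟩, hy.2⟩)

/-- components are maximal -/
theorem Comp.max {U Z Y Y' : Set M} {d : ℕ} (hU : IsOpen U) (hZ : A.An U Z) (h : A.Comp U Z Y)
    (h' : A.Irr U Y' d) (h1 : Y ⊆ Y') (h2 : U ∩ Y' ⊆ Z) : U ∩ Y' ⊆ Y := by
  obtain ⟨k, K, ⟨y, hy⟩, -, -, a4, a5⟩ := h.core hU hZ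
  have h3 := (h.sub hZ (a4 hy)).1
  refine h'.sub_of_open hU (h.an hU hZ) ⟨h3, h1 (a4 hy)⟩ ?_
  filter_upwards [(a5 y hy).2.2, hU.mem_nhds h3] with z b1 b2 b3 using a4 (b1 (h2 ⟨b2, b3⟩))


/-- an irreducible set is its own component -/
theorem Irr.comp {U Y : Set M} {d : ℕ} (h : A.Irr U Y d) : A.Comp U Y (U ∩ Y) := by
  obtain ⟨y, hy⟩ := h.2.1
  have h1 : A.rg U Y = {y | y ∈ U ∧ A.Reg Y d y} := subset_antisymm
    (fun z hz => ⟨hz.1, h.reg_eq hz.1 hz.2.choose_spec ▸ hz.2.choose_spec⟩) fun z hz => ⟨hz.1, d, hz.2⟩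
  refine comp_iff.2 ⟨y, h1 ▸ hy, ?_⟩
  rw [h1, h.2.2.1.connectedComponentIn hy]
  exact subset_antisymm (fun z hz => ⟨hz.1, h.2.2.2 hz⟩) fun z hz =>
    ⟨hz.1, h.1.closure_sub ⟨hz.1, closure_mono (fun w hw => hw.2.mem) hz.2⟩⟩

theorem img_comp {U Z : Set M} (hU : IsOpen U) (hZ : A.An U Z) {C : Set N} {k : ℕ}
    (hc : IsPreconnected C) (hne : C.Nonempty) (hr : ∀ y ∈ C, B.Reg C k y) {f : N → M}
    (hf : ∀ y ∈ C, B.Hol A f y) (hm : ∀ y ∈ C, f y ∈ U ∩ Z) :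
    ∃ Y, A.Comp U Z Y ∧ ∀ y ∈ C, f y ∈ Y := by
  obtain ⟨x, hx⟩ := hne
  obtain ⟨W, hW, hfin⟩ := comp_lf hU hZ (hm x hx).1
  by_contra h1
  refine (hr x hx).not_cov ((hf x hx).1.preimage_mem_nhds hW)
    ((cov_biUnion hfin.countable (S := fun Y => C ∩ f ⁻¹' Y) fun Y hY => ?_).sub fun y hy => ?_)
  · exact ((ident hc hr ((hY.1.an hU hZ).preimage hf fun y hy => (hm y hy).1)).resolve_left
      fun h2 => h1 ⟨Y, hY.1, h2⟩).1
  · obtain ⟨Y, hY, h2⟩ := comp_cover hU hZ (hm y hy.1).1 (hm y hy.1).2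
    exact mem_biUnion (t := fun Y => C ∩ f ⁻¹' Y) ⟨hY, f y, h2, hy.2⟩ ⟨hy.1, h2⟩

/-- the holomorphic image of an irreducible set lies in one component -/
theorem Irr.img_comp {U Z : Set M} (hU : IsOpen U) (hZ : A.An U Z) {V C : Set N} {k : ℕ}
    (hV : IsOpen V) (hC : B.Irr V C k) {f : N → M} (hf : ∀ y ∈ V ∩ C, B.Hol A f y)
    (hm : ∀ y ∈ V ∩ C, f y ∈ U ∩ Z) : ∃ Y, A.Comp U Z Y ∧ ∀ y ∈ V ∩ C, f y ∈ Y := by
  obtain ⟨Y, hY, h⟩ := HA.img_comp hU hZ hC.2.2.1 hC.2.1 (fun y hy => reg_reg hV hy.1 hy.2)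
    (fun y hy => hf y ⟨hy.1, hy.2.mem⟩) fun y hy => hm y ⟨hy.1, hy.2.mem⟩
  exact ⟨Y, hY, fun y hy => (hY.an hU hZ).closure_sub
    ⟨(hm y hy).1, (hf y hy).1.continuousWithinAt.mem_closure (hC.2.2.2 hy) h⟩⟩


/-- submanifolds of the same dimension, one inside the other, agree locally -/
theorem Reg.sub_of_sub {C Z : Set M} {d : ℕ} {x : M} (hC : A.Reg C d x) (hZ : A.Reg Z d x)
    (hs : ∀ᶠ y in 𝓝 x, y ∈ C → y ∈ Z) : ∀ᶠ y in 𝓝 x, y ∈ Z → y ∈ C := by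
  refine (hZ.dich hC.anAt).resolve_right ?_
  rintro ⟨W, a1, a2, a3, -⟩
  exact hC.not_cov (inter_mem hs (a1.mem_nhds a2))
    (a3.sub fun y hy => ⟨⟨hy.2.1 hy.1, hy.1⟩, hy.2.2⟩)

theorem gen {U Z C : Set M} {d : ℕ} (hU : IsOpen U) (hZ : A.An U Z) (hd : A.Cov (d + 1) (U ∩ Z))
    {x : M} (hx : x ∈ U) (hr : A.Reg C d x) (hs : ∀ᶠ y in 𝓝 x, y ∈ C → y ∈ Z) :
    ∃ᶠ a in 𝓝 x, a ∈ C ∧ ∀ᶠ y in 𝓝 a, y ∈ Z → y ∈ C := by
  intro h
  refine hr.not_cov (h.and ((hU.eventually_mem hx).and (hr.eventually.and hs.eventually_nhds)))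
    ((hZ.cov_sing hU hd).sub fun a ha => ⟨⟨ha.2.2.1, ha.2.2.2.2.self_of_nhds ha.1⟩, fun h1 => ?_⟩)
  exact ha.2.1 ⟨ha.1, (ha.2.2.2.1 ha.1).sub_of_sub h1 ha.2.2.2.2⟩

end HA

end Crest.Agent.X261.Ans
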