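import Crest.Agent.X261.Ans.Cov

/-!
# X261/Ans/Cov2 (helper7): constant rank, stratification by the rank, fibres, preimages, slices

* `C2.Sg P S` : `S` is covered by countably many sets of the class `P` (`Cov k = Sg (Img k)`);
* `Cov.preimage`, `cov_fibre_subm` : preimages under submersions;
* `const_rank` : the constant rank theorem;
* `Cov.strat` : a set of dimension `< k` is covered by countably many pieces on which a given map
  has constant rank;
* `Cov.fibre`, `cov_image_of_rank`, `exists_inj_of_countable`, `Cov.dense_slice`.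
-/

set_option autoImplicit false
set_option linter.unusedSectionVars false

open Set Filter Topology Module
open Crest.Agent.R281.Thn_280

namespace Crest.Agent.X261.Ans

/-! ### countable coverings by sets of a given class -/

namespace C2

variable {X Y : Type} {P Q : Set X → Prop}

/-- `S` is covered by countably many sets of the class `P` -/
def Sg (P : Set X → Prop) (S : Set X) : Prop :=
  ∃ 𝒞 : Set (Set X), 𝒞.Countable ∧ (∀ T ∈ 𝒞, P T) ∧ S ⊆ ⋃₀ 𝒞

theorem Sg.sub {S T : Set X} (h : Sg P T) (hST : S ⊆ T) : Sg P S := by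
  obtain ⟨C, h1, h2, h3⟩ := h
  exact ⟨C, h1, h2, hST.trans h3⟩

theorem Sg.mono {S : Set X} (h : Sg P S) (hPQ : ∀ T, P T → Q T) : Sg Q S := by
  obtain ⟨C, h1, h2, h3⟩ := h
  exact ⟨C, h1, fun T hT => hPQ T (h2 T hT), h3⟩


theorem sg_of {T : Set X} (h : P T) : Sg P T :=
  ⟨{T}, countable_singleton T, fun _ h' => mem_singleton_iff.1 h' ▸ h, by simp⟩

theorem sg_iUnion {ι : Sort*} [Countable ι] {S : ι → Set X} (h : ∀ i, Sg P (S i)) :
    Sg P (⋃ i, S i) := by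
  choose C h1 h2 h3 using h
  refine ⟨⋃ i, C i, countable_iUnion h1, fun T hT => ?_,
    iUnion_subset fun i => (h3 i).trans (sUnion_mono (subset_iUnion C i))⟩
  obtain ⟨i, hi⟩ := mem_iUnion.1 hT
  exact h2 i T hi

theorem sg_biUnion {α : Type*} {t : Set α} (ht : t.Countable) {S : α → Set X}
    (h : ∀ i ∈ t, Sg P (S i)) : Sg P (⋃ i ∈ t, S i) := by
  have := ht.to_subtype
  rw [biUnion_eq_iUnion]
  exact sg_iUnion fun i : t => h i i.2

theorem Sg.union {S T : Set X} (hS : Sg P S) (hT : Sg P T) : Sg P (S ∪ T) := by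
  rw [union_eq_iUnion]
  refine sg_iUnion fun b => ?_
  cases b <;> assumption

/-- elimination: a monotone assignment `Φ` which commutes with unions -/
theorem Sg.elim {R : Set Y → Prop} {S : Set X} (h : Sg P S) {D : Set Y} {Φ : Set X → Set Y}
    (h1 : ∀ T, P T → Sg R (Φ T)) (h2 : ∀ 𝒞 : Set (Set X), S ⊆ ⋃₀ 𝒞 → D ⊆ ⋃ T ∈ 𝒞, Φ T) :
    Sg R D := by
  obtain ⟨C, hc, hP, hS⟩ := h
  exact (sg_biUnion hc fun T hT => h1 T (hP T hT)).sub (h2 C hS)

theorem Sg.trans {S : Set X} (h : Sg P S) (h1 : ∀ T, P T → Sg Q (S ∩ T)) : Sg Q S :=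
  h.elim (Φ := fun T => S ∩ T) h1 fun _ hC _ hx => by
    obtain ⟨T, hT, hx'⟩ := hC hx
    exact mem_biUnion hT ⟨hx, hx'⟩

theorem Sg.img {R : Set Y → Prop} {S : Set X} (h : Sg P S) {f : X → Y}
    (h1 : ∀ T, P T → Sg R (f '' (S ∩ T))) : Sg R (f '' S) :=
  h.elim (Φ := fun T => f '' (S ∩ T)) h1 fun _ hC => by
    rintro _ ⟨x, hx, rfl⟩
    obtain ⟨T, hT, hx'⟩ := hC hx
    exact mem_biUnion hT ⟨x, ⟨hx, hx'⟩, rfl⟩

theorem Sg.pre {R : Set Y → Prop} {S : Set X} (h : Sg P S) {f : Y → X} {U : Set Y}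
    (h1 : ∀ T, P T → Sg R (U ∩ f ⁻¹' T)) : Sg R (U ∩ f ⁻¹' S) :=
  h.elim (Φ := fun T => U ∩ f ⁻¹' T) h1 fun _ hC _ hx => by
    obtain ⟨T, hT, hx'⟩ := hC hx.2
    exact mem_biUnion hT ⟨hx.1, hx'⟩

/-- Lindelöf in the source -/
theorem sg_img_local [TopologicalSpace Y] [SecondCountableTopology Y] {f : Y → X} {S : Set Y}
    (h : ∀ y ∈ S, ∃ N ∈ 𝓝 y, Sg P (f '' (S ∩ N))) : Sg P (f '' S) := by
  choose! N hN hS using h
  obtain ⟨t, htE, htc, hcov⟩ := TopologicalSpace.countable_cover_nhdsWithin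
    (s := S) (f := N) (fun z hz => mem_nhdsWithin_of_mem_nhds (hN z hz))
  refine (sg_biUnion htc fun z hz => hS z (htE hz)).sub ?_
  rintro _ ⟨z, hz, rfl⟩
  obtain ⟨w, hw, hzw⟩ := mem_iUnion₂.1 (hcov hz)
  exact mem_biUnion hw ⟨z, ⟨hz, hzw⟩, rfl⟩


end C2

open C2

variable {E F V : Type} [NormedAddCommGroup E] [NormedSpace ℂ E] [FiniteDimensional ℂ E]
  [NormedAddCommGroup F] [NormedSpace ℂ F] [FiniteDimensional ℂ F]
  [NormedAddCommGroup V] [NormedSpace ℂ V] [FiniteDimensional ℂ V]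

theorem cov_singleton (x : E) : Cov 1 ({x} : Set E) := cov_one.2 (countable_singleton x)

/-- holomorphic images of subsets of a space of dimension `< k` -/
theorem cov_img' {k : ℕ} {U : Set V} {γ : V → E} (hγ : ∀ t ∈ U, AnalyticAt ℂ γ t)
    (hk : finrank ℂ V < k) : Cov k (γ '' U) := ((cov_top U).image hγ).mono hk

namespace C2

theorem exists_rinv {L : V →L[ℂ] F} (h : Function.Surjective L) :
    ∃ A : F →L[ℂ] V, ∀ x, L (A x) = x := by
  obtain ⟨A, hA⟩ := (L : V →ₗ[ℂ] F).exists_rightInverse_of_surjective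
    (LinearMap.range_eq_top.2 h)
  exact ⟨LinearMap.toContinuousLinearMap A, fun x => LinearMap.congr_fun hA x⟩

theorem exists_linv {L : V →L[ℂ] F} (h : Function.Injective L) :
    ∃ A : F →L[ℂ] V, ∀ x, A (L x) = x := by
  obtain ⟨A, hA⟩ := (L : V →ₗ[ℂ] F).exists_leftInverse_of_injective
    (LinearMap.ker_eq_bot.2 h)
  exact ⟨LinearMap.toContinuousLinearMap A, fun x => LinearMap.congr_fun hA x⟩

theorem finrank_ker {L : V →L[ℂ] F} (h : Function.Surjective L) :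
    finrank ℂ F + finrank ℂ (LinearMap.ker (L : V →ₗ[ℂ] F)) = finrank ℂ V := by
  have h3 := LinearMap.finrank_range_add_finrank_ker (L : V →ₗ[ℂ] F)
  rwa [LinearMap.range_eq_top.2 h, finrank_top] at h3

/-- `straighten` for a submersion at a point -/
theorem straight {g : V → F} {t : V} (hg : AnalyticAt ℂ g t) {A : F →L[ℂ] V}
    (hA : ∀ x, fderiv ℂ g t (A x) = x) {N : Set V} (hN : N ∈ 𝓝 t) :
    ∃ (O O' : Set V) (G Ψ : V → V), IsOpen O ∧ IsOpen O' ∧ t ∈ O ∧ O ⊆ N ∧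
      AnalyticOnNhd ℂ g O ∧ AnalyticOnNhd ℂ G O' ∧ AnalyticOnNhd ℂ Ψ O ∧
      (∀ z ∈ O, Ψ z ∈ O' ∧ G (Ψ z) = z ∧ fderiv ℂ g t (Ψ z) = g z) ∧
      (∀ w ∈ O', G w ∈ O ∧ Ψ (G w) = w ∧ g (G w) = fderiv ℂ g t w) := by
  have : CompleteSpace V := FiniteDimensional.complete ℂ V
  have : CompleteSpace F := FiniteDimensional.complete ℂ F
  obtain ⟨O, O', G, h1, h2, h3, h4, h5, h6, h7⟩ :=
    straighten (F := g) (inter_mem hN hg.eventually_analyticAt) (fun z hz => hz.2) _ rfl A hA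
  refine ⟨O, O', G, fun z => z + A (g z - fderiv ℂ g t z), h1, h2, h3, fun z hz => (h4 hz).1,
    fun z hz => (h4 hz).2, h5, fun z hz => ?_, h6, h7⟩
  exact analyticAt_id.add ((A.analyticAt _).comp
    (AnalyticAt.sub (h4 hz).2 ((fderiv ℂ g t).analyticAt z)))

end C2

/-- preimages under submersions -/
theorem Cov.preimage {k : ℕ} {S : Set F} (h : Cov k S) {g : V → F} {U : Set V}
    (hg : ∀ t ∈ U, AnalyticAt ℂ g t ∧ Function.Surjective (fderiv ℂ g t)) :
    Cov (k + (finrank ℂ V - finrank ℂ F)) (U ∩ g ⁻¹' S) := by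
  refine cov_of_local fun t ht => ?_
  obtain ⟨A, hA⟩ := exists_rinv (hg t ht.1).2
  obtain ⟨O, O', G, Ψ, h1, -, h3, -, -, h5, -, h6, -⟩ := straight (hg t ht.1).1 hA univ_mem
  have hK := finrank_ker (hg t ht.1).2
  set L := fderiv ℂ g t
  set K := LinearMap.ker (L : V →ₗ[ℂ] F)
  refine ⟨O, h1.mem_nhds h3, ?_⟩
  obtain ⟨c, hc⟩ : ∃ c, c = finrank ℂ K := ⟨_, rfl⟩
  have h7 : Cov (k + c) (S ×ˢ (univ : Set K)) := h.prod (hc ▸ cov_univ)
  have h8 : AnalyticOnNhd ℂ (fun p : F × K => A p.1 + (p.2 : V)) univ := fun p _ =>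
    ((A.analyticAt _).comp analyticAt_fst).add ((K.subtypeL.analyticAt _).comp analyticAt_snd)
  have h9 := ((h7.image fun p _ => h8 p (mem_univ _)).sub
    (inter_subset_left (t := O'))).image fun w hw => h5 w hw.2
  rw [show finrank ℂ V - finrank ℂ F = c by omega]
  refine h9.sub fun z hz => ?_
  obtain ⟨a1, a2, a3⟩ := h6 z hz.2
  refine ⟨Ψ z, ⟨⟨(g z, ⟨Ψ z - A (g z), ?_⟩), ⟨hz.1.2, mem_univ _⟩, add_sub_cancel _ _⟩, a1⟩, a2⟩
  change L (Ψ z - A (g z)) = 0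
  rw [map_sub, a3, hA, sub_self]

/-- fibres of submersions -/
theorem cov_fibre_subm {g : V → F} {U : Set V}
    (hg : ∀ t ∈ U, AnalyticAt ℂ g t ∧ Function.Surjective (fderiv ℂ g t)) (y : F) :
    Cov (1 + (finrank ℂ V - finrank ℂ F)) (U ∩ g ⁻¹' {y}) := (cov_singleton y).preimage hg


namespace C2

/-- the rank -/
noncomputable abbrev rk (T : V →L[ℂ] F) : ℕ := finrank ℂ (LinearMap.range (T : V →ₗ[ℂ] F))

theorem rk_le (T : V →L[ℂ] F) : rk T ≤ finrank ℂ F := Submodule.finrank_le _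

theorem rk_le' (T : V →L[ℂ] F) : rk T ≤ finrank ℂ V := LinearMap.finrank_range_le _



/-- the restriction of `B` to the range of `T` -/
theorem surj_range {T : V →L[ℂ] F} {B : F →L[ℂ] E} (h : Function.Surjective (B.comp T)) :
    Function.Surjective ((B : F →ₗ[ℂ] E) ∘ₗ (LinearMap.range (T : V →ₗ[ℂ] F)).subtype) := by
  intro y
  obtain ⟨v, hv⟩ := h y
  exact ⟨⟨T v, v, rfl⟩, hv⟩

theorem le_rk {T : V →L[ℂ] F} {B : F →L[ℂ] E} (h : Function.Surjective (B.comp T)) :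
    finrank ℂ E ≤ rk T := LinearMap.finrank_le_finrank_of_surjective (surj_range h)

theorem eq_zero_of_rk {T : V →L[ℂ] F} {B : F →L[ℂ] E} (h : Function.Surjective (B.comp T))
    (h1 : rk T ≤ finrank ℂ E) {v : V} (hv : B (T v) = 0) : T v = 0 := by
  have h2 := (LinearMap.injective_iff_surjective_of_finrank_eq_finrank
    (le_antisymm h1 (le_rk h))).2 (surj_range h)
  have h3 := h2 (a₁ := ⟨T v, v, rfl⟩) (a₂ := 0) (by rw [map_zero]; exact hv)
  exact congrArg Subtype.val h3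

theorem rk_comp_le (T : V →L[ℂ] F) (A : E →L[ℂ] V) : rk (T.comp A) ≤ rk T :=
  Submodule.finrank_mono (by rintro _ ⟨v, rfl⟩; exact ⟨A v, rfl⟩)

/-- surjectivity of `B ∘ dg` is an open condition -/
theorem eventually_surj {g : V → F} {t : V} (hg : AnalyticAt ℂ g t) {B : F →L[ℂ] E}
    (h : Function.Surjective (B.comp (fderiv ℂ g t))) :
    ∀ᶠ s in 𝓝 t, Function.Surjective (B.comp (fderiv ℂ g s)) := by
  have : CompleteSpace E := FiniteDimensional.complete ℂ E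
  have : CompleteSpace F := FiniteDimensional.complete ℂ F
  obtain ⟨A, hA⟩ := exists_rinv h
  have h1 : ContinuousAt (fun s => (B.comp (fderiv ℂ g s)).comp A) t :=
    (continuousAt_const.clm_comp hg.fderiv.continuousAt).clm_comp continuousAt_const
  have h2 : IsUnit ((B.comp (fderiv ℂ g t)).comp A) := by
    rw [show (B.comp (fderiv ℂ g t)).comp A = 1 from ContinuousLinearMap.ext hA]
    exact isUnit_one
  filter_upwards [h1.preimage_mem_nhds (Units.isOpen.mem_nhds h2)] with s hs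
  obtain ⟨u, hu⟩ : IsUnit ((B.comp (fderiv ℂ g s)).comp A) := hs
  intro y
  refine ⟨A ((↑u⁻¹ : E →L[ℂ] E) y), ?_⟩
  have h3 := congrArg (fun T : E →L[ℂ] E => T y) u.mul_inv
  rw [hu] at h3
  exact h3


/-- the rank drops only on the zero set of a minor -/
theorem exists_minor {g : V → F} {U : Set V} (hg : AnalyticOnNhd ℂ g U) (t : V) :
    ∃ μ : V → ℂ, AnalyticOnNhd ℂ μ U ∧ μ t ≠ 0 ∧
      ∀ s, μ s ≠ 0 → rk (fderiv ℂ g t) ≤ rk (fderiv ℂ g s) := by
  have : CompleteSpace F := FiniteDimensional.complete ℂ F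
  obtain ⟨r, hr⟩ : ∃ r, rk (fderiv ℂ g t) = r := ⟨_, rfl⟩
  obtain ⟨B, A, h⟩ := exists_AB (fderiv ℂ g t) hr
  rw [hr]
  let M : V → Matrix (Fin r) (Fin r) ℂ := fun z => Matrix.of fun i j : Fin r =>
    B (fderiv ℂ g z (A (Pi.single j 1))) i
  have hMv : ∀ z c, (M z).mulVec c = B (fderiv ℂ g z (A c)) := by
    intro z c
    have hc : c = ∑ j, c j • (Pi.single j 1 : Fin r → ℂ) := by
      ext i; simp [Finset.sum_apply, Pi.single_apply]
    conv_rhs => rw [hc]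
    rw [map_sum, map_sum, map_sum]
    ext i
    simp only [Matrix.mulVec, dotProduct, M, Matrix.of_apply, map_smul, Finset.sum_apply,
      Pi.smul_apply, smul_eq_mul]
    exact Finset.sum_congr rfl (fun j _ => mul_comm _ _)
  refine ⟨fun z => (M z).det, analyticOnNhd_det hg B A, ?_, fun s hs => ?_⟩
  · have h1 : M t = 1 := by
      apply Matrix.toLin'.injective
      ext1 j
      ext i
      simp only [Matrix.toLin'_one, LinearMap.comp_apply, Matrix.toLin'_apply, hMv, h]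
      rfl
    simp only [h1, Matrix.det_one]
    exact one_ne_zero
  · have h1 : Function.Surjective (B.comp (fderiv ℂ g s)) := fun x =>
      ⟨A ((M s)⁻¹.mulVec x), by
        change B (fderiv ℂ g s (A ((M s)⁻¹.mulVec x))) = x
        rw [← hMv, Matrix.mulVec_mulVec, Matrix.mul_nonsing_inv _ (isUnit_iff_ne_zero.2 hs),
          Matrix.one_mulVec]⟩
    simpa using le_rk h1

theorem exists_max_rk (g : V → F) {U : Set V} (hne : U.Nonempty) :
    ∃ t ∈ U, ∀ s ∈ U, rk (fderiv ℂ g s) ≤ rk (fderiv ℂ g t) := by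
  have hbdd : BddAbove ((fun s => rk (fderiv ℂ g s)) '' U) :=
    ⟨finrank ℂ F, by rintro _ ⟨z, _, rfl⟩; exact rk_le _⟩
  obtain ⟨t, ht, h1⟩ := Nat.sSup_mem (hne.image _) hbdd
  exact ⟨t, ht, fun s hs => h1.trans_ge (le_csSup hbdd ⟨s, hs, rfl⟩)⟩

/-- a map whose derivative kills `k` is constant in the direction `k` -/
theorem const_dir {Φ : V → F} {w₀ : V} {ε : ℝ} (hΦ : ∀ w ∈ Metric.ball w₀ ε, DifferentiableAt ℂ Φ w)
    {w k : V} (hk : ∀ w ∈ Metric.ball w₀ ε, fderiv ℂ Φ w k = 0) (hw : w ∈ Metric.ball w₀ ε)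
    (hw' : w + k ∈ Metric.ball w₀ ε) : Φ (w + k) = Φ w := by
  have h1 : IsOpen {s : ℂ | w + s • k ∈ Metric.ball w₀ ε} :=
    Metric.isOpen_ball.preimage (by fun_prop)
  have h2 : Convex ℝ {s : ℂ | w + s • k ∈ Metric.ball w₀ ε} :=
    ((convex_ball w₀ ε).translate_preimage_right w).is_linear_preimage (f := fun s : ℂ => s • k)
      ⟨fun a b => add_smul a b k, fun c a => smul_assoc c a k⟩
  have h3 : ∀ s ∈ {s : ℂ | w + s • k ∈ Metric.ball w₀ ε},
      HasDerivAt (fun s : ℂ => Φ (w + s • k)) 0 s := by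
    intro s hs
    have h4 : HasDerivAt (fun s : ℂ => w + s • k) k s := by
      simpa using ((hasDerivAt_id s).smul_const k).const_add w
    have h5 := (hΦ _ hs).hasFDerivAt.comp_hasDerivAt s h4
    rw [hk _ hs] at h5
    exact h5
  have h6 := h1.is_const_of_deriv_eq_zero h2.isPreconnected
    (fun s hs => (h3 s hs).differentiableAt.differentiableWithinAt) (fun s hs => (h3 s hs).deriv)
    (x := 1) (y := 0) (by simpa using hw') (by simpa using hw)
  simpa using h6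

end C2

/-- constant rank theorem -/
theorem const_rank {g : V → F} {t : V} (hg : AnalyticAt ℂ g t) {ρ : ℕ}
    (h1 : finrank ℂ (LinearMap.range (fderiv ℂ g t : V →ₗ[ℂ] F)) = ρ)
    (h2 : ∀ᶠ s in 𝓝 t, finrank ℂ (LinearMap.range (fderiv ℂ g s : V →ₗ[ℂ] F)) ≤ ρ) :
    ∃ (L : F →L[ℂ] (Fin ρ → ℂ)) (σ : (Fin ρ → ℂ) → F), AnalyticAt ℂ σ (L (g t)) ∧
      Function.Surjective (L.comp (fderiv ℂ g t)) ∧ (∀ᶠ u in 𝓝 (L (g t)), L (σ u) = u) ∧
      ∀ᶠ s in 𝓝 t, g s = σ (L (g s)) := by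
  have : CompleteSpace F := FiniteDimensional.complete ℂ F
  obtain ⟨B, A, hBA⟩ := exists_AB (fderiv ℂ g t) h1
  have hf : AnalyticAt ℂ (fun z => B (g z)) t := (B.analyticAt _).comp hg
  have hd : fderiv ℂ (fun z => B (g z)) t = B.comp (fderiv ℂ g t) :=
    (B.hasFDerivAt.comp t hg.differentiableAt.hasFDerivAt).fderiv
  obtain ⟨O, O', G, Ψ, hO, hO', ht, hON, -, hG, hΨ, s1, s2⟩ := straight hf (A := A)
    (fun x => by rw [hd]; exact hBA x) (h2.and hg.eventually_analyticAt)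
  rw [hd] at s1 s2
  set L := B.comp (fderiv ℂ g t) with hL
  have hLA : ∀ x, L (A x) = x := hBA
  obtain ⟨a1, a2, a3⟩ := s1 t ht
  obtain ⟨ε, hε, hεO⟩ := Metric.isOpen_iff.1 hO' _ a1
  have hΦ : ∀ w ∈ O', AnalyticAt ℂ (fun w => g (G w)) w := fun w hw =>
    AnalyticAt.comp (g := g) (f := G) (hON (s2 w hw).1).2 (hG w hw)
  have hker : ∀ k, L k = 0 → ∀ w ∈ O', fderiv ℂ (fun w => g (G w)) w k = 0 := by
    intro k hk w hw
    have b1 : HasFDerivAt (fun w => B (g (G w))) (B.comp (fderiv ℂ (fun w => g (G w)) w)) w :=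
      B.hasFDerivAt.comp w (hΦ w hw).differentiableAt.hasFDerivAt
    have b2 : HasFDerivAt (fun w => B (g (G w))) L w := by
      refine L.hasFDerivAt.congr_of_eventuallyEq ?_
      filter_upwards [hO'.mem_nhds hw] with x hx using (s2 x hx).2.2
    have b3 := b1.unique b2
    have b4 : fderiv ℂ (fun w => g (G w)) w = (fderiv ℂ g (G w)).comp (fderiv ℂ G w) :=
      fderiv_comp w (hON (s2 w hw).1).2.differentiableAt (hG w hw).differentiableAt
    refine eq_zero_of_rk (B := B) (by rw [b3]; exact fun x => ⟨A x, hLA x⟩) ?_ ?_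
    · rw [b4]
      exact (rk_comp_le _ _).trans (by simpa using (hON (s2 w hw).1).1)
    · exact (congrArg (fun T : V →L[ℂ] (Fin ρ → ℂ) => T k) b3).trans hk
  let τ : (Fin ρ → ℂ) → V := fun u => Ψ t + A (u - B (g t))
  have hτ : ∀ u, AnalyticAt ℂ τ u := fun u =>
    analyticAt_const.add ((A.analyticAt _).comp (analyticAt_id.sub analyticAt_const))
  have hτ0 : τ (B (g t)) = Ψ t := by simp [τ]
  have hLτ : ∀ u, L (τ u) = u := fun u => by
    simp only [τ, map_add, hLA, a3, add_sub_cancel]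
  have hτb : ∀ᶠ u in 𝓝 (B (g t)), τ u ∈ Metric.ball (Ψ t) ε :=
    (hτ _).continuousAt.preimage_mem_nhds (by rw [hτ0]; exact Metric.ball_mem_nhds _ hε)
  refine ⟨B, fun u => g (G (τ u)), ?_, fun x => ⟨A x, hBA x⟩, ?_, ?_⟩
  · exact AnalyticAt.comp (g := fun w => g (G w)) (f := τ) (hΦ _ (hτ0 ▸ a1)) (hτ _)
  · filter_upwards [hτb] with u hu
    rw [(s2 _ (hεO hu)).2.2, hLτ]
  · filter_upwards [hO.mem_nhds ht, (hΨ t ht).continuousAt.preimage_mem_nhds
      (Metric.ball_mem_nhds _ hε), hf.continuousAt.eventually hτb] with s hs h3 h4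
    obtain ⟨-, c2, c3⟩ := s1 s hs
    have h5 := const_dir (Φ := fun w => g (G w)) (fun w hw => (hΦ w (hεO hw)).differentiableAt)
      (k := τ (B (g s)) - Ψ s)
      (fun w hw => hker _ (by rw [map_sub, hLτ, c3, sub_self]) w (hεO hw)) h3
      (by rw [add_sub_cancel]; exact h4)
    rw [add_sub_cancel] at h5
    rw [h5, c2]

/-- a piece of dimension `< k` on which `f` factors as a submersion followed by an immersion -/
def Pc (f : E → F) (k : ℕ) (T : Set E) : Prop :=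
  ∃ (m : ℕ) (W : Set (Fin m → ℂ)) (γ : (Fin m → ℂ) → E) (ρ : ℕ) (L : F →L[ℂ] (Fin ρ → ℂ))
    (σ : (Fin ρ → ℂ) → F), m < k ∧ IsOpen W ∧ T = γ '' W ∧ ∀ s ∈ W, AnalyticAt ℂ γ s ∧
      AnalyticAt ℂ f (γ s) ∧ AnalyticAt ℂ σ (L (f (γ s))) ∧ f (γ s) = σ (L (f (γ s))) ∧
      Function.Surjective (L.comp (fderiv ℂ (f ∘ γ) s))

/-- **stratification by the rank** -/
theorem Cov.strat {k : ℕ} {S : Set E} (h : Cov k S) {f : E → F}
    (hf : ∀ x ∈ S, AnalyticAt ℂ f x) : Sg (Pc f k) S := by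
  have : CompleteSpace F := FiniteDimensional.complete ℂ F
  induction k using Nat.strong_induction_on generalizing S with
  | _ k ih =>
  refine Sg.trans (P := Img k) h ?_
  rintro _ ⟨m, U, γ, hm, hU, hγ, rfl⟩
  have hU' : IsOpen (U ∩ γ ⁻¹' {x | AnalyticAt ℂ f x}) :=
    hγ.continuousOn.isOpen_inter_preimage hU (isOpen_analyticAt ℂ f)
  refine Sg.sub (T := γ '' (U ∩ γ ⁻¹' {x | AnalyticAt ℂ f x})) (sg_img_local fun u hu => ?_) ?_
  swap
  · rintro _ ⟨hx, u, hu, rfl⟩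
    exact ⟨u, ⟨hu, hf _ hx⟩, rfl⟩
  obtain ⟨ε, hε, hb⟩ := Metric.isOpen_iff.1 hU' u hu
  refine ⟨_, Metric.ball_mem_nhds u hε, ?_⟩
  have hg : AnalyticOnNhd ℂ (f ∘ γ) (Metric.ball u ε) := fun s hs =>
    AnalyticAt.comp (hb hs).2 (hγ s (hb hs).1)
  obtain ⟨t, ht, hmax⟩ := exists_max_rk (f ∘ γ) ⟨u, Metric.mem_ball_self hε⟩
  obtain ⟨μ, hμ, hμ0, hμ1⟩ := exists_minor hg t
  have h1 : Cov m {s | s ∈ Metric.ball u ε ∧ μ s = 0} := by
    simpa using cov_zeros' Metric.isOpen_ball (convex_ball u ε).isPreconnected hμ ht hμ0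
  have h2 : Sg (Pc f k) (γ '' {s | s ∈ Metric.ball u ε ∧ μ s = 0}) := by
    refine (ih m hm (h1.image fun s hs => hγ s (hb hs.1).1) ?_).mono ?_
    · rintro _ ⟨s, hs, rfl⟩
      exact (hb hs.1).2
    · rintro T ⟨m', W, γ', ρ, L, σ, h3, h4⟩
      exact ⟨m', W, γ', ρ, L, σ, h3.trans hm, h4⟩
  have h3 : Sg (Pc f k) (γ '' {s | s ∈ Metric.ball u ε ∧ μ s ≠ 0}) := by
    refine sg_img_local fun s hs => ?_
    have h4 : ∀ᶠ s' in 𝓝 s, s' ∈ Metric.ball u ε := Metric.isOpen_ball.mem_nhds hs.1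
    obtain ⟨L, σ, a1, a2, -, a4⟩ := const_rank (hg s hs.1) rfl
      (h4.mono fun s' hs' => (hmax s' hs').trans (hμ1 s hs.2))
    have a5 : ∀ᶠ s' in 𝓝 s, AnalyticAt ℂ σ (L ((f ∘ γ) s')) :=
      (L.continuous.continuousAt.comp (hg s hs.1).continuousAt).eventually a1.eventually_analyticAt
    obtain ⟨W, w1, w2, w3⟩ := _root_.eventually_nhds_iff.1
      (h4.and (a5.and (a4.and (eventually_surj (hg s hs.1) a2))))
    refine ⟨W, w2.mem_nhds w3, Sg.sub (T := γ '' W) (sg_of ⟨m, W, γ, _, L, σ, hm, w2, rfl,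
      fun s' hs' => ?_⟩) (image_mono inter_subset_right)⟩
    obtain ⟨b1, b2, b3, b4⟩ := w1 s' hs'
    exact ⟨hγ s' (hb b1).1, (hb b1).2, b2, b3, b4⟩
  refine (h2.union h3).sub ?_
  rintro _ ⟨s, hs, rfl⟩
  by_cases h0 : μ s = 0
  · exact Or.inl ⟨s, ⟨hs.2, h0⟩, rfl⟩
  · exact Or.inr ⟨s, ⟨hs.2, h0⟩, rfl⟩

/-- general fibres have the expected dimension -/
theorem Cov.fibre {d : ℕ} {S : Set E} (h : Cov (d + 1) S) {f : E → F}
    (hf : ∀ x ∈ S, AnalyticAt ℂ f x) :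
    Cov (finrank ℂ F) {t : F | ¬ Cov (d + 1 - finrank ℂ F) (S ∩ f ⁻¹' {t})} := by
  obtain ⟨C, hC, hP, hS⟩ := h.strat hf
  refine (cov_biUnion hC (S := fun T => {t : F | ¬ Cov (d + 1 - finrank ℂ F) (T ∩ f ⁻¹' {t})})
    fun T hT => ?_).sub fun t ht => ?_
  · obtain ⟨m, W, γ, ρ, L, σ, hm, -, rfl, h1⟩ := hP T hT
    rcases lt_or_ge ρ (finrank ℂ F) with hρ | hρ
    · refine Cov.sub (cov_img' (U := {u | AnalyticAt ℂ σ u}) (γ := σ) (fun _ h => h)
        (by simpa using hρ)) fun t ht => ?_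
      by_contra h2
      refine ht ((cov_empty _).sub ?_)
      rintro _ ⟨⟨s, hs, rfl⟩, h3⟩
      exact h2 ⟨_, (h1 s hs).2.2.1, (h1 s hs).2.2.2.1.symm.trans h3⟩
    · refine Cov.sub (cov_empty _) fun t ht => ht ?_
      rcases W.eq_empty_or_nonempty with rfl | ⟨s0, hs0⟩
      · rw [image_empty, empty_inter]
        exact cov_empty _
      have h2 := (le_rk (h1 s0 hs0).2.2.2.2).trans (rk_le' _)
      have h3 : ∀ s ∈ W, AnalyticAt ℂ (L ∘ f ∘ γ) s ∧
          Function.Surjective (fderiv ℂ (L ∘ f ∘ γ) s) := fun s hs => by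
        have h4 : AnalyticAt ℂ (f ∘ γ) s := (h1 s hs).2.1.comp (h1 s hs).1
        refine ⟨(L.analyticAt _).comp h4, ?_⟩
        rw [(L.hasFDerivAt.comp s h4.differentiableAt.hasFDerivAt).fderiv]
        exact (h1 s hs).2.2.2.2
      refine (((cov_fibre_subm h3 (L t)).image fun s hs => (h1 s hs.1).1).mono ?_).sub ?_
      · simp only [finrank_fintype_fun_eq_card, Fintype.card_fin] at h2 ⊢
        omega
      · rintro _ ⟨⟨s, hs, rfl⟩, h4⟩
        exact ⟨s, ⟨hs, congrArg L h4⟩, rfl⟩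
  · by_contra h1
    refine ht ((cov_biUnion hC (S := fun T => T ∩ f ⁻¹' {t}) fun T hT => ?_).sub fun y hy => ?_)
    · by_contra h2
      exact h1 (mem_biUnion hT h2)
    · obtain ⟨T, hT, h2⟩ := hS hy.1
      exact mem_biUnion hT ⟨h2, hy.2⟩

theorem cov_image_of_rank {g : V → F} {U : Set V} (_hU : IsOpen U) (hg : AnalyticOnNhd ℂ g U)
    {k : ℕ} : Cov k (g '' {t | t ∈ U ∧
      finrank ℂ (LinearMap.range (fderiv ℂ g t : V →ₗ[ℂ] F)) < k}) := by
  refine Sg.img ((cov_top _).strat fun x hx => hg x hx.1) ?_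
  rintro _ ⟨m, W, γ, ρ, L, σ, -, -, rfl, h1⟩
  rcases lt_or_ge ρ k with hρ | hρ
  · refine Cov.sub (cov_img' (U := {u | AnalyticAt ℂ σ u}) (γ := σ) (fun _ h => h)
      (by simpa using hρ)) ?_
    rintro _ ⟨_, ⟨-, s, hs, rfl⟩, rfl⟩
    exact ⟨_, (h1 s hs).2.2.1, (h1 s hs).2.2.2.1.symm⟩
  · refine Cov.sub (cov_empty _) ?_
    rintro _ ⟨_, ⟨h2, s, hs, rfl⟩, rfl⟩
    have h3 := le_rk (h1 s hs).2.2.2.2
    rw [fderiv_comp s (h1 s hs).2.1.differentiableAt (h1 s hs).1.differentiableAt] at h3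
    have h4 := h3.trans (rk_comp_le _ _)
    simp only [finrank_fintype_fun_eq_card, Fintype.card_fin] at h4
    exact absurd (hρ.trans h4) (not_le.2 h2.2)

/-- critical values in the covering language -/
theorem cov_crit {g : V → F} {U : Set V} (hU : IsOpen U) (hg : AnalyticOnNhd ℂ g U) :
    Cov (finrank ℂ F) (g '' {t | t ∈ U ∧ ¬ Function.Surjective (fderiv ℂ g t)}) :=
  cov_iff_sth.2 (sard hU hg)

/-- if the rank is everywhere `< dim V`, then the fibres have dimension `≥ 1` somewhere -/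
theorem exists_inj_of_countable {g : V → F} {U : Set V} (hU : IsOpen U) (hne : U.Nonempty)
    (hg : AnalyticOnNhd ℂ g U) (hc : ∀ y, (U ∩ g ⁻¹' {y}).Countable) :
    ∃ t ∈ U, Function.Injective (fderiv ℂ g t) := by
  obtain ⟨t, ht, hmax⟩ := exists_max_rk g hne
  refine ⟨t, ht, ?_⟩
  obtain ⟨L, σ, -, a2, -, a4⟩ := const_rank (hg t ht) rfl
    (Filter.Eventually.mono (hU.mem_nhds ht) hmax)
  have hf : AnalyticAt ℂ (fun z => L (g z)) t := (L.analyticAt _).comp (hg t ht)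
  have hd : fderiv ℂ (fun z => L (g z)) t = L.comp (fderiv ℂ g t) :=
    (L.hasFDerivAt.comp t (hg t ht).differentiableAt.hasFDerivAt).fderiv
  obtain ⟨A, hA⟩ := exists_rinv a2
  obtain ⟨O, O', G, Ψ, -, hO', hto, hON, -, -, -, s1, s2⟩ := straight hf (A := A)
    (fun x => by rw [hd]; exact hA x) (inter_mem (hU.mem_nhds ht) a4)
  rw [hd] at s1 s2
  rw [injective_iff_map_eq_zero]
  intro k hk
  by_contra hk0
  obtain ⟨b1, -, b3⟩ := s1 t hto
  have h1 : {s : ℂ | Ψ t + s • k ∈ O'} ∈ 𝓝 (0 : ℂ) :=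
    (hO'.preimage (f := fun s : ℂ => Ψ t + s • k) (by fun_prop)).mem_nhds (by simpa using b1)
  have h2 : {s : ℂ | Ψ t + s • k ∈ O'}.Countable := by
    refine MapsTo.countable_of_injOn (f := fun s => G (Ψ t + s • k)) (fun s hs => ?_)
      (fun s hs s' hs' e => ?_) (hc (g t))
    · obtain ⟨c1, -, c3⟩ := s2 _ hs
      refine ⟨(hON c1).1, ?_⟩
      have c4 : g (G (Ψ t + s • k)) = σ (L (g (G (Ψ t + s • k)))) := (hON c1).2
      have c5 : g t = σ (L (g t)) := (hON hto).2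
      change g (G (Ψ t + s • k)) = g t
      rw [c4, c5, c3, map_add, b3, map_smul, ContinuousLinearMap.comp_apply, hk, map_zero,
        smul_zero, add_zero, ← c5]
    · have c1 := congrArg Ψ e
      rw [(s2 _ hs).2.1, (s2 _ hs').2.1, add_right_inj] at c1
      exact smul_left_injective ℂ hk0 c1
  have h3 : Cov (finrank ℂ ℂ) {s : ℂ | Ψ t + s • k ∈ O'} := by
    rw [finrank_self]
    exact cov_one.2 h2
  exact h3.not_mem_nhds 0 h1

/-- a generic linear map to `ℂ^s` has a countable fibre through `x` -/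
theorem Cov.dense_slice {s : ℕ} {S : Set E} (h : Cov (s + 1) S) (x : E) :
    Dense {l : E →L[ℂ] (Fin s → ℂ) | {y | y ∈ S ∧ l y = l x}.Countable} := by
  have hev : ∀ v : E, v ≠ 0 → ∀ c : Fin s → ℂ, ∃ l : E →L[ℂ] (Fin s → ℂ), l v = c := by
    intro v hv c
    obtain ⟨φ, hφ⟩ := exists_linv (L := ContinuousLinearMap.toSpanSingleton ℂ v)
      (smul_left_injective ℂ hv)
    refine ⟨φ.smulRight c, ?_⟩
    have h1 : φ v = 1 := by simpa using hφ 1
    rw [ContinuousLinearMap.smulRight_apply, h1, one_smul]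
  rcases subsingleton_or_nontrivial E with hE | hE
  · rw [show {l : E →L[ℂ] (Fin s → ℂ) | {y | y ∈ S ∧ l y = l x}.Countable} = univ from
      eq_univ_of_forall fun l => (Set.subsingleton_of_subsingleton).countable]
    exact dense_univ
  obtain ⟨D, hD⟩ : ∃ D, D = finrank ℂ (E →L[ℂ] (Fin s → ℂ)) := ⟨_, rfl⟩
  have hsD : s ≤ D := by
    obtain ⟨v, hv⟩ := exists_ne (0 : E)
    have h1 := LinearMap.finrank_le_finrank_of_surjective
      (f := (ContinuousLinearMap.apply ℂ (Fin s → ℂ) v).toLinearMap)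
      (hev v hv)
    simpa [hD] using h1
  let g : E × (E →L[ℂ] (Fin s → ℂ)) → E × (Fin s → ℂ) := fun p => (p.1, p.2 (p.1 - x))
  have hg : ∀ p ∈ {p : E × (E →L[ℂ] (Fin s → ℂ)) | p.1 ≠ x},
      AnalyticAt ℂ g p ∧ Function.Surjective (fderiv ℂ g p) := by
    intro p hp
    have h1 := (hasFDerivAt_fst (𝕜 := ℂ) (p := p)).prodMk
      ((hasFDerivAt_snd (𝕜 := ℂ) (p := p)).clm_apply
        ((hasFDerivAt_fst (𝕜 := ℂ) (p := p)).sub_const x))
    refine ⟨analyticAt_fst.prod (((ContinuousLinearMap.apply ℂ (Fin s → ℂ)).analyticAt_bilinear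
      (p.1 - x, p.2)).comp₂ (analyticAt_fst.sub analyticAt_const) analyticAt_snd), ?_⟩
    rw [HasFDerivAt.fderiv (f := g) h1]
    rintro ⟨v, c⟩
    obtain ⟨l, hl⟩ := hev _ (sub_ne_zero.2 hp) (c - p.2 v)
    refine ⟨(v, l), Prod.ext rfl ?_⟩
    change p.2 v + l (p.1 - x) = c
    rw [hl, add_sub_cancel]
  have h1 : Cov (s + 1) (S ×ˢ ({0} : Set (Fin s → ℂ))) := h.prod (b := 0) (cov_singleton 0)
  have h2 := (h1.preimage hg).mono (l := D + 1) (by
    rw [finrank_prod, finrank_prod, ← hD]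
    simp only [finrank_fintype_fun_eq_card, Fintype.card_fin]
    omega)
  have h3 := (h2.fibre (f := Prod.snd) fun _ _ => analyticAt_snd).dense_compl
  rw [← hD, Nat.add_sub_cancel_left] at h3
  refine h3.mono fun l hl => ?_
  have h4 := ((cov_one.1 (not_not.1 hl)).image Prod.fst).insert x
  refine h4.mono fun y hy => ?_
  by_cases h5 : y = x
  · exact Or.inl h5
  · refine Or.inr ⟨(y, l), ⟨⟨h5, hy.1, ?_⟩, rfl⟩, rfl⟩
    change l (y - x) = 0
    rw [map_sub, hy.2, sub_self]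

end Crest.Agent.X261.Ans
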