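import Crest.Agent.X261.Ans.Defs

/-!
# X261/Ans/Defs2 (helper8): classes of analytic relations (input and output of `eqvK`)
-/

set_option autoImplicit false
set_option linter.unusedSectionVars false

open Set Filter Topology

namespace Crest.Agent.X261.Ans

noncomputable section

/-- fibre product of two relations -/
def FP {M : Type} (Y₁ Y₂ : Set (M × M)) : Set (M × M × M) :=
  {t | (t.1, t.2.1) ∈ Y₁ ∧ (t.2.1, t.2.2) ∈ Y₂}

/-- a class of irreducible analytic relations containing the diagonal, closed under inverse and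
under images of the components of fibre products which contain the triple diagonal -/
structure RelK {E : Type} [NormedAddCommGroup E] [NormedSpace ℂ E] {M : Type}
    [TopologicalSpace M] (A : HA E M) where
  K : Set (Set (M × M))
  ne : K.Nonempty
  irr : ∀ Y ∈ K, ∃ d, (A.prod A).Irr univ Y d
  diag : ∀ Y ∈ K, ∀ x, (x, x) ∈ Y
  symm : ∀ Y ∈ K, ∃ Y' ∈ K, ∀ x y, (x, y) ∈ Y → (y, x) ∈ Y'
  up : ∀ Y₁ ∈ K, ∀ Y₂ ∈ K, ∀ C, (A.prod (A.prod A)).Comp univ (FP Y₁ Y₂) C →
    (∀ x, (x, x, x) ∈ C) → ∃ Y₃ ∈ K, ∀ t ∈ C, (t.1, t.2.2) ∈ Y₃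

/-- the maximal member of the class -/
structure EqvK {E : Type} [NormedAddCommGroup E] [NormedSpace ℂ E] {M : Type}
    [TopologicalSpace M] {A : HA E M} (D : RelK A) where
  p : ℕ
  r : ℕ
  hpr : p + r = Module.finrank ℂ E
  Y : Set (M × M)
  mem : Y ∈ D.K
  irr : (A.prod A).Irr univ Y (Module.finrank ℂ E + r)
  diag : ∀ x, (x, x) ∈ Y
  symm : ∀ x y, (x, y) ∈ Y → (y, x) ∈ Y
  max : ∀ Y' ∈ D.K, Y' ⊆ Y
  /-- the bad set is analytic and proper -/
  an_bad : A.An univ {x | ¬ (A.prod A).Reg Y (Module.finrank ℂ E + r) (x, x)}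
  ne_good : ∃ x, (A.prod A).Reg Y (Module.finrank ℂ E + r) (x, x)
  fol : ∀ x, (A.prod A).Reg Y (Module.finrank ℂ E + r) (x, x) → Fol A Y p x
  /-- the conormal determinant is meromorphic -/
  forms : ∀ (i : A.ι), ∀ x ∈ (A.e i).source, ∃ (W : Set E) (f : Fin p → E × E → ℂ), IsOpen W ∧
    IsPreconnected W ∧ A.e i x ∈ W ∧ W ⊆ (A.e i).target ∧
    (∀ j, AnalyticOnNhd ℂ (f j) (W ×ˢ W)) ∧
    (∀ j, ∀ y ∈ W, ∀ z ∈ W, ((A.e i).symm y, (A.e i).symm z) ∈ Y → f j (y, z) = 0) ∧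
    ∃ z ∈ W, Function.Surjective (fderiv ℂ (fun y => fun j => f j (z, y)) z)

/-- the statement of the theorem on classes of relations -/
def EqvKStmt : Prop :=
  ∀ (E : Type) [NormedAddCommGroup E] [NormedSpace ℂ E] [FiniteDimensional ℂ E] (M : Type)
    [TopologicalSpace M] [ConnectedSpace M] (A : HA E M) [Countable A.ι] (D : RelK A),
    Nonempty (EqvK D)


end

end Crest.Agent.X261.Ans
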