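import Crest.Agent.R275.Loc2A_879
import Crest.Agent.X261.Ans.Defs

-- ▼ part X261/Ans/PjA
section

/-!
Row 261, package ANS, file PjA (helper97): analytic sets given by ARBITRARY families of equations
(`ZerAt`), the norm of a holomorphic function along a finite projection, and Remmert's theorem
for the projection `E × ℂ → E`.
-/

set_option autoImplicit false
set_option linter.unusedSectionVars false

open Set Filter Topology Metric
open Crest.Agent.R266.SCV Crest.Agent.R275.Loc2879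

noncomputable section

namespace Crest.Agent.X261.Ans.Pj

universe u v

section Basic

variable {E : Type u} [NormedAddCommGroup E] [NormedSpace ℂ E]
variable {F : Type v} [NormedAddCommGroup F] [NormedSpace ℂ F]

/-- on `N`, the set `A` is the common zero set of the analytic functions on `N` vanishing on it -/
def SepOn (A N : Set E) : Prop :=
  ∀ x ∈ N, x ∉ A → ∃ f : E → ℂ, AnalyticOnNhd ℂ f N ∧ (∀ y ∈ N, y ∈ A → f y = 0) ∧ f x ≠ 0

/-- near `p`, the set `A` is the common zero set of a family of analytic functions -/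
def ZerAt (A : Set E) (p : E) : Prop := ∃ N ∈ 𝓝 p, SepOn A N

lemma SepOn.mono {A N N' : Set E} (h : SepOn A N) (hN : N' ⊆ N) : SepOn A N' := by
  intro x hx hxA
  obtain ⟨f, h1, h2, h3⟩ := h x (hN hx) hxA
  exact ⟨f, h1.mono hN, fun y hy => h2 y (hN hy), h3⟩

lemma SepOn.congr {A B N : Set E} (h : SepOn A N) (hAB : ∀ x ∈ N, x ∈ A ↔ x ∈ B) : SepOn B N := by
  intro x hx hxB
  obtain ⟨f, h1, h2, h3⟩ := h x hx (fun h => hxB ((hAB x hx).1 h))
  exact ⟨f, h1, fun y hy hyB => h2 y hy ((hAB y hy).2 hyB), h3⟩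




lemma sepOn_of_disjoint {A N : Set E} (h : ∀ y ∈ N, y ∉ A) : SepOn A N :=
  fun _ _ _ => ⟨fun _ => 1, analyticOnNhd_const, fun y hy hyA => (h y hy hyA).elim, one_ne_zero⟩


lemma SepOn.union {A B N : Set E} (hA : SepOn A N) (hB : SepOn B N) : SepOn (A ∪ B) N := by
  intro x hx hxAB
  obtain ⟨f, h1, h2, h3⟩ := hA x hx (fun h => hxAB (Or.inl h))
  obtain ⟨g, k1, k2, k3⟩ := hB x hx (fun h => hxAB (Or.inr h))
  refine ⟨fun y => f y * g y, fun y hy => (h1 y hy).mul (k1 y hy), fun y hy hyAB => ?_,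
    mul_ne_zero h3 k3⟩
  rcases hyAB with h | h
  · simp only [h2 y hy h, zero_mul]
  · simp only [k2 y hy h, mul_zero]

lemma SepOn.biUnion {ι : Type*} {s : Set ι} (hs : s.Finite) {A : ι → Set E} {N : Set E}
    (h : ∀ i ∈ s, SepOn (A i) N) : SepOn (⋃ i ∈ s, A i) N := by
  induction s, hs using Set.Finite.induction_on with
  | empty => exact sepOn_of_disjoint (by simp)
  | insert _ _ ih =>
    rw [biUnion_insert]
    exact (h _ (mem_insert _ _)).union (ih fun i hi => h i (mem_insert_of_mem _ hi))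


lemma SepOn.inter {A B N : Set E} (hA : SepOn A N) (hB : SepOn B N) : SepOn (A ∩ B) N := by
  intro x hx hxAB
  by_cases h : x ∈ A
  · obtain ⟨f, h1, h2, h3⟩ := hB x hx (fun h' => hxAB ⟨h, h'⟩)
    exact ⟨f, h1, fun y hy hyA => h2 y hy hyA.2, h3⟩
  · obtain ⟨f, h1, h2, h3⟩ := hA x hx h
    exact ⟨f, h1, fun y hy hyA => h2 y hy hyA.1, h3⟩

lemma SepOn.preimage {A N : Set F} (h : SepOn A N) {φ : E → F} {N' : Set E}
    (hφ : AnalyticOnNhd ℂ φ N') (hm : MapsTo φ N' N) : SepOn (φ ⁻¹' A) N' := by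
  intro x hx hxA
  obtain ⟨f, h1, h2, h3⟩ := h (φ x) (hm hx) hxA
  exact ⟨fun y => f (φ y), fun y hy => (h1 _ (hm hy)).comp (hφ y hy),
    fun y hy hyA => h2 _ (hm hy) hyA, h3⟩

/-- finitely many points off `A` are avoided by ONE equation -/
lemma SepOn.finite {A N : Set E} (h : SepOn A N) {Z : Set E} (hZ : Z.Finite)
    (hZN : ∀ z ∈ Z, z ∈ N ∧ z ∉ A) :
    ∃ f : E → ℂ, AnalyticOnNhd ℂ f N ∧ (∀ y ∈ N, y ∈ A → f y = 0) ∧ ∀ z ∈ Z, f z ≠ 0 := by
  induction Z, hZ using Set.Finite.induction_on with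
  | empty => exact ⟨fun _ => 0, analyticOnNhd_const, fun _ _ _ => rfl, by simp⟩
  | @insert x Z _ hZ ih =>
    obtain ⟨f, h1, h2, h3⟩ := ih fun z hz => hZN z (mem_insert_of_mem _ hz)
    obtain ⟨g, k1, k2, k3⟩ := h x (hZN x (mem_insert _ _)).1 (hZN x (mem_insert _ _)).2
    obtain ⟨t, ht⟩ := ((hZ.insert x).image (fun z => -f z / g z)).infinite_compl.nonempty
    refine ⟨fun y => f y + t * g y, fun y hy => (h1 y hy).add (analyticAt_const.mul (k1 y hy)),
      fun y hy hyA => by simp only [h2 y hy hyA, k2 y hy hyA, mul_zero, add_zero], fun z hz h0 => ?_⟩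
    replace h0 : f z + t * g z = 0 := h0
    have hg : g z ≠ 0 := by
      rcases hz with rfl | hz
      · exact k3
      · intro hg
        rw [hg, mul_zero, add_zero] at h0
        exact h3 z hz h0
    refine ht ⟨z, hz, ?_⟩
    show -f z / g z = t
    rw [div_eq_iff hg]
    linear_combination -h0

lemma ZerAt.congr {A B : Set E} {p : E} (h : ZerAt A p) (hAB : ∀ᶠ x in 𝓝 p, x ∈ A ↔ x ∈ B) :
    ZerAt B p := by
  obtain ⟨N, hN, h⟩ := h
  exact ⟨N ∩ {x | x ∈ A ↔ x ∈ B}, inter_mem hN hAB,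
    (h.mono inter_subset_left).congr fun x hx => hx.2⟩

lemma ZerAt.eventually {A : Set E} {p : E} (h : ZerAt A p) : ∀ᶠ q in 𝓝 p, ZerAt A q := by
  obtain ⟨N, hN, h⟩ := h
  filter_upwards [eventually_mem_nhds_iff.2 hN] with q hq
  exact ⟨N, hq, h⟩



lemma zerAt_of_eventually_notMem {A : Set E} {p : E} (h : ∀ᶠ x in 𝓝 p, x ∉ A) : ZerAt A p :=
  ⟨_, h, sepOn_of_disjoint fun _ hy => hy⟩

lemma ZerAt.union {A B : Set E} {p : E} (hA : ZerAt A p) (hB : ZerAt B p) : ZerAt (A ∪ B) p := by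
  obtain ⟨N, hN, h⟩ := hA
  obtain ⟨N', hN', h'⟩ := hB
  exact ⟨N ∩ N', inter_mem hN hN', (h.mono inter_subset_left).union (h'.mono inter_subset_right)⟩

lemma ZerAt.inter {A B : Set E} {p : E} (hA : ZerAt A p) (hB : ZerAt B p) : ZerAt (A ∩ B) p := by
  obtain ⟨N, hN, h⟩ := hA
  obtain ⟨N', hN', h'⟩ := hB
  exact ⟨N ∩ N', inter_mem hN hN', (h.mono inter_subset_left).inter (h'.mono inter_subset_right)⟩

lemma ZerAt.biUnion {ι : Type*} {s : Set ι} (hs : s.Finite) {A : ι → Set E} {p : E}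
    (h : ∀ i ∈ s, ZerAt (A i) p) : ZerAt (⋃ i ∈ s, A i) p := by
  induction s, hs using Set.Finite.induction_on with
  | empty => exact zerAt_of_eventually_notMem (by simp)
  | insert _ _ ih =>
    rw [biUnion_insert]
    exact (h _ (mem_insert _ _)).union (ih fun i hi => h i (mem_insert_of_mem _ hi))

lemma ZerAt.preimage [CompleteSpace F] {A : Set F} {φ : E → F} {p : E} (h : ZerAt A (φ p))
    (hφ : AnalyticAt ℂ φ p) : ZerAt (φ ⁻¹' A) p := by
  obtain ⟨N, hN, h⟩ := h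
  refine ⟨{x | AnalyticAt ℂ φ x} ∩ φ ⁻¹' N,
    inter_mem hφ.eventually_analyticAt (hφ.continuousAt hN), ?_⟩
  exact h.preimage (fun x hx => hx.1) (fun x hx => hx.2)


/-- an analytic set is closed -/
lemma ZerAt.mem_of_closure {A : Set E} {p : E} (h : ZerAt A p) (hp : p ∈ closure A) : p ∈ A := by
  obtain ⟨N, hN, h⟩ := h
  by_contra hpA
  obtain ⟨f, h1, h2, h3⟩ := h p (mem_of_mem_nhds hN) hpA
  have h4 := (h1 p (mem_of_mem_nhds hN)).continuousAt.eventually_ne h3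
  obtain ⟨y, hy, hyA⟩ := mem_closure_iff_nhds.1 hp _ (inter_mem hN h4)
  exact hy.2 (h2 y hy.1 hyA)

lemma ZerAt.eventually_notMem {A : Set E} {p : E} (h : ZerAt A p) (hp : p ∉ A) :
    ∀ᶠ x in 𝓝 p, x ∉ A := by
  have : p ∉ closure A := fun h' => hp (h.mem_of_closure h')
  filter_upwards [isClosed_closure.isOpen_compl.mem_nhds this] with x hx hxA
  exact hx (subset_closure hxA)

end Basic

section Norm

variable {E : Type u} [NormedAddCommGroup E] [NormedSpace ℂ E] [FiniteDimensional ℂ E]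

/-- matrix of the multiplication by `g` on `AA r / (f)` -/
def mulM (r : ℝ) (n : ℕ) (f g : E × ℂ → ℂ) (z : E) : Matrix (Fin n) (Fin n) ℂ :=
  fun i j => rmd r n f (fun p => g p * p.2 ^ (i : ℕ)) j z

/-- the norm of `g` along the finite projection `{f = 0} → E` -/
def nrm (r : ℝ) (n : ℕ) (f g : E × ℂ → ℂ) (z : E) : ℂ := (mulM r n f g z).det

lemma an_mul_pow {g : E × ℂ → ℂ} {W : Set (E × ℂ)} (hg : AnalyticOnNhd ℂ g W) (i : ℕ) :
    AnalyticOnNhd ℂ (fun p : E × ℂ => g p * p.2 ^ i) W :=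
  fun p hp => (hg p hp).mul (analyticAt_snd.pow i)

lemma analyticOnNhd_nrm {r : ℝ} {n : ℕ} {f g : E × ℂ → ℂ} {U : Set E} (hU : IsOpen U)
    (hf : AnalyticOnNhd ℂ f (U ×ˢ closedBall 0 r)) (hg : AnalyticOnNhd ℂ g (U ×ˢ closedBall 0 r)) :
    AnalyticOnNhd ℂ (nrm r n f g) (good r n f U) := by
  intro z hz
  have : nrm r n f g = fun z => ∑ σ : Equiv.Perm (Fin n),
      ((Equiv.Perm.sign σ : ℤ) : ℂ) * ∏ i, mulM r n f g z (σ i) i := by
    funext z
    rw [nrm, Matrix.det_apply']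
  rw [this]
  refine Finset.analyticAt_fun_sum _ fun σ _ => analyticAt_const.mul ?_
  exact Finset.analyticAt_fun_prod _ fun i _ =>
    analyticOnNhd_rmd hU hf (an_mul_pow hg _) i z hz

/-- zeros of `f (z, ·)` are roots of a monic polynomial, so finitely many -/
lemma finite_zeros {r : ℝ} {n : ℕ} {f : E × ℂ → ℂ} {U : Set E}
    (hf : AnalyticOnNhd ℂ f (U ×ˢ closedBall 0 r)) {z : E} (hz : z ∈ good r n f U) :
    {w | w ∈ closedBall (0 : ℂ) r ∧ f (z, w) = 0}.Finite := by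
  have hg : AnalyticOnNhd ℂ (fun p : E × ℂ => p.2 ^ n) (U ×ˢ closedBall 0 r) :=
    fun p _ => analyticAt_snd.pow n
  set P : Polynomial ℂ := Polynomial.X ^ n - ∑ j : Fin n,
    Polynomial.C (rmd r n f (fun p : E × ℂ => p.2 ^ n) j z) * Polynomial.X ^ (j : ℕ) with hP
  have hm : P.Monic := Polynomial.monic_X_pow_sub (Polynomial.degree_sum_fin_lt _)
  refine (P.roots.toFinset.finite_toSet).subset fun w hw => ?_
  have h := div_eq hf hg hz hw.1
  rw [hw.2, mul_zero, zero_add] at h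
  rw [Finset.mem_coe, Multiset.mem_toFinset, Polynomial.mem_roots hm.ne_zero]
  simp only [Polynomial.IsRoot, hP, Polynomial.eval_sub, Polynomial.eval_pow, Polynomial.eval_X,
    Polynomial.eval_finsetSum, Polynomial.eval_mul, Polynomial.eval_C]
  exact sub_eq_zero.2 h

lemma nrm_eq_zero {r : ℝ} {n : ℕ} {f g : E × ℂ → ℂ} {U : Set E}
    (hf : AnalyticOnNhd ℂ f (U ×ˢ closedBall 0 r)) (hg : AnalyticOnNhd ℂ g (U ×ˢ closedBall 0 r))
    {z : E} (hz : z ∈ good r n f U) {w : ℂ} (hw : w ∈ closedBall (0 : ℂ) r)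
    (h1 : f (z, w) = 0) (h2 : g (z, w) = 0) : nrm r n f g z = 0 := by
  rcases Nat.eq_zero_or_pos n with rfl | hn
  · have h := div_eq (n := 0) (g := fun _ => 1) hf analyticOnNhd_const hz hw
    simp [h1] at h
  · refine Matrix.exists_mulVec_eq_zero_iff.1 ⟨fun j => w ^ (j : ℕ), fun h0 => ?_, ?_⟩
    · have := congrFun h0 ⟨0, hn⟩
      simp at this
    · funext i
      have h := div_eq hf (an_mul_pow hg i) hz hw
      simp only [h1, h2, zero_mul, mul_zero, zero_add] at h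
      simp only [Matrix.mulVec, dotProduct, mulM, Pi.zero_apply]
      exact h.symm

lemma nrm_ne_zero {r : ℝ} {n : ℕ} {f g : E × ℂ → ℂ} {U : Set E}
    (hf : AnalyticOnNhd ℂ f (U ×ˢ closedBall 0 r)) (hg : AnalyticOnNhd ℂ g (U ×ˢ closedBall 0 r))
    {z : E} (hz : z ∈ good r n f U)
    (h : ∀ w ∈ closedBall (0 : ℂ) r, f (z, w) = 0 → g (z, w) ≠ 0) : nrm r n f g z ≠ 0 := by
  classical
  intro h0
  obtain ⟨a, ha, ha0⟩ := Matrix.exists_vecMul_eq_zero_iff.2 h0
  -- `p g = q f`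
  set q : AA r := ∑ i : Fin n, a i • (sol r n f (fun p => g p * p.2 ^ (i : ℕ)) z).1 with hq
  set p : ℂ → ℂ := fun w => ∑ i : Fin n, a i * w ^ (i : ℕ) with hp
  set Q : ℂ → ℂ := ext r (q : C(Kd r, ℂ)) with hQ
  have hQc : ContinuousOn Q (closedBall 0 r) := continuousOn_ext _
  have hQd : DifferentiableOn ℂ Q (ball 0 r) := mem_AA.1 q.2
  have key : ∀ w ∈ closedBall (0 : ℂ) r, p w * g (z, w) = Q w * f (z, w) := by
    intro w hw
    have e1 : Q w = ∑ i : Fin n, a i * quo r n f (fun p => g p * p.2 ^ (i : ℕ)) (z, w) := by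
      simp only [hQ, hq, quo, ext_apply _ hw]
      simp
    have e2 : ∑ i : Fin n, a i * ∑ j : Fin n, mulM r n f g z i j * w ^ (j : ℕ) = 0 := by
      simp only [Finset.mul_sum]
      rw [Finset.sum_comm]
      refine Finset.sum_eq_zero fun j _ => ?_
      have := congrFun ha0 j
      simp only [Matrix.vecMul, dotProduct, Pi.zero_apply] at this
      simp only [← mul_assoc]
      rw [← Finset.sum_mul, this, zero_mul]
    rw [e1, hp, Finset.sum_mul, Finset.sum_mul, ← add_zero (∑ i : Fin n, _ * f (z, w)), ← e2,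
      ← Finset.sum_add_distrib]
    refine Finset.sum_congr rfl fun i _ => ?_
    have h := div_eq hf (an_mul_pow hg i) hz hw
    simp only [mulM]
    linear_combination a i * h
  have hfz : AnalyticOnNhd ℂ (fun w => f (z, w)) (closedBall 0 r) := fun w hw =>
    AnalyticAt.comp (g := f) (f := fun w : ℂ => (z, w)) (hf _ ⟨hz.1, hw⟩)
      (analyticAt_const.prod analyticAt_id)
  have hgz : AnalyticOnNhd ℂ (fun w => g (z, w)) (closedBall 0 r) := fun w hw =>
    AnalyticAt.comp (g := g) (f := fun w : ℂ => (z, w)) (hg _ ⟨hz.1, hw⟩)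
      (analyticAt_const.prod analyticAt_id)
  have hpd : Differentiable ℂ p := by
    simp only [hp]; fun_prop
  set H : ℂ → ℂ := fun w => if f (z, w) = 0 then Q w / g (z, w) else p w / f (z, w) with hH
  have hH1 : ∀ w ∈ closedBall (0 : ℂ) r, g (z, w) ≠ 0 → H w = Q w / g (z, w) := by
    intro w hw hg0
    simp only [hH]
    split_ifs with h1
    · rfl
    · rw [div_eq_div_iff h1 hg0]; exact key w hw
  have hH2 : ∀ w, f (z, w) ≠ 0 → H w = p w / f (z, w) := fun w h1 => by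
    simp only [hH, if_neg h1]
  have hHc : ContinuousOn H (closedBall 0 r) := by
    intro w hw
    by_cases h1 : f (z, w) = 0
    · have hg0 := h w hw h1
      have hev : ∀ᶠ y in 𝓝[closedBall (0 : ℂ) r] w, H y = Q y / g (z, y) := by
        filter_upwards [self_mem_nhdsWithin,
          nhdsWithin_le_nhds ((hgz w hw).continuousAt.eventually_ne hg0)] with y hy hy'
        exact hH1 y hy hy'
      exact ((hQc w hw).div (hgz w hw).continuousAt.continuousWithinAt hg0).congr_of_eventuallyEq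
        hev (hH1 w hw hg0)
    · have hev : ∀ᶠ y in 𝓝 w, H y = p y / f (z, y) := by
        filter_upwards [(hfz w hw).continuousAt.eventually_ne h1] with y hy
        exact hH2 y hy
      exact ((hpd.continuous.continuousAt.div (hfz w hw).continuousAt h1).congr_of_eventuallyEq
        hev).continuousWithinAt
  have hHd : DifferentiableOn ℂ H (ball 0 r) := by
    intro w hw
    have hw' := ball_subset_closedBall hw
    refine DifferentiableAt.differentiableWithinAt ?_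
    by_cases h1 : f (z, w) = 0
    · have hg0 := h w hw' h1
      have hev : ∀ᶠ y in 𝓝 w, H y = Q y / g (z, y) := by
        filter_upwards [isOpen_ball.mem_nhds hw,
          (hgz w hw').continuousAt.eventually_ne hg0] with y hy hy'
        exact hH1 y (ball_subset_closedBall hy) hy'
      exact ((hQd.differentiableAt (isOpen_ball.mem_nhds hw)).div
        (hgz w hw').differentiableAt hg0).congr_of_eventuallyEq hev
    · have hev : ∀ᶠ y in 𝓝 w, H y = p y / f (z, y) := by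
        filter_upwards [(hfz w hw').continuousAt.eventually_ne h1] with y hy
        exact hH2 y hy
      exact ((hpd w).div (hfz w hw').differentiableAt h1).congr_of_eventuallyEq hev
  have hHf : ∀ w ∈ closedBall (0 : ℂ) r, f (z, w) * H w = p w := by
    intro w hw
    by_cases h1 : f (z, w) = 0
    · have := key w hw
      rw [h1, mul_zero] at this
      rw [h1, zero_mul, (mul_eq_zero.1 this).resolve_right (h w hw h1)]
    · rw [hH2 w h1]; field_simp
  let Hc : C(Kd r, ℂ) := ⟨fun k => H k, hHc.comp_continuous continuous_subtype_val fun k => k.2⟩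
  have hHA : Hc ∈ AA r := mem_AA_of hHd fun _ => rfl
  have hz0 : LL r n (famA r f z) (-⟨Hc, hHA⟩, a) = LL r n (famA r f z) 0 := by
    rw [map_zero]
    refine Subtype.ext (ContinuousMap.ext fun k => ?_)
    rw [LL_apply_apply, famA_apply hf hz.1]
    have := hHf k k.2
    simp only [hp] at this
    show f (z, k) * (-H k) + ∑ j : Fin n, a j * (k : ℂ) ^ (j : ℕ) = 0
    linear_combination -this
  exact ha (congrArg Prod.snd (hz.2.1 hz0))

end Norm

section One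

variable {E : Type u} [NormedAddCommGroup E] [NormedSpace ℂ E] [FiniteDimensional ℂ E]

/-- the local projection lemma, centred at `0` -/
lemma loc_zero {A N : Set (E × ℂ)} {x₀ : E} (hN : N ∈ 𝓝 (x₀, (0 : ℂ))) (h : SepOn A N)
    {f : E × ℂ → ℂ} (hf : AnalyticOnNhd ℂ f N) (hfA : ∀ y ∈ N, y ∈ A → f y = 0)
    (hne : ¬ ∀ᶠ w in 𝓝 (0 : ℂ), f (x₀, w) = 0) :
    ∃ r > 0, ∃ V ∈ 𝓝 x₀, SepOn (Prod.fst '' (A ∩ univ ×ˢ closedBall 0 r)) V ∧
      ∀ x ∈ V, {w | w ∈ closedBall (0 : ℂ) r ∧ (x, w) ∈ A}.Finite := by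
  have hf0 : AnalyticAt ℂ f (x₀, 0) := hf _ (mem_of_mem_nhds hN)
  obtain ⟨n, hn⟩ := ENat.ne_top_iff_exists.1
    (mt (analyticOrderAt_eq_top (f := fun w => f (x₀, w)) (z₀ := 0)).1 hne)
  obtain ⟨r₁, hr₁, h1⟩ := exists_good hf0 hn.symm
  obtain ⟨ε, hε, hεN⟩ := Metric.mem_nhds_iff.1 hN
  obtain ⟨r, hr, hrlt⟩ := exists_between (lt_min hr₁ hε)
  have hsub : ball x₀ ε ×ˢ closedBall (0 : ℂ) r ⊆ N := by
    intro p hp
    apply hεN
    rw [← ball_prod_same]
    exact ⟨hp.1, closedBall_subset_ball (hrlt.trans_le (min_le_right _ _)) hp.2⟩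
  have hfU := hf.mono hsub
  have hgood := h1 r hr (hrlt.trans_le (min_le_left _ _)) _ (mem_ball_self hε) hfU
  refine ⟨r, hr, good r n f (ball x₀ ε), (isOpen_good isOpen_ball hfU).mem_nhds hgood, ?_, ?_⟩
  · intro x hx hxA
    have hfin := (finite_zeros hfU hx).image (fun w => (x, w))
    obtain ⟨g, g1, g2, g3⟩ := h.finite hfin (by
      rintro _ ⟨w, hw, rfl⟩
      exact ⟨hsub ⟨hx.1, hw.1⟩, fun hA => hxA ⟨(x, w), ⟨hA, mem_univ _, hw.1⟩, rfl⟩⟩)
    have hgU := g1.mono hsub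
    refine ⟨nrm r n f g, analyticOnNhd_nrm isOpen_ball hfU hgU, ?_,
      nrm_ne_zero hfU hgU hx fun w hw h0 => g3 _ ⟨w, ⟨hw, h0⟩, rfl⟩⟩
    rintro _ hy ⟨⟨y, w⟩, ⟨hA, -, hw⟩, rfl⟩
    exact nrm_eq_zero hfU hgU hy hw (hfA _ (hsub ⟨hy.1, hw⟩) hA) (g2 _ (hsub ⟨hy.1, hw⟩) hA)
  · intro x hx
    exact (finite_zeros hfU hx).subset fun w hw => ⟨hw.1, hfA _ (hsub ⟨hx.1, hw.1⟩) hw.2⟩

/-- the local projection lemma -/
lemma loc {A N : Set (E × ℂ)} {x₀ : E} {w₀ : ℂ} (hN : N ∈ 𝓝 (x₀, w₀)) (h : SepOn A N)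
    {f : E × ℂ → ℂ} (hf : AnalyticOnNhd ℂ f N) (hfA : ∀ y ∈ N, y ∈ A → f y = 0)
    (hne : ¬ ∀ᶠ w in 𝓝 w₀, f (x₀, w) = 0) :
    ∃ r > 0, ∃ V ∈ 𝓝 x₀, SepOn (Prod.fst '' (A ∩ univ ×ˢ closedBall w₀ r)) V ∧
      ∀ x ∈ V, {w | w ∈ closedBall w₀ r ∧ (x, w) ∈ A}.Finite := by
  set τ : E × ℂ → E × ℂ := fun p => (p.1, p.2 + w₀) with hτ
  have hτa : ∀ p, AnalyticAt ℂ τ p := fun p =>
    analyticAt_fst.prod (analyticAt_snd.add analyticAt_const)
  have hN' : τ ⁻¹' N ∈ 𝓝 (x₀, (0 : ℂ)) := by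
    refine (hτa _).continuousAt ?_
    simpa [hτ] using hN
  obtain ⟨r, hr, V, hV, h1, h2⟩ := loc_zero (A := τ ⁻¹' A) hN'
    (h.preimage (fun p _ => hτa p) (fun p hp => hp)) (f := fun p => f (τ p))
    (fun p hp => (hf _ hp).comp (hτa p)) (fun y hy hyA => hfA _ hy hyA) (by
      intro h0
      apply hne
      have hc : Tendsto (fun w : ℂ => w - w₀) (𝓝 w₀) (𝓝 0) := by
        have : Continuous (fun w : ℂ => w - w₀) := by fun_prop
        simpa using this.tendsto w₀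
      filter_upwards [hc.eventually h0] with w hw
      simpa [hτ] using hw)
  refine ⟨r, hr, V, hV, h1.congr fun x _ => ⟨?_, ?_⟩, fun x hx => ?_⟩
  · rintro ⟨⟨y, w⟩, ⟨hA, -, hw⟩, rfl⟩
    exact ⟨(y, w + w₀), ⟨hA, mem_univ _, by simpa using hw⟩, rfl⟩
  · rintro ⟨⟨y, w⟩, ⟨hA, -, hw⟩, rfl⟩
    exact ⟨(y, w - w₀), ⟨by simpa [hτ] using hA, mem_univ _, by
      simpa [dist_eq_norm] using hw⟩, rfl⟩
  · refine ((h2 x hx).image (fun w => w + w₀)).subset fun w hw => ⟨w - w₀, ⟨?_, ?_⟩, by simp⟩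
    · simpa [dist_eq_norm] using hw.1
    · simpa [hτ] using hw.2

/-- a bounded fibre has empty interior: there is an equation regular in the last variable -/
lemma exists_reg_eq {A : Set (E × ℂ)} {x₀ : E} (hA : ∀ w, ZerAt A (x₀, w)) {R : ℝ}
    (hb : ∀ w, (x₀, w) ∈ A → ‖w‖ ≤ R) (w₀ : ℂ) :
    ∃ N ∈ 𝓝 (x₀, w₀), SepOn A N ∧ ∃ f : E × ℂ → ℂ, AnalyticOnNhd ℂ f N ∧
      (∀ y ∈ N, y ∈ A → f y = 0) ∧ ¬ ∀ᶠ w in 𝓝 w₀, f (x₀, w) = 0 := by
  -- step 1: near each point, either the fibre is everything or there is a regular equation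
  have step : ∀ w₀ : ℂ, ∃ N ∈ 𝓝 (x₀, w₀), SepOn A N ∧ ∃ ε > 0,
      (∀ w ∈ ball w₀ ε, (x₀, w) ∈ N) ∧ ((∀ w ∈ ball w₀ ε, (x₀, w) ∈ A) ∨
      ∃ f : E × ℂ → ℂ, AnalyticOnNhd ℂ f N ∧ (∀ y ∈ N, y ∈ A → f y = 0) ∧
        ∀ w₁ ∈ ball w₀ ε, ¬ ∀ᶠ w in 𝓝 w₁, f (x₀, w) = 0) := by
    intro w₀
    obtain ⟨N, hN, h⟩ := hA w₀
    have hc : ContinuousAt (fun w : ℂ => (x₀, w)) w₀ := by fun_prop
    obtain ⟨ε, hε, hεN⟩ := Metric.mem_nhds_iff.1 (hc hN)
    refine ⟨N, hN, h, ε, hε, fun w hw => hεN hw, ?_⟩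
    by_cases hall : ∀ w ∈ ball w₀ ε, (x₀, w) ∈ A
    · exact Or.inl hall
    · push Not at hall
      obtain ⟨w, hw, hwA⟩ := hall
      obtain ⟨f, h1, h2, h3⟩ := h _ (hεN hw) hwA
      refine Or.inr ⟨f, h1, h2, fun w₁ hw₁ h0 => h3 ?_⟩
      have hfa : AnalyticOnNhd ℂ (fun w => f (x₀, w)) (ball w₀ ε) := fun y hy =>
        AnalyticAt.comp (g := f) (f := fun w : ℂ => (x₀, w)) (h1 _ (hεN hy))
          (analyticAt_const.prod analyticAt_id)
      exact hfa.eqOn_zero_of_preconnected_of_eventuallyEq_zero (convex_ball w₀ ε).isPreconnected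
        hw₁ h0 hw
  set O : Set ℂ := interior {w | (x₀, w) ∈ A} with hO
  have hcl : IsClosed O := by
    refine isClosed_of_closure_subset fun w₀ hw₀ => ?_
    obtain ⟨N, hN, -, ε, hε, hεN, h | ⟨f, -, h2, h3⟩⟩ := step w₀
    · exact mem_interior.2 ⟨ball w₀ ε, h, isOpen_ball, mem_ball_self hε⟩
    · obtain ⟨w₁, hw₁, hw₁O⟩ := mem_closure_iff_nhds.1 hw₀ _ (ball_mem_nhds w₀ hε)
      refine (h3 w₁ hw₁ ?_).elim
      filter_upwards [isOpen_ball.mem_nhds hw₁, mem_interior_iff_mem_nhds.1 hw₁O] with w hw hw'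
      exact h2 _ (hεN w hw) hw'
  have hO0 : O = ∅ := by
    rcases isClopen_iff.1 ⟨hcl, isOpen_interior⟩ with h | h
    · exact h
    · have : ((|R| + 1 : ℝ) : ℂ) ∈ O := by rw [h]; exact mem_univ _
      have h3 : ((|R| + 1 : ℝ) : ℂ) ∈ {w | (x₀, w) ∈ A} := interior_subset this
      have h2 := hb _ h3
      rw [Complex.norm_real, Real.norm_eq_abs, abs_of_pos (by positivity)] at h2
      linarith [le_abs_self R]
  obtain ⟨N, hN, h, ε, hε, -, h' | ⟨f, h1, h2, h3⟩⟩ := step w₀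
  · have : w₀ ∈ O := mem_interior.2 ⟨ball w₀ ε, h', isOpen_ball, mem_ball_self hε⟩
    rw [hO0] at this
    exact this.elim
  · exact ⟨N, hN, h, f, h1, h2, h3 w₀ (mem_ball_self hε)⟩

/-- **Remmert's projection theorem, one fibre variable.** -/
theorem proj_one {A : Set (E × ℂ)} {x₀ : E} (hA : ∀ w, ZerAt A (x₀, w)) {R : ℝ}
    (hb : ∀ᶠ x in 𝓝 x₀, ∀ w, (x, w) ∈ A → ‖w‖ ≤ R) :
    ZerAt (Prod.fst '' A) x₀ ∧ ∀ᶠ x in 𝓝 x₀, {w | (x, w) ∈ A}.Finite := by
  have h1 : ∀ w₀ : ℂ, ∃ r > 0, ∃ V ∈ 𝓝 x₀,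
      SepOn (Prod.fst '' (A ∩ univ ×ˢ closedBall w₀ r)) V ∧
      ∀ x ∈ V, {w | w ∈ closedBall w₀ r ∧ (x, w) ∈ A}.Finite := by
    intro w₀
    obtain ⟨N, hN, h, f, h1, h2, h3⟩ := exists_reg_eq hA hb.self_of_nhds w₀
    exact loc hN h h1 h2 h3
  choose r hr V hV hs hfin using h1
  obtain ⟨t, -, ht⟩ := (isCompact_closedBall (0 : ℂ) R).elim_nhds_subcover
    (fun w => closedBall w (r w)) (fun w _ => closedBall_mem_nhds w (hr w))
  have hW : (⋂ w ∈ t, V w) ∩ {x | ∀ w, (x, w) ∈ A → ‖w‖ ≤ R} ∈ 𝓝 x₀ :=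
    inter_mem ((biInter_finset_mem t).2 fun w _ => hV w) hb
  constructor
  · refine ⟨_, hW, (SepOn.biUnion (s := (t : Set ℂ)) t.finite_toSet
      (A := fun w => Prod.fst '' (A ∩ univ ×ˢ closedBall w (r w))) fun w hw =>
        (hs w).mono fun x hx => mem_iInter₂.1 hx.1 w hw).congr fun x hx => ⟨?_, ?_⟩⟩
    · intro h
      obtain ⟨w, -, p, hp, rfl⟩ := mem_iUnion₂.1 h
      exact ⟨p, hp.1, rfl⟩
    · rintro ⟨⟨y, w⟩, hp, rfl⟩
      obtain ⟨w₁, hw₁, hw⟩ := mem_iUnion₂.1 (ht (mem_closedBall_zero_iff.2 (hx.2 w hp)))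
      exact mem_iUnion₂.2 ⟨w₁, hw₁, (y, w), ⟨hp, mem_univ _, hw⟩, rfl⟩
  · filter_upwards [hW] with x hx
    refine (t.finite_toSet.biUnion fun w hw => hfin w x (mem_iInter₂.1 hx.1 w hw)).subset
      fun w hw => ?_
    obtain ⟨w₁, hw₁, hw'⟩ := mem_iUnion₂.1 (ht (mem_closedBall_zero_iff.2 (hx.2 w hw)))
    exact mem_iUnion₂.2 ⟨w₁, hw₁, hw', hw⟩

end One

section Many

variable {E : Type u} [NormedAddCommGroup E] [NormedSpace ℂ E] [FiniteDimensional ℂ E]

lemma proj_fin (m : ℕ) : ∀ {A : Set (E × (Fin m → ℂ))} {x₀ : E}, (∀ w, ZerAt A (x₀, w)) →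
    ∀ {R : ℝ}, (∀ᶠ x in 𝓝 x₀, ∀ w, (x, w) ∈ A → ‖w‖ ≤ R) →
    ZerAt (Prod.fst '' A) x₀ ∧ ∀ᶠ x in 𝓝 x₀, {w | (x, w) ∈ A}.Finite := by
  induction m with
  | zero =>
    intro A x₀ hA R _
    refine ⟨?_, Eventually.of_forall fun x => toFinite _⟩
    have h := (hA 0).preimage (φ := fun x : E => (x, (0 : Fin 0 → ℂ))) (p := x₀)
      (analyticAt_id.prod analyticAt_const)
    refine h.congr (Eventually.of_forall fun x => ⟨fun hx => ⟨_, hx, rfl⟩, ?_⟩)
    rintro ⟨⟨y, w⟩, hp, rfl⟩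
    rwa [Subsingleton.elim w 0] at hp
  | succ m ih =>
    intro A x₀ hA R hb
    set φ : (E × (Fin m → ℂ)) × ℂ → E × (Fin (m + 1) → ℂ) :=
      fun p => (p.1.1, Fin.cons p.2 p.1.2) with hφ
    have hφa : ∀ p, AnalyticAt ℂ φ p := by
      intro p
      refine (analyticAt_fst.comp analyticAt_fst).prod (analyticAt_pi_iff.2 fun i => ?_)
      refine Fin.cases ?_ (fun j => ?_) i
      · simpa using analyticAt_snd
      · simp only [Fin.cons_succ]
        exact ((ContinuousLinearMap.proj (R := ℂ) (φ := fun _ : Fin m => ℂ) j).analyticAt _).comp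
          (analyticAt_snd.comp analyticAt_fst)
    have h1 : ∀ w' : Fin m → ℂ, ZerAt (Prod.fst '' (φ ⁻¹' A)) (x₀, w') ∧
        ∀ᶠ y in 𝓝 (x₀, w'), {w | (y, w) ∈ φ ⁻¹' A}.Finite := by
      intro w'
      refine proj_one (R := R) (fun w => ZerAt.preimage (hA _) (hφa _)) ?_
      filter_upwards [continuousAt_fst.eventually hb] with y hy w hw
      exact (norm_le_pi_norm (Fin.cons w y.2 : Fin (m + 1) → ℂ) 0).trans (hy _ hw)
    have hb' : ∀ᶠ x in 𝓝 x₀, ∀ w', (x, w') ∈ Prod.fst '' (φ ⁻¹' A) → ‖w'‖ ≤ R := by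
      filter_upwards [hb] with x hx
      rintro w' ⟨⟨y, w⟩, hp, h⟩
      simp only at h
      subst h
      have h2 := hx _ hp
      refine (pi_norm_le_iff_of_nonneg ((norm_nonneg _).trans h2)).2 fun j => ?_
      exact (norm_le_pi_norm (Fin.cons w w' : Fin (m + 1) → ℂ) j.succ).trans h2
    obtain ⟨h2, h3⟩ := ih (fun w' => (h1 w').1) hb'
    constructor
    · refine h2.congr (Eventually.of_forall fun x => ⟨?_, ?_⟩)
      · rintro ⟨_, ⟨p, hp, rfl⟩, rfl⟩
        exact ⟨φ p, hp, rfl⟩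
      · rintro ⟨⟨y, w⟩, hp, rfl⟩
        refine ⟨(y, Fin.tail w), ⟨((y, Fin.tail w), w 0), ?_, rfl⟩, rfl⟩
        simpa [hφ] using hp
    · have h4 : ∀ᶠ x in 𝓝 x₀, ∀ w' ∈ closedBall (0 : Fin m → ℂ) R,
          {w | ((x, w'), w) ∈ φ ⁻¹' A}.Finite :=
        (isCompact_closedBall 0 R).eventually_forall_of_forall_eventually fun w' _ => (h1 w').2
      filter_upwards [h3, h4, hb'] with x hx hx' hxb
      refine (hx.biUnion (t := fun w' => (fun w => (Fin.cons w w' : Fin (m + 1) → ℂ)) ''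
        {w | ((x, w'), w) ∈ φ ⁻¹' A}) fun w' hw' =>
          (hx' w' (mem_closedBall_zero_iff.2 (hxb w' hw'))).image _).subset fun w hw => ?_
      have h5 : ((x, Fin.tail w), w 0) ∈ φ ⁻¹' A := by simpa [hφ] using hw
      exact mem_iUnion₂.2 ⟨Fin.tail w, ⟨_, h5, rfl⟩, w 0, h5, Fin.cons_self_tail w⟩

variable {F : Type v} [NormedAddCommGroup F] [NormedSpace ℂ F] [FiniteDimensional ℂ F]

/-- **PROJ (Remmert).**  If `A ⊆ E × F` is analytic at the points of `{x₀} × K`, `K` compact, and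
the fibres of `A` over points near `x₀` lie in `K`, then the projection of `A` is analytic at `x₀`
and the fibres are finite. -/
theorem proj {A : Set (E × F)} {x₀ : E} {K : Set F} (hK : IsCompact K)
    (hA : ∀ w ∈ K, ZerAt A (x₀, w)) (hb : ∀ᶠ x in 𝓝 x₀, ∀ w, (x, w) ∈ A → w ∈ K) :
    ZerAt (Prod.fst '' A) x₀ ∧ ∀ᶠ x in 𝓝 x₀, {w | (x, w) ∈ A}.Finite := by
  have : CompleteSpace E := FiniteDimensional.complete ℂ E
  have : CompleteSpace F := FiniteDimensional.complete ℂ F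
  have hA' : ∀ w, ZerAt A (x₀, w) := by
    intro w
    by_cases hw : w ∈ K
    · exact hA w hw
    · refine zerAt_of_eventually_notMem ?_
      filter_upwards [prod_mem_nhds hb (hK.isClosed.isOpen_compl.mem_nhds hw)] with p hp hpA
      exact hp.2 (hp.1 _ hpA)
  set m := Module.finrank ℂ F
  let e : (Fin m → ℂ) ≃L[ℂ] F := ContinuousLinearEquiv.ofFinrankEq (by simp [m])
  set φ : E × (Fin m → ℂ) → E × F := fun p => (p.1, e p.2) with hφ
  have hφa : ∀ p, AnalyticAt ℂ φ p := fun p =>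
    analyticAt_fst.prod ((e.analyticAt _).comp analyticAt_snd)
  obtain ⟨R, hR⟩ := (hK.image e.symm.continuous).isBounded.exists_norm_le
  obtain ⟨h1, h2⟩ := proj_fin m (A := φ ⁻¹' A) (x₀ := x₀)
    (fun w => ZerAt.preimage (hA' _) (hφa _)) (R := R) (by
      filter_upwards [hb] with x hx w hw
      exact hR w ⟨e w, hx _ hw, e.symm_apply_apply w⟩)
  constructor
  · refine h1.congr (Eventually.of_forall fun x => ⟨?_, ?_⟩)
    · rintro ⟨p, hp, rfl⟩
      exact ⟨φ p, hp, rfl⟩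
    · rintro ⟨⟨y, w⟩, hp, rfl⟩
      exact ⟨(y, e.symm w), by simpa [hφ] using hp, rfl⟩
  · filter_upwards [h2] with x hx
    exact (hx.image e).subset fun w hw => ⟨e.symm w, by simpa [hφ] using hw, by simp⟩


/-- **a compact analytic subset of a finite dimensional space is finite** -/
theorem finite_of_compact {A : Set F} (hK : IsCompact A) (hA : ∀ w ∈ A, ZerAt A w) :
    A.Finite := by
  have : CompleteSpace F := FiniteDimensional.complete ℂ F
  have := (proj (E := ℂ) (A := Prod.snd ⁻¹' A) (x₀ := 0) hK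
    (fun w hw => ZerAt.preimage (hA w hw) analyticAt_snd)
    (Eventually.of_forall fun _ _ h => h)).2.self_of_nhds
  exact this

end Many

end Crest.Agent.X261.Ans.Pj
end
end

-- ▼ part X261/Ans/PjB

/-!
# X261/Ans/PjB (helper97): Remmert's projection theorem in the language of `Ans/Defs`
-/

set_option autoImplicit false
set_option linter.unusedSectionVars false

open Set Filter Topology Metric

namespace Crest.Agent.X261.Ans.Pj

variable {E F : Type} [NormedAddCommGroup E] [NormedSpace ℂ E] [FiniteDimensional ℂ E]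
  [NormedAddCommGroup F] [NormedSpace ℂ F] [FiniteDimensional ℂ F]

theorem cut_iff {W Z : Set E} : Cut W Z ↔ SepOn Z W :=
  ⟨fun h y hy hyZ => let ⟨f, h1, h2⟩ := h y hy hyZ; ⟨f, h1.1, h1.2, h2⟩,
    fun h y hy hyZ => let ⟨f, h1, h2, h3⟩ := h y hy hyZ; ⟨f, ⟨h1, h2⟩, h3⟩⟩

theorem anAt_iff {Z : Set E} {x : E} : AnAt Z x ↔ ZerAt Z x := by
  constructor
  · rintro ⟨W, h1, h2, h3⟩
    exact ⟨W, h1.mem_nhds h2, cut_iff.1 h3⟩
  · rintro ⟨N, hN, h⟩
    exact ⟨interior N, isOpen_interior, mem_interior_iff_mem_nhds.2 hN,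
      cut_iff.2 (h.mono interior_subset)⟩

/-- zeros of a vector valued analytic map -/
theorem sepOn_zero_vec {g : E → F} {N : Set E} (hg : AnalyticOnNhd ℂ g N) :
    SepOn {x | g x = 0} N := by
  intro x _ hx
  obtain ⟨l, hl⟩ := SeparatingDual.exists_ne_zero (R := ℂ) (show g x ≠ 0 from hx)
  refine ⟨fun y => l (g y), fun y hy => (l.analyticAt _).comp (hg y hy), fun y _ hy => ?_, hl⟩
  show l (g y) = 0
  rw [show g y = 0 from hy, map_zero]

theorem zerAt_zero_vec {g : E → F} {p : E} (hg : AnalyticAt ℂ g p) : ZerAt {x | g x = 0} p := by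
  have : CompleteSpace F := FiniteDimensional.complete ℂ F
  exact ⟨{x | AnalyticAt ℂ g x}, hg.eventually_analyticAt, sepOn_zero_vec fun _ hx => hx⟩

theorem zerAt_eq {g g' : E → F} {p : E} (hg : AnalyticAt ℂ g p) (hg' : AnalyticAt ℂ g' p) :
    ZerAt {x | g x = g' x} p :=
  (zerAt_zero_vec (hg.sub hg')).congr (Eventually.of_forall fun _ => sub_eq_zero)


theorem finite_of_compact' {K : Set E} (hK : IsCompact K) (h : An K K) : K.Finite :=
  finite_of_compact hK fun w hw => anAt_iff.1 (h w hw)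

/-- **finite mapping theorem**: a holomorphic map which is proper on `Z ∩ K` over a neighbourhood
of `t₀` (no point of the fibre on the frontier of `K`) -/
theorem zer_image {Z K : Set E} (hK : IsCompact K) (hZ : ∀ y ∈ K, ZerAt Z y) {f : E → F}
    (hf : AnalyticOnNhd ℂ f K) {t₀ : F} (h : ∀ y ∈ K, y ∈ Z → f y = t₀ → K ∈ 𝓝 y) :
    ZerAt (f '' (Z ∩ K)) t₀ ∧ ∀ᶠ t in 𝓝 t₀, (Z ∩ K ∩ f ⁻¹' {t}).Finite := by
  have : CompleteSpace E := FiniteDimensional.complete ℂ E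
  set A : Set (F × E) := {p | p.2 ∈ Z ∩ K ∧ f p.2 = p.1} with hA
  obtain ⟨h1, h2⟩ := proj (A := A) (x₀ := t₀) hK (fun y hy => by
    have hfy : AnalyticAt ℂ (fun p : F × E => f p.2) (t₀, y) :=
      AnalyticAt.comp (g := f) (f := Prod.snd) (hf y hy) analyticAt_snd
    by_cases hyZ : y ∈ Z ∧ f y = t₀
    · have k1 : ZerAt ((Prod.snd : F × E → E) ⁻¹' Z) (t₀, y) :=
        ZerAt.preimage (hZ y hy) analyticAt_snd
      refine (k1.inter (zerAt_eq hfy analyticAt_fst)).congr ?_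
      filter_upwards [continuousAt_snd (h y hy hyZ.1 hyZ.2)] with p hp
      exact ⟨fun hq => ⟨⟨hq.1, hp⟩, hq.2⟩, fun hq => ⟨hq.1.1, hq.2⟩⟩
    · refine zerAt_of_eventually_notMem ?_
      by_cases hy1 : y ∈ Z
      · have h3 : f y - t₀ ≠ 0 := fun h0 => hyZ ⟨hy1, sub_eq_zero.1 h0⟩
        filter_upwards [(hfy.sub analyticAt_fst).continuousAt.eventually_ne h3] with p hp hpA
        exact hp (sub_eq_zero.2 hpA.2)
      · filter_upwards [continuousAt_snd.eventually ((hZ y hy).eventually_notMem hy1)]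
          with p hp hpA
        exact hp hpA.1.1) (Eventually.of_forall fun _ _ hw => hw.1.2)
  refine ⟨h1.congr (Eventually.of_forall fun t => ⟨?_, ?_⟩), h2.mono fun t ht => ht⟩
  · rintro ⟨p, hp, rfl⟩
    exact ⟨p.2, hp.1, hp.2⟩
  · rintro ⟨y, hy, rfl⟩
    exact ⟨(f y, y), ⟨hy, rfl⟩, rfl⟩

/-- an isolated point of a fibre: finite map near it, with analytic image; the neighbourhood can
be taken inside any given one -/
theorem fib_usc' {Z : Set E} {x : E} (hZ : AnAt Z x) {f : E → F} (hf : AnalyticAt ℂ f x)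
    (h : ∀ᶠ y in 𝓝[≠] x, y ∈ Z → f y ≠ f x) {W : Set E} (hW : W ∈ 𝓝 x) :
    ∃ N ∈ 𝓝 x, N ⊆ W ∧ (∀ t, (Z ∩ N ∩ f ⁻¹' {t}).Finite) ∧ AnAt (f '' (Z ∩ N)) (f x) := by
  have : CompleteSpace F := FiniteDimensional.complete ℂ F
  have : ProperSpace E := FiniteDimensional.proper ℂ E
  rw [eventually_nhdsWithin_iff] at h
  obtain ⟨r, hr, hsub⟩ := Metric.nhds_basis_closedBall.mem_iff.1 (inter_mem hW
    ((anAt_iff.1 hZ).eventually.and (hf.eventually_analyticAt.and h)))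
  obtain ⟨h1, h2⟩ := zer_image (Z := Z) (f := f) (t₀ := f x) (isCompact_closedBall x r)
    (fun y hy => (hsub hy).2.1) (fun y hy => (hsub hy).2.2.1) (fun y hy hyZ hfy => by
      have : y = x := by
        by_contra hne
        exact (hsub hy).2.2.2 hne hyZ hfy
      rw [this]
      exact closedBall_mem_nhds x hr)
  refine ⟨closedBall x r ∩ f ⁻¹' {t | (Z ∩ closedBall x r ∩ f ⁻¹' {t}).Finite},
    inter_mem (closedBall_mem_nhds x hr) (hf.continuousAt h2), fun y hy => (hsub hy.1).1,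
    fun t => ?_, anAt_iff.2 (h1.congr ?_)⟩
  · by_cases ht : (Z ∩ closedBall x r ∩ f ⁻¹' {t}).Finite
    · exact ht.subset fun y hy => ⟨⟨hy.1.1, hy.1.2.1⟩, hy.2⟩
    · refine finite_empty.subset fun y hy => ht ?_
      have h3 : f y = t := hy.2
      rw [← h3]
      exact hy.1.2.2
  · filter_upwards [h2] with t ht
    constructor
    · rintro ⟨y, hy, rfl⟩
      exact ⟨y, ⟨hy.1, hy.2, ht⟩, rfl⟩
    · rintro ⟨y, hy, rfl⟩
      exact ⟨y, ⟨hy.1, hy.2.1⟩, rfl⟩

theorem fib_usc {Z : Set E} {x : E} (hZ : AnAt Z x) {f : E → F} (hf : AnalyticAt ℂ f x)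
    (h : ∀ᶠ y in 𝓝[≠] x, y ∈ Z → f y ≠ f x) :
    ∃ N ∈ 𝓝 x, (∀ t, (Z ∩ N ∩ f ⁻¹' {t}).Finite) ∧ AnAt (f '' (Z ∩ N)) (f x) := by
  obtain ⟨N, h1, -, h2⟩ := fib_usc' hZ hf h univ_mem
  exact ⟨N, h1, h2⟩

end Crest.Agent.X261.Ans.Pj
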