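import Crest.Agent.X261.Ans.Reg
import Crest.Agent.X261.Ans.Cov2
import Crest.Agent.X261.Ans.Cut
import Crest.Agent.X261.Ans.PjB
import Crest.Agent.R266.LemmaZ

/-!
# X261/Ans/Dim (helper97): dimension of analytic sets from the dimension of fibres,
upper semicontinuity of the fibre dimension, dominant maps (flat versions).
-/

set_option autoImplicit false
set_option linter.unusedSectionVars false

open Set Filter Topology Module Metric
open Crest.Agent.R281.Thn_280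

namespace Crest.Agent.X261.Ans.Dm

variable {E F V : Type} [NormedAddCommGroup E] [NormedSpace ℂ E] [FiniteDimensional ℂ E]
  [NormedAddCommGroup F] [NormedSpace ℂ F] [FiniteDimensional ℂ F]
  [NormedAddCommGroup V] [NormedSpace ℂ V] [FiniteDimensional ℂ V]

/-- Lemma Z: an analytic set is EXACTLY a countable union of holomorphic images -/
theorem exists_param {Z W : Set E} (hW : IsOpen W) (hZ : ∀ x ∈ W, x ∈ Z → AnAt Z x) :
    ∃ (m : ℕ → ℕ) (U : ∀ k, Set (Fin (m k) → ℂ)) (γ : ∀ k, (Fin (m k) → ℂ) → E),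
      (∀ k, IsOpen (U k)) ∧ (∀ k, AnalyticOnNhd ℂ (γ k) (U k)) ∧
      (∀ k, γ k '' U k ⊆ Z ∩ W) ∧ Z ∩ W ⊆ ⋃ k, γ k '' U k := by
  have h := R266.LZ.anCov_of_local (S := Z ∩ W) (fun q hq => by
    obtain ⟨N, hN, hqN, hc⟩ := hZ q hq.2 hq.1
    refine ⟨N ∩ W, {f : E → ℂ // Van N Z f}, fun f => f.1, hN.inter hW, ⟨hqN, hq.2⟩,
      fun f => f.2.1.mono inter_subset_left, fun x hx => ⟨fun h f => f.2.2 x hx.1 h.1, fun h => ?_⟩⟩
    refine ⟨by_contra fun hxZ => ?_, hx.2⟩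
    obtain ⟨f, h1, h2⟩ := hc x hx.1 hxZ
    exact h2 (h ⟨f, h1⟩))
  obtain ⟨m, U, γ, h1, -, h3, h4, h5⟩ := h.enum
  exact ⟨m, U, γ, h1, h3, h4, h5⟩

/-- a holomorphic map with fibres of dimension `≤ s` on an open subset of `V` -/
theorem finrank_lt_of_fibres {g : V → F} {U : Set V} (hU : IsOpen U) (hne : U.Nonempty)
    (hg : AnalyticOnNhd ℂ g U) {s : ℕ} (hc : ∀ y, Cov (s + 1) (U ∩ g ⁻¹' {y})) {m : ℕ}
    (hm : Cov m (g '' U)) : finrank ℂ V < m + s := by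
  obtain ⟨t, ht, hmax⟩ := C2.exists_max_rk g hne
  obtain ⟨L, σ, -, a2, -, a4⟩ := const_rank (hg t ht) rfl
    (Filter.Eventually.mono (hU.mem_nhds ht) hmax)
  have hf : AnalyticAt ℂ (fun z => L (g z)) t := (L.analyticAt _).comp (hg t ht)
  have hd : fderiv ℂ (fun z => L (g z)) t = L.comp (fderiv ℂ g t) :=
    (L.hasFDerivAt.comp t (hg t ht).differentiableAt.hasFDerivAt).fderiv
  have h1 : C2.rk (fderiv ℂ g t) < m := by
    by_contra hle
    have h4 := (hm.image (f := L) fun y _ => L.analyticAt y).mono (not_lt.1 hle)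
    have h5 := hf.hasStrictFDerivAt.map_nhds_eq_of_surj (LinearMap.range_eq_top.2 (hd ▸ a2))
    refine Cov.not_mem_nhds (S := L '' (g '' U)) (by rwa [finrank_fin_fun]) (L (g t)) ?_
    rw [← h5, image_image]
    exact image_mem_map (hU.mem_nhds ht)
  have h2 := C2.rk_le' (fderiv ℂ g t)
  have hr : Reg (g ⁻¹' {g t}) (finrank ℂ V - C2.rk (fderiv ℂ g t)) t := by
    refine Reg.of_subm hf (hd ▸ a2) ?_ (by rw [finrank_fin_fun]; exact Nat.add_sub_cancel' h2)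
    filter_upwards [a4] with z hz
    refine ⟨fun h => by rw [show g z = g t from h], fun h => ?_⟩
    show g z = g t
    rw [hz, h, ← a4.self_of_nhds]
  have h3 := hr.le_of_cov (hU.mem_nhds ht) ((hc (g t)).sub (inter_comm _ _).subset)
  omega

/-- rank of a holomorphic map into a set with small fibres -/
theorem rk_lt_of_fibres {S : Set E} {f : E → F} (hf : ∀ x ∈ S, AnalyticAt ℂ f x) {s : ℕ}
    (hc : ∀ y, Cov (s + 1) (S ∩ f ⁻¹' {y})) {m : ℕ} (hm : Cov m (f '' S))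
    {γ : V → E} {t : V} (hγ : AnalyticAt ℂ γ t)
    (hS : ∀ᶠ u in 𝓝 t, γ u ∈ S) : C2.rk (fderiv ℂ γ t) < m + s := by
  have : CompleteSpace E := FiniteDimensional.complete ℂ E
  obtain ⟨ρ, hρ⟩ : ∃ ρ, C2.rk (fderiv ℂ γ t) = ρ := ⟨_, rfl⟩
  obtain ⟨B, A, hBA⟩ := exists_AB (fderiv ℂ γ t) hρ
  set ψ : (Fin ρ → ℂ) → E := fun c => γ (t + A c) with hψ
  have ha : AnalyticAt ℂ (fun c : Fin ρ → ℂ => t + A c) 0 := analyticAt_const.add (A.analyticAt _)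
  have hψa : AnalyticAt ℂ ψ 0 :=
    AnalyticAt.comp (g := γ) (f := fun c : Fin ρ → ℂ => t + A c) (by simpa using hγ) ha
  have hd : HasFDerivAt (fun c => B (ψ c)) (B.comp ((fderiv ℂ γ t).comp A)) 0 := by
    refine B.hasFDerivAt.comp 0 (HasFDerivAt.comp (g := γ) 0 ?_ (A.hasFDerivAt.const_add t))
    simpa using hγ.differentiableAt.hasFDerivAt
  obtain ⟨H, H1, H2, -⟩ := Rg.exists_inv (G := fun c => B (ψ c)) ((B.analyticAt _).comp hψa)
    (by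
      rw [hd.fderiv]
      intro a b hab
      simpa [hBA] using hab) rfl
  have h1 : ∀ᶠ c in 𝓝 (0 : Fin ρ → ℂ), ψ c ∈ S :=
    ha.continuousAt.eventually (p := fun u => γ u ∈ S) (by simpa using hS)
  have h2 : ∀ᶠ c in 𝓝 (0 : Fin ρ → ℂ), AnalyticAt ℂ H (B (ψ c)) :=
    ((B.analyticAt _).comp hψa).continuousAt.eventually H1.eventually_analyticAt
  obtain ⟨O, hO, hOo, h0⟩ := _root_.eventually_nhds_iff.1
    (hψa.eventually_analyticAt.and (h1.and (h2.and H2)))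
  have h3 := finrank_lt_of_fibres (g := fun c => f (ψ c)) hOo ⟨0, h0⟩
    (fun c hc => (hf _ (hO c hc).2.1).comp (hO c hc).1) (s := s) (fun y => by
      refine (((hc y).sub (inter_subset_left (t := {x | AnalyticAt ℂ H (B x)}))).image
        (f := fun x => H (B x)) fun x hx => hx.2.comp (B.analyticAt x)).sub fun c hc' => ?_
      exact ⟨ψ c, ⟨⟨(hO c hc'.1).2.1, hc'.2⟩, (hO c hc'.1).2.2.1⟩, (hO c hc'.1).2.2.2⟩)
    (hm.sub (by rintro _ ⟨c, hc, rfl⟩; exact ⟨ψ c, (hO c hc).2.1, rfl⟩))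
  rw [hρ]
  simpa using h3

/-- **dimension from the image and the fibres** -/
theorem cov_of_image {Z W : Set E} (hW : IsOpen W) (hZ : ∀ x ∈ W, x ∈ Z → AnAt Z x)
    {f : E → F} (hf : ∀ x ∈ Z ∩ W, AnalyticAt ℂ f x) {s : ℕ}
    (hc : ∀ y, Cov (s + 1) (Z ∩ W ∩ f ⁻¹' {y})) {m : ℕ} (hm : Cov m (f '' (Z ∩ W))) :
    Cov (m + s) (Z ∩ W) := by
  obtain ⟨d, U, γ, h1, h2, h3, h4⟩ := exists_param hW hZ
  refine (cov_iUnion fun k => (cov_image_of_rank (h1 k) (h2 k)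
    (k := m + s)).sub (image_mono fun t ht => ⟨ht, ?_⟩)).sub h4
  exact rk_lt_of_fibres hf hc hm (h2 k t ht)
    (Filter.Eventually.mono ((h1 k).mem_nhds ht) fun u hu => h3 k ⟨u, hu, rfl⟩)

/-- **dimension from fibres** -/
theorem cov_of_fibres {Z W : Set E} (hW : IsOpen W) (hZ : ∀ x ∈ W, x ∈ Z → AnAt Z x)
    {f : E → F} (hf : ∀ x ∈ Z ∩ W, AnalyticAt ℂ f x) {s : ℕ}
    (hc : ∀ y, Cov (s + 1) (Z ∩ W ∩ f ⁻¹' {y})) : Cov (finrank ℂ F + s + 1) (Z ∩ W) :=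
  (cov_of_image hW hZ hf hc (cov_top _)).mono (by omega)

theorem cov_of_countable_fibres {Z W : Set E} (hW : IsOpen W) (hZ : ∀ x ∈ W, x ∈ Z → AnAt Z x)
    {f : E → F} (hf : ∀ x ∈ Z ∩ W, AnalyticAt ℂ f x)
    (hc : ∀ y, (Z ∩ W ∩ f ⁻¹' {y}).Countable) : Cov (finrank ℂ F + 1) (Z ∩ W) :=
  cov_of_fibres hW hZ hf (s := 0) fun y => cov_one.2 (hc y)

/-- a countable analytic set is discrete -/
theorem isolated_of_countable {Z N : Set E} {x : E} (hZ : AnAt Z x) (hN : N ∈ 𝓝 x)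
    (hc : (Z ∩ N).Countable) : ∀ᶠ y in 𝓝[≠] x, y ∉ Z := by
  have : ProperSpace E := FiniteDimensional.proper ℂ E
  obtain ⟨ε, hε, hεU⟩ := Metric.mem_nhds_iff.1 (inter_mem hN hZ.eventually)
  obtain ⟨r, hr1, hr2⟩ := ((hc.image fun y => dist y x).dense_compl ℝ).exists_mem_open
    isOpen_Ioo (nonempty_Ioo.2 hε)
  have hK : closedBall x r ⊆ N ∩ {y | AnAt Z y} := (closedBall_subset_ball hr2.2).trans hεU
  have h1 := (Pj.zer_image (Z := Z) (f := fun _ => (0 : ℂ)) (t₀ := 0) (isCompact_closedBall x r)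
    (fun y hy => Pj.anAt_iff.1 (hK hy).2) analyticOnNhd_const (fun y hy hyZ _ =>
      mem_of_superset (isOpen_ball.mem_nhds (lt_of_le_of_ne hy fun h =>
        hr1 ⟨y, ⟨hyZ, (hK hy).1⟩, h⟩)) ball_subset_closedBall)).2.self_of_nhds
  have h2 : ((Z ∩ closedBall x r ∩ (fun _ => (0 : ℂ)) ⁻¹' {0}) \ {x})ᶜ ∈ 𝓝 x :=
    (h1.subset sdiff_subset).isClosed.isOpen_compl.mem_nhds fun h => h.2 rfl
  filter_upwards [nhdsWithin_le_nhds h2, nhdsWithin_le_nhds (closedBall_mem_nhds x hr2.1),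
    self_mem_nhdsWithin] with y a b c hy
  exact a ⟨⟨⟨hy, b⟩, rfl⟩, c⟩

/-- a fibre of dimension `≤ s` can be cut down to an isolated point by a linear map to `ℂ^s` -/
theorem exists_cut {Z N : Set E} {x : E} (hZ : AnAt Z x) {f : E → F} (hf : AnalyticAt ℂ f x)
    (hN : N ∈ 𝓝 x) {s : ℕ} (hc : Cov (s + 1) (Z ∩ N ∩ f ⁻¹' {f x})) :
    ∃ l : E →L[ℂ] (Fin s → ℂ), ∀ᶠ y in 𝓝[≠] x, y ∈ Z → (f y, l y) ≠ (f x, l x) := by
  have : CompleteSpace F := FiniteDimensional.complete ℂ F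
  obtain ⟨l, hl⟩ := (hc.dense_slice x).nonempty
  refine ⟨l, ?_⟩
  have h1 : AnAt (Z ∩ {y | (f y, l y) = (f x, l x)}) x :=
    hZ.inter (anAt_eq (hf.prod (l.analyticAt x)) analyticAt_const)
  refine (isolated_of_countable h1 hN (hl.mono fun y hy => ?_)).mono fun y hy hyZ h => hy ⟨hyZ, h⟩
  exact ⟨⟨⟨hy.1.1, hy.2⟩, congrArg Prod.fst hy.1.2⟩, congrArg Prod.snd hy.1.2⟩

/-- **upper semicontinuity of the fibre dimension** -/
theorem usc {Z N : Set E} {x : E} (hZ : AnAt Z x) {f : E → F} (hf : AnalyticAt ℂ f x)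
    (hN : N ∈ 𝓝 x) {s : ℕ} (hc : Cov (s + 1) (Z ∩ N ∩ f ⁻¹' {f x})) :
    ∃ W : Set E, IsOpen W ∧ x ∈ W ∧ W ⊆ N ∧ (∀ t, Cov (s + 1) (Z ∩ W ∩ f ⁻¹' {t})) ∧
      Cov (finrank ℂ F + s + 1) (Z ∩ W) := by
  have : CompleteSpace F := FiniteDimensional.complete ℂ F
  obtain ⟨l, hl⟩ := exists_cut hZ hf hN hc
  obtain ⟨N', h1, h2, h3, -⟩ := Pj.fib_usc' hZ (f := fun y => (f y, l y))
    (hf.prod (l.analyticAt x)) hl hN
  obtain ⟨W, hW, hWo, hxW⟩ := _root_.eventually_nhds_iff.1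
    ((show ∀ᶠ y in 𝓝 x, y ∈ N' from h1).and (hZ.eventually.and hf.eventually_analyticAt))
  have h4 : ∀ t, Cov (s + 1) (Z ∩ W ∩ f ⁻¹' {t}) := by
    intro t
    have h5 := cov_of_countable_fibres (Z := Z ∩ {y | f y = t}) hWo
      (fun y hy _ => (hW y hy).2.1.inter (anAt_eq (hW y hy).2.2 analyticAt_const))
      (f := l) (fun y _ => l.analyticAt y) fun u => (h3 (t, u)).countable.mono fun y hy => by
        exact ⟨⟨hy.1.1.1, (hW y hy.1.2).1⟩, Prod.ext hy.1.1.2 hy.2⟩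
    rw [finrank_fin_fun] at h5
    exact h5.sub fun y hy => ⟨⟨hy.1.1, hy.2⟩, hy.1.2⟩
  exact ⟨W, hWo, hxW, fun y hy => h2 (hW y hy).1, h4,
    cov_of_fibres hWo (fun y hy _ => (hW y hy).2.1) (fun y hy => (hW y hy.2).2.2) h4⟩




/-- **openness of finite maps**: at an isolated point of the fibre, where `Z` has dimension at
least the dimension of the target, the map `f : Z → F` is open -/
theorem image_mem_nhds {Z : Set E} {x : E} (hZ : AnAt Z x) {f : E → F} (hf : AnalyticAt ℂ f x)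
    (h : ∀ᶠ y in 𝓝[≠] x, y ∈ Z → f y ≠ f x) (hd : ∀ N ∈ 𝓝 x, ¬ Cov (finrank ℂ F) (Z ∩ N))
    {W : Set E} (hW : W ∈ 𝓝 x) : f '' (Z ∩ W) ∈ 𝓝 (f x) := by
  have : CompleteSpace F := FiniteDimensional.complete ℂ F
  obtain ⟨N, h1, h2, h3, h4⟩ := Pj.fib_usc' hZ hf h hW
  rcases (reg_univ (f x)).dich h4 with h5 | ⟨O, hO, hxO, h5, -⟩
  · filter_upwards [h5] with t ht
    exact image_mono (inter_subset_inter_right _ h2) (ht (mem_univ _))
  · exfalso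
    obtain ⟨W', hW', hWo, hxW⟩ := _root_.eventually_nhds_iff.1
      ((show ∀ᶠ y in 𝓝 x, y ∈ N from h1).and (hZ.eventually.and (hf.eventually_analyticAt.and
        (hf.continuousAt.eventually_mem (hO.mem_nhds hxO)))))
    refine hd W' (hWo.mem_nhds hxW) (cov_of_image hWo (fun y hy _ => (hW' y hy).2.1)
      (fun y hy => (hW' y hy.2).2.2.1) (s := 0)
      (fun t => cov_one.2 ((h3 t).countable.mono fun y hy => ?_)) (h5.sub ?_))
    · exact ⟨⟨hy.1.1, (hW' y hy.1.2).1⟩, hy.2⟩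
    · rintro _ ⟨y, hy, rfl⟩
      exact ⟨⟨mem_univ _, y, ⟨hy.1, (hW' y hy.2).1⟩, rfl⟩, (hW' y hy.2).2.2.2⟩

/-- big fibres force a small image -/
theorem cov_image_of_big {Z W : Set E} (hW : IsOpen W) (hZ : ∀ x ∈ W, x ∈ Z → AnAt Z x)
    {f : E → F} (hf : ∀ x ∈ Z ∩ W, AnalyticAt ℂ f x) {d m : ℕ} (hd : Cov (d + 1) (Z ∩ W))
    (hb : ∀ x ∈ Z ∩ W, ¬ Cov (d + 1 - m) (Z ∩ W ∩ f ⁻¹' {f x})) : Cov m (f '' (Z ∩ W)) := by
  obtain ⟨e, U, γ, h1, h2, h3, h4⟩ := exists_param hW hZ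
  have h5 : ∀ k, AnalyticOnNhd ℂ (fun t => f (γ k t)) (U k) := fun k t ht =>
    (hf _ (h3 k ⟨t, ht, rfl⟩)).comp (h2 k t ht)
  refine (cov_iUnion fun k => (cov_image_of_rank (h1 k) (h5 k)
    (k := m)).sub (image_mono fun t ht => ⟨ht, ?_⟩)).sub ?_
  · by_contra hle
    obtain ⟨r, hr⟩ : ∃ r, C2.rk (fderiv ℂ (fun t => f (γ k t)) t) = r := ⟨_, rfl⟩
    have hmr : m ≤ r := hr ▸ not_lt.1 hle
    obtain ⟨B, A, hBA⟩ := exists_AB _ hr
    have h6 := hd.fibre (f := fun x => B (f x)) fun x hx => (B.analyticAt _).comp (hf x hx)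
    have h7 : HasStrictFDerivAt (fun u => B (f (γ k u)))
        (B.comp (fderiv ℂ (fun t => f (γ k t)) t)) t :=
      B.hasStrictFDerivAt.comp t (h5 k t ht).hasStrictFDerivAt
    have h8 := h7.map_nhds_eq_of_surj (LinearMap.range_eq_top.2 fun c => ⟨A c, hBA c⟩)
    refine h6.not_mem_nhds (B (f (γ k t))) ?_
    rw [← h8]
    filter_upwards [image_mem_map ((h1 k).mem_nhds ht)]
    rintro _ ⟨u, hu, rfl⟩ hc
    rw [finrank_fin_fun] at hc
    refine hb _ (h3 k ⟨u, hu, rfl⟩) ((hc.mono (by omega)).sub fun y hy => ⟨hy.1, ?_⟩)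
    exact congrArg B hy.2
  · rintro _ ⟨x, hx, rfl⟩
    obtain ⟨k, t, ht, rfl⟩ := mem_iUnion.1 (h4 hx)
    exact mem_iUnion.2 ⟨k, t, ht, rfl⟩

end Crest.Agent.X261.Ans.Dm
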