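import Crest.Agent.X261.Ans.Man

/-!
# X261/Ans/Man2 (helper72): submersions, local inverses, transport of irreducible sets
-/

set_option autoImplicit false
set_option linter.unusedSectionVars false

open Set Filter Topology Module

namespace Crest.Agent.X261.Ans

variable {E F G : Type} [NormedAddCommGroup E] [NormedSpace ℂ E] [FiniteDimensional ℂ E]
  [NormedAddCommGroup F] [NormedSpace ℂ F] [FiniteDimensional ℂ F]
  [NormedAddCommGroup G] [NormedSpace ℂ G] [FiniteDimensional ℂ G]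
  {M N P : Type} [TopologicalSpace M] [TopologicalSpace N] [TopologicalSpace P]
  {A : HA E M} {B : HA F N} {C : HA G P}

namespace Man

/-- analytic inverse function theorem -/
theorem exists_inv {g : E → F} {x : E} (hg : AnalyticAt ℂ g x) (L : E ≃L[ℂ] F)
    (hL : fderiv ℂ g x = L) : ∃ σ : F → E, AnalyticAt ℂ σ (g x) ∧
      (∀ᶠ y in 𝓝 x, σ (g y) = y) ∧ ∀ᶠ t in 𝓝 (g x), g (σ t) = t := by
  have h1 : ContDiffAt ℂ ⊤ g x := hg.contDiffAt
  have h2 : HasFDerivAt g (L : E →L[ℂ] F) x := hL ▸ hg.differentiableAt.hasFDerivAt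
  have h3 := h1.hasStrictFDerivAt' h2 (by simp)
  exact ⟨h1.localInverse h2 (by simp),
    (h1.to_localInverse h2 (by simp)).analyticAt,
    h3.eventually_left_inverse, h3.eventually_right_inverse⟩

theorem exists_inv' {g : E → F} {x : E} (hg : AnalyticAt ℂ g x)
    (hb : Function.Bijective (fderiv ℂ g x)) : ∃ σ : F → E, AnalyticAt ℂ σ (g x) ∧
      (∀ᶠ y in 𝓝 x, σ (g y) = y) ∧ ∀ᶠ t in 𝓝 (g x), g (σ t) = t :=
  exists_inv hg (LinearEquiv.ofBijective (fderiv ℂ g x : E →ₗ[ℂ] F) hb).toContinuousLinearEquiv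
    (by ext v; rfl)

/-- local sections of submersions -/
theorem exists_sec {g : E → F} {x : E} (hg : AnalyticAt ℂ g x)
    (hs : Function.Surjective (fderiv ℂ g x)) : ∃ σ : F → E, AnalyticAt ℂ σ (g x) ∧ σ (g x) = x ∧
      ∀ᶠ t in 𝓝 (g x), g (σ t) = t := by
  obtain ⟨L, hL⟩ := (fderiv ℂ g x).exists_rightInverse_of_surjective
    (LinearMap.range_eq_top.2 hs)
  have h0 : x + L 0 = x := by simp
  have h1 : AnalyticAt ℂ (fun t : F => x + L t) 0 := analyticAt_const.add (L.analyticAt 0)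
  have h2 : AnalyticAt ℂ (fun t : F => g (x + L t)) 0 := hg.comp_of_eq h1 h0
  have h3 : HasFDerivAt (fun t : F => g (x + L t)) ((fderiv ℂ g x).comp L) 0 := by
    have h4 : HasFDerivAt g (fderiv ℂ g x) (x + L 0) := h0.symm ▸ hg.differentiableAt.hasFDerivAt
    exact h4.comp (0 : F) (L.hasFDerivAt.const_add x)
  obtain ⟨τ, hτ, h5, h6⟩ := exists_inv h2 (ContinuousLinearEquiv.refl ℂ F)
    (by rw [h3.fderiv, hL]; rfl)
  have h7 := h5.self_of_nhds
  simp only [h0] at hτ h6 h7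
  refine ⟨fun t => x + L (τ t), analyticAt_const.add ((L.analyticAt _).comp hτ), ?_, h6⟩
  change x + L (τ (g x)) = x
  rw [h7, h0]

theorem surj_of_sec {g : E → F} {x : E} (hg : AnalyticAt ℂ g x) {σ : F → E}
    (hσ : AnalyticAt ℂ σ (g x)) (h0 : σ (g x) = x) (h : ∀ᶠ t in 𝓝 (g x), g (σ t) = t) :
    Function.Surjective (fderiv ℂ g x) := by
  have h1 : HasFDerivAt g (fderiv ℂ g x) (σ (g x)) := h0.symm ▸ hg.differentiableAt.hasFDerivAt
  have h2 := (h1.comp (g x) hσ.differentiableAt.hasFDerivAt).congr_of_eventuallyEq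
    (f₁ := id) (h.mono fun t ht => ht.symm)
  have h3 := h2.unique (hasFDerivAt_id _)
  intro v
  exact ⟨fderiv ℂ σ (g x) v, DFunLike.congr_fun h3 v⟩

theorem analyticAt_det {ι : Type} [Fintype ι] [DecidableEq ι] {m : E → Matrix ι ι ℂ} {x : E}
    (h : ∀ i j, AnalyticAt ℂ (fun z => m z i j) x) : AnalyticAt ℂ (fun z => (m z).det) x := by
  simp only [Matrix.det_apply']
  exact Finset.analyticAt_fun_sum _ fun s _ => analyticAt_const.mul
    (Finset.analyticAt_fun_prod _ fun i _ => h _ _)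

theorem analyticAt_det_clm {T : E → F →L[ℂ] F} {x : E} (h : AnalyticAt ℂ T x) :
    AnalyticAt ℂ (fun z => LinearMap.det (T z : F →ₗ[ℂ] F)) x := by
  classical
  let b := Module.finBasis ℂ F
  simp only [← LinearMap.det_toMatrix b]
  refine analyticAt_det fun i j => ?_
  simp only [LinearMap.toMatrix_apply]
  exact ((LinearMap.toContinuousLinearMap (b.coord i)).analyticAt _).comp
    (((ContinuousLinearMap.apply ℂ F (b j)).analyticAt _).comp h)

/-- the critical set is analytic -/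
theorem cut_crit {W : Set E} {T : E → G →L[ℂ] F} (hT : AnalyticOnNhd ℂ T W) :
    Cut W {z | ¬ Function.Surjective (T z)} := by
  intro y hy hs
  rw [mem_ofPred_eq, not_not] at hs
  obtain ⟨L, hL⟩ := (T y).exists_rightInverse_of_surjective (LinearMap.range_eq_top.2 hs)
  refine ⟨fun z => LinearMap.det ((T z).comp L : F →ₗ[ℂ] F), ⟨fun z hz => ?_, fun z _ hz => ?_⟩,
    ?_⟩
  · exact analyticAt_det_clm
      ((((ContinuousLinearMap.compL ℂ F G F).flip L).analyticAt _).comp (hT z hz))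
  · by_contra h0
    have h1 := (Module.End.isUnit_iff _).1 ((LinearMap.isUnit_iff_isUnit_det _).2 (Ne.isUnit h0))
    exact hz (Function.Surjective.of_comp (g := L) h1.2)
  · change LinearMap.det ((T y).comp L : F →ₗ[ℂ] F) ≠ 0
    rw [hL]
    simp

theorem anAt_crit {g : E → F} {x : E} (hg : AnalyticAt ℂ g x) :
    AnAt {z | ¬ Function.Surjective (fderiv ℂ g z)} x :=
  (cut_crit (W := {z | AnalyticAt ℂ g z}) fun _ hz => hz.fderiv).anAt hg.eventually_analyticAt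

end Man

namespace HA

/-! ### submersions -/

/-- `f` is a holomorphic submersion at `x` -/
def Subm (A : HA E M) (B : HA F N) (f : M → N) (x : M) : Prop :=
  A.Hol B f x ∧ ∀ i j, x ∈ (A.e i).source → f x ∈ (B.e j).source →
    Function.Surjective (fderiv ℂ (fun z => B.e j (f ((A.e i).symm z))) (A.e i x))

theorem Subm.hol {f : M → N} {x : M} (h : A.Subm B f x) : A.Hol B f x := h.1

theorem subm_of_sec {f : M → N} {x : M} (hf : A.Hol B f x) {σ : N → M} (hσ : B.Hol A σ (f x))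
    (h0 : σ (f x) = x) (h : ∀ᶠ t in 𝓝 (f x), f (σ t) = t) : A.Subm B f x := by
  refine ⟨hf, fun i j hi hj => ?_⟩
  have e2 : B.e j (f ((A.e i).symm (A.e i x))) = B.e j (f x) := by rw [(A.e i).left_inv hi]
  have hi' : σ (f x) ∈ (A.e i).source := h0.symm ▸ hi
  refine Man.surj_of_sec (hf.2 i j hi hj) (σ := fun w => A.e i (σ ((B.e j).symm w))) ?_ ?_ ?_
  · rw [e2]
    exact hσ.2 j i hj hi'
  · rw [e2, (B.e j).left_inv hj, h0]
  · rw [e2]
    filter_upwards [(ev_chart hj).1 (h.and (hσ.1.eventually (ev_source hi'))), ev_target hj]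
      with w hw hw'
    rw [(A.e i).left_inv hw.2, hw.1, (B.e j).right_inv hw']

theorem sec_of_chart {f : M → N} {x : M} (hf : A.Hol B f x) {i : A.ι} {j : B.ι}
    (hi : x ∈ (A.e i).source) (hj : f x ∈ (B.e j).source)
    (hs : Function.Surjective (fderiv ℂ (fun z => B.e j (f ((A.e i).symm z))) (A.e i x))) :
    ∃ σ : N → M, B.Hol A σ (f x) ∧ σ (f x) = x ∧ ∀ᶠ t in 𝓝 (f x), f (σ t) = t := by
  obtain ⟨σ, hσ, h0, h⟩ := Man.exists_sec (hf.2 i j hi hj) hs
  have e2 : B.e j (f ((A.e i).symm (A.e i x))) = B.e j (f x) := by rw [(A.e i).left_inv hi]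
  rw [e2] at hσ h0 h
  have ht : σ (B.e j (f x)) ∈ (A.e i).target := h0.symm ▸ (A.e i).map_source hi
  have h1 : B.Hol A (fun t => (A.e i).symm (σ (B.e j t))) (f x) :=
    (hol_symm ht).comp_of_eq ((hol_chart hj).an_comp hσ) rfl
  have h2 : (A.e i).symm (σ (B.e j (f x))) = x := by rw [h0, (A.e i).left_inv hi]
  refine ⟨_, h1, h2, ?_⟩
  have h3 : ∀ᶠ t in 𝓝 (f x), f ((A.e i).symm (σ (B.e j t))) ∈ (B.e j).source :=
    (hf.comp_of_eq h1 h2).1.eventually (ev_source (by beta_reduce; rw [h2]; exact hj))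
  filter_upwards [(ev_chart' hj).1 h, h3, ev_source hj] with t h4 h5 h6
  exact (B.e j).injOn h5 h6 h4

/-- local sections through every point -/
theorem Subm.sec {f : M → N} {x : M} (h : A.Subm B f x) :
    ∃ σ : N → M, B.Hol A σ (f x) ∧ σ (f x) = x ∧ ∀ᶠ t in 𝓝 (f x), f (σ t) = t := by
  obtain ⟨i, hi⟩ := A.cover x
  obtain ⟨j, hj⟩ := B.cover (f x)
  exact sec_of_chart h.1 hi hj (h.2 i j hi hj)

theorem subm_of {f : M → N} {x : M} (hf : A.Hol B f x) {i : A.ι} {j : B.ι}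
    (hi : x ∈ (A.e i).source) (hj : f x ∈ (B.e j).source)
    (hs : Function.Surjective (fderiv ℂ (fun z => B.e j (f ((A.e i).symm z))) (A.e i x))) :
    A.Subm B f x := by
  obtain ⟨σ, h1, h2, h3⟩ := sec_of_chart hf hi hj hs
  exact subm_of_sec hf h1 h2 h3

theorem subm_iff {f : M → N} {x : M} (hf : A.Hol B f x) {i : A.ι} {j : B.ι}
    (hi : x ∈ (A.e i).source) (hj : f x ∈ (B.e j).source) : A.Subm B f x ↔
      Function.Surjective (fderiv ℂ (fun z => B.e j (f ((A.e i).symm z))) (A.e i x)) :=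
  ⟨fun h => h.2 i j hi hj, subm_of hf hi hj⟩

theorem subm_self_iff {f : M → F} {x : M} (hf : A.Hol (self F) f x) {i : A.ι}
    (hi : x ∈ (A.e i).source) : A.Subm (self F) f x ↔
      Function.Surjective (fderiv ℂ (fun z => f ((A.e i).symm z)) (A.e i x)) :=
  subm_iff hf (j := ()) hi (mem_univ _)

theorem self_subm_iff {f : E → F} {x : E} : (self E).Subm (self F) f x ↔
    AnalyticAt ℂ f x ∧ Function.Surjective (fderiv ℂ f x) :=
  ⟨fun h => ⟨self_hol_iff.1 h.1, h.2 () () (mem_univ _) (mem_univ _)⟩,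
    fun h => ⟨self_hol_iff.2 h.1, fun _ _ _ _ => h.2⟩⟩

theorem Subm.comp {g : N → P} {f : M → N} {x : M} (hg : B.Subm C g (f x)) (hf : A.Subm B f x) :
    A.Subm C (fun y => g (f y)) x := by
  obtain ⟨σ, h1, h2, h3⟩ := hf.sec
  obtain ⟨τ, k1, k2, k3⟩ := hg.sec
  refine subm_of_sec (hg.1.comp hf.1) (σ := fun t => σ (τ t)) (h1.comp_of_eq k1 k2)
    (by rw [k2, h2]) ?_
  have h4 : Tendsto τ (𝓝 (g (f x))) (𝓝 (f x)) := by
    have := k1.1.tendsto
    rwa [k2] at this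
  filter_upwards [k3, h4.eventually h3] with t e1 e2
  rw [e2, e1]

theorem Subm.of_comp {g : N → P} {f : M → N} {x : M} (h : A.Subm C (fun y => g (f y)) x)
    (hg : B.Hol C g (f x)) (hf : A.Hol B f x) : B.Subm C g (f x) := by
  obtain ⟨σ, h1, h2, h3⟩ := h.sec
  exact subm_of_sec hg (σ := fun t => f (σ t)) (hf.comp_of_eq h1 h2) (congrArg f h2) h3

theorem Subm.congr {f g : M → N} {x : M} (hf : A.Subm B f x) (h : f =ᶠ[𝓝 x] g) :
    A.Subm B g x := by
  obtain ⟨σ, h1, h2, h3⟩ := hf.sec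
  have e : f x = g x := h.eq_of_nhds
  have h4 : Tendsto σ (𝓝 (f x)) (𝓝 x) := by
    have := h1.1.tendsto
    rwa [h2] at this
  refine subm_of_sec (hf.1.congr h) (e ▸ h1) (e ▸ h2) ?_
  rw [← e]
  filter_upwards [h3, h4.eventually h] with t e1 e2
  rw [← e2, e1]




theorem subm_chart {x : M} {i : A.ι} (hx : x ∈ (A.e i).source) : A.Subm (self E) (A.e i) x :=
  subm_of_sec (hol_chart hx) (hol_symm ((A.e i).map_source hx)) ((A.e i).left_inv hx)
    ((ev_target hx).mono fun _ hz => (A.e i).right_inv hz)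

theorem Subm.map_nhds {f : M → N} {x : M} (h : A.Subm B f x) : map f (𝓝 x) = 𝓝 (f x) := by
  refine le_antisymm h.1.1 fun s hs => ?_
  obtain ⟨σ, h1, h2, h3⟩ := h.sec
  have h4 : Tendsto σ (𝓝 (f x)) (𝓝 x) := by
    have := h1.1.tendsto
    rwa [h2] at this
  filter_upwards [h3, h4.eventually hs] with t e1 e2
  exact e1 ▸ e2

theorem Subm.image_mem_nhds {f : M → N} {x : M} (h : A.Subm B f x) {W : Set M} (hW : W ∈ 𝓝 x) :
    f '' W ∈ 𝓝 (f x) := h.map_nhds ▸ image_mem_map hW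


theorem Subm.finrank_le {f : M → N} {x : M} (h : A.Subm B f x) : finrank ℂ F ≤ finrank ℂ E := by
  obtain ⟨i, hi⟩ := A.cover x
  obtain ⟨j, hj⟩ := B.cover (f x)
  exact LinearMap.finrank_le_finrank_of_surjective
    (f := (fderiv ℂ (fun z => B.e j (f ((A.e i).symm z))) (A.e i x)).toLinearMap) (h.2 i j hi hj)

/-- the critical set of a holomorphic map is analytic -/
theorem anAt_crit {f : M → N} {x : M} (hf : A.Hol B f x) : A.AnAt {y | ¬ A.Subm B f y} x := by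
  obtain ⟨i, hi⟩ := A.cover x
  obtain ⟨j, hj⟩ := B.cover (f x)
  refine (anAt_of_chart hi (Man.anAt_crit (hf.2 i j hi hj))).congr ?_
  filter_upwards [hf.eventually, ev_source hi, hf.1.eventually (ev_source hj)] with y h1 h2 h3
  exact (not_congr (subm_iff h1 h2 h3)).symm

theorem Subm.eventually {f : M → N} {x : M} (h : A.Subm B f x) : ∀ᶠ y in 𝓝 x, A.Subm B f y :=
  ((anAt_crit h.1).eventually_notMem (not_not.2 h)).mono fun _ hy => not_not.1 hy

theorem isOpen_subm (A : HA E M) (B : HA F N) (f : M → N) : IsOpen {x | A.Subm B f x} :=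
  isOpen_iff_mem_nhds.2 fun _ hx => Subm.eventually hx

/-- a submersion between manifolds of the same dimension is a local biholomorphism -/
theorem Subm.inv {f : M → N} {x : M} (h : A.Subm B f x) (hd : finrank ℂ E = finrank ℂ F) :
    ∃ σ : N → M, B.Hol A σ (f x) ∧ (∀ᶠ y in 𝓝 x, σ (f y) = y) ∧
      ∀ᶠ t in 𝓝 (f x), f (σ t) = t := by
  obtain ⟨i, hi⟩ := A.cover x
  obtain ⟨j, hj⟩ := B.cover (f x)
  have hs := h.2 i j hi hj
  obtain ⟨σ, hσ, h0, h1⟩ := Man.exists_inv' (h.1.2 i j hi hj)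
    ⟨(LinearMap.injective_iff_surjective_of_finrank_eq_finrank hd
      (f := (fderiv ℂ (fun z => B.e j (f ((A.e i).symm z))) (A.e i x)).toLinearMap)).2 hs, hs⟩
  have e2 : B.e j (f ((A.e i).symm (A.e i x))) = B.e j (f x) := by rw [(A.e i).left_inv hi]
  have h00 := h0.self_of_nhds
  rw [e2] at hσ h1 h00
  have ht : σ (B.e j (f x)) ∈ (A.e i).target := h00.symm ▸ (A.e i).map_source hi
  have h2 : B.Hol A (fun t => (A.e i).symm (σ (B.e j t))) (f x) :=
    (hol_symm ht).comp_of_eq ((hol_chart hj).an_comp hσ) rfl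
  have h3 : (A.e i).symm (σ (B.e j (f x))) = x := by rw [h00, (A.e i).left_inv hi]
  refine ⟨_, h2, ?_, ?_⟩
  · filter_upwards [(ev_chart' hi).1 h0, ev_source hi] with y e1 e3
    rw [(A.e i).left_inv e3] at e1
    rw [e1, (A.e i).left_inv e3]
  · have h4 : ∀ᶠ t in 𝓝 (f x), f ((A.e i).symm (σ (B.e j t))) ∈ (B.e j).source :=
      (h.1.comp_of_eq h2 h3).1.eventually (ev_source (by beta_reduce; rw [h3]; exact hj))
    filter_upwards [(ev_chart' hj).1 h1, h4, ev_source hj] with t e1 e3 e4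
    exact (B.e j).injOn e3 e4 e1

/-- regular points as fibres of submersions -/
theorem Reg.exists_subm {Z : Set M} {d : ℕ} {x : M} (h : A.Reg Z d x) :
    ∃ (c : ℕ) (g : M → Fin c → ℂ), c + d = finrank ℂ E ∧ A.Subm (self (Fin c → ℂ)) g x ∧
      ∀ᶠ y in 𝓝 x, y ∈ Z ↔ g y = 0 := by
  obtain ⟨i, hi, h⟩ := h
  obtain ⟨c, g, hc, hg, hs, hZ⟩ := h.exists_subm
  refine ⟨c, fun y => g (A.e i y), hc, (self_subm_iff.2 ⟨hg, hs⟩).comp (subm_chart hi), ?_⟩
  filter_upwards [(ev_chart' hi).1 hZ, ev_source hi] with y h1 h2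
  rwa [mem_preimage, (A.e i).left_inv h2] at h1

theorem Subm.reg_fibre {f : M → N} {x : M} (h : A.Subm B f x) :
    A.Reg (f ⁻¹' {f x}) (finrank ℂ E - finrank ℂ F) x := by
  obtain ⟨i, hi⟩ := A.cover x
  obtain ⟨j, hj⟩ := B.cover (f x)
  have := h.finrank_le
  refine ⟨i, hi, Ans.Reg.of_subm (h.1.2 i j hi hj) (h.2 i j hi hj) ?_ (by omega)⟩
  rw [(A.e i).left_inv hi]
  filter_upwards [(ev_chart hi).1 (h.1.1.eventually (ev_source hj))] with z hz
  exact ⟨fun h1 => congrArg (B.e j) h1, fun h1 => (B.e j).injOn hz hj h1⟩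


/-- preimages under submersions -/
theorem Cov.preimage {k : ℕ} {S : Set N} (h : B.Cov k S) {f : M → N} {U : Set M}
    (hf : ∀ x ∈ U, A.Subm B f x) : A.Cov (k + (finrank ℂ E - finrank ℂ F)) (U ∩ f ⁻¹' S) := by
  refine cov_of_local fun x hx => ?_
  obtain ⟨j, hj⟩ := B.cover (f x)
  refine ⟨f ⁻¹' (B.e j).source, (hf x hx.1).1.1 (ev_source hj), fun i => ?_⟩
  refine ((h j).preimage (g := fun z => B.e j (f ((A.e i).symm z)))
    (U := (A.e i).target ∩ (A.e i).symm ⁻¹' (U ∩ f ⁻¹' (B.e j).source)) fun z hz => ?_).sub ?_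
  · refine ⟨(hf _ hz.2.1).1.an hz.1 hz.2.2, ?_⟩
    have h1 := (hf _ hz.2.1).2 i j ((A.e i).map_target hz.1) hz.2.2
    rwa [(A.e i).right_inv hz.1] at h1
  · rintro z ⟨h1, ⟨h2, h3⟩, h4⟩
    refine ⟨⟨h1, h2, h4⟩, (B.e j).map_source h4, ?_⟩
    change (B.e j).symm (B.e j (f ((A.e i).symm z))) ∈ S
    rw [(B.e j).left_inv h4]
    exact h3

/-- Sard: the critical values are thin -/
theorem cov_critval [Countable A.ι] {f : M → N} {U : Set M} (hf : ∀ x ∈ U, A.Hol B f x) :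
    B.Cov (finrank ℂ F) (f '' {x | x ∈ U ∧ ¬ A.Subm B f x}) := by
  intro j
  have ho : ∀ i, IsOpen ((A.e i).target ∩ (A.e i).symm ⁻¹'
      {x | A.Hol B f x ∧ f x ∈ (B.e j).source}) := fun i =>
    (A.e i).isOpen_inter_preimage_symm (isOpen_iff_mem_nhds.2 fun x hx =>
      hx.1.eventually.and (hx.1.1.eventually (ev_source hx.2)))
  refine (Ans.cov_iUnion fun i : A.ι => cov_image_of_rank (k := finrank ℂ F) (ho i)
    (g := fun z => B.e j (f ((A.e i).symm z))) fun z hz => hz.2.1.an hz.1 hz.2.2).sub ?_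
  rintro s ⟨hs, x, ⟨hxU, hx⟩, hxs⟩
  obtain ⟨i, hi⟩ := A.cover x
  have hj : f x ∈ (B.e j).source := hxs ▸ (B.e j).map_target hs
  refine mem_iUnion.2 ⟨i, A.e i x, ⟨⟨(A.e i).map_source hi, ?_⟩, ?_⟩, ?_⟩
  · rw [mem_preimage, (A.e i).left_inv hi]
    exact ⟨hf x hxU, hj⟩
  · rw [subm_iff (hf x hxU) hi hj] at hx
    refine Submodule.finrank_lt fun h => hx ?_
    exact LinearMap.range_eq_top.1 h
  · change B.e j (f ((A.e i).symm (A.e i x))) = s
    rw [(A.e i).left_inv hi, hxs, (B.e j).right_inv hs]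

/-! ### irreducible sets -/

theorem Irr.an {U Y : Set M} {d : ℕ} (h : A.Irr U Y d) : A.An U Y := h.1

theorem Irr.nonempty {U Y : Set M} {d : ℕ} (h : A.Irr U Y d) : (U ∩ Y).Nonempty := by
  obtain ⟨y, hy⟩ := h.2.1
  exact ⟨y, hy.1, hy.2.mem⟩

theorem Irr.preconnected {U Y : Set M} {d : ℕ} (h : A.Irr U Y d) : IsPreconnected (U ∩ Y) :=
  h.2.2.1.subset_closure (fun _ hy => ⟨hy.1, hy.2.mem⟩) h.2.2.2

theorem Irr.unique {U Y : Set M} {d k : ℕ} (h : A.Irr U Y d) (h' : A.Irr U Y k) : d = k := by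
  obtain ⟨y, hy⟩ := h.2.1
  obtain ⟨z, hz1, hz2⟩ := mem_closure_iff_nhds.1 (h'.2.2.2 ⟨hy.1, hy.2.mem⟩) _ hy.2.eventually
  exact (hz1 hz2.2.mem).unique hz2.2

/-- every regular point of an irreducible set has the right dimension -/
theorem Irr.reg_eq {U Y : Set M} {d k : ℕ} (h : A.Irr U Y d) {y : M} (hy : y ∈ U)
    (hr : A.Reg Y k y) : k = d := by
  obtain ⟨z, hz1, hz2⟩ := mem_closure_iff_nhds.1 (h.2.2.2 ⟨hy, hr.mem⟩) _ hr.eventually
  exact (hz1 hz2.2.mem).unique hz2.2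

theorem irr_of_dense {U Y S : Set M} {d : ℕ} (hY : A.An U Y) (hne : S.Nonempty)
    (hc : IsPreconnected S) (hS : ∀ y ∈ S, y ∈ U ∧ A.Reg Y d y) (hd : U ∩ Y ⊆ closure S) :
    A.Irr U Y d :=
  ⟨hY, hne.mono hS, hc.subset_closure hS fun _ hy => hd ⟨hy.1, hy.2.mem⟩,
    hd.trans (closure_mono hS)⟩

theorem irr_of_reg {U Y : Set M} {d : ℕ} (hY : A.An U Y) (hne : (U ∩ Y).Nonempty)
    (hc : IsPreconnected (U ∩ Y)) (hr : ∀ y ∈ U, y ∈ Y → A.Reg Y d y) : A.Irr U Y d :=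
  irr_of_dense hY hne hc (fun y hy => ⟨hy.1, hr y hy.1 hy.2⟩) subset_closure

theorem Irr.congr {U Y Y' : Set M} {d : ℕ} (h : A.Irr U Y d) (hU : IsOpen U)
    (hY : ∀ y ∈ U, y ∈ Y ↔ y ∈ Y') : A.Irr U Y' d :=
  irr_of_dense (h.1.congr hU hY) h.2.1 h.2.2.1
    (fun _ hy => ⟨hy.1, hy.2.congr ((hU.eventually_mem hy.1).mono hY)⟩)
    fun y hy => h.2.2.2 ⟨hy.1, (hY y hy.1).2 hy.2⟩

theorem irr_open {U : Set M} (hU : IsOpen U) (hc : IsConnected U) {V : Set M} (hV : U ⊆ V) :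
    A.Irr U V (finrank ℂ E) := by
  have e : U ∩ V = U := inter_eq_left.2 hV
  exact irr_of_reg (fun x hx => anAt_of_mem (mem_of_superset (hU.mem_nhds hx) hV))
    (e.symm ▸ hc.1) (e.symm ▸ hc.2)
    fun y hy _ => reg_of_mem (mem_of_superset (hU.mem_nhds hy) hV)



theorem irr_graph [ConnectedSpace M] [T2Space N] {f : M → N} (hf : ∀ x, A.Hol B f x) :
    (A.prod B).Irr univ {q | f q.1 = q.2} (finrank ℂ E) := by
  refine irr_of_reg (fun q _ => anAt_graph (hf q.1))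
    ⟨(Classical.arbitrary M, f (Classical.arbitrary M)), mem_univ _, rfl⟩ ?_ ?_
  · have e : univ ∩ {q : M × N | f q.1 = q.2} = range fun x => (x, f x) := by
      ext q
      exact ⟨fun h => ⟨q.1, Prod.ext rfl h.2⟩, by rintro ⟨x, rfl⟩; exact ⟨mem_univ _, rfl⟩⟩
    rw [e]
    exact isPreconnected_range (continuous_id.prodMk
      (continuous_iff_continuousAt.2 fun x => (hf x).1))
  · rintro ⟨x, y⟩ - h
    obtain rfl : f x = y := h
    exact reg_graph (hf x)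

theorem irr_diag [ConnectedSpace M] [T2Space M] (A : HA E M) :
    (A.prod A).Irr univ {q | q.1 = q.2} (finrank ℂ E) := irr_graph (hol_id A)

theorem Irr.prod {U Y : Set M} {V Z : Set N} {d k : ℕ} (h : A.Irr U Y d) (h' : B.Irr V Z k) :
    (A.prod B).Irr (U ×ˢ V) (Y ×ˢ Z) (d + k) := by
  refine irr_of_dense (h.1.prod h'.1) (h.2.1.prod h'.2.1) (h.2.2.1.prod h'.2.2.1)
    (fun q hq => ⟨⟨hq.1.1, hq.2.1⟩, hq.1.2.prod hq.2.2⟩) fun q hq => ?_
  rw [closure_prod_eq]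
  exact ⟨h.2.2.2 ⟨hq.1.1, hq.2.1⟩, h'.2.2.2 ⟨hq.1.2, hq.2.2⟩⟩

theorem Irr.prod_univ {Y : Set M} {Z : Set N} {d k : ℕ} (h : A.Irr univ Y d)
    (h' : B.Irr univ Z k) : (A.prod B).Irr univ (Y ×ˢ Z) (d + k) :=
  univ_prod_univ (α := M) (β := N) ▸ h.prod h'

/-- a biholomorphism between open sets -/
structure Bih (A : HA E M) (B : HA F N) (U : Set M) (V : Set N) (g : M → N) (f : N → M) :
    Prop where
  opU : IsOpen U
  opV : IsOpen V
  hg : ∀ x ∈ U, A.Hol B g x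
  hf : ∀ y ∈ V, B.Hol A f y
  mg : MapsTo g U V
  mf : MapsTo f V U
  fg : ∀ x ∈ U, f (g x) = x
  gf : ∀ y ∈ V, g (f y) = y

theorem bih_univ {g : M → N} {f : N → M} (hg : ∀ x, A.Hol B g x) (hf : ∀ y, B.Hol A f y)
    (fg : ∀ x, f (g x) = x) (gf : ∀ y, g (f y) = y) : Bih A B univ univ g f :=
  ⟨isOpen_univ, isOpen_univ, fun x _ => hg x, fun y _ => hf y, mapsTo_univ _ _, mapsTo_univ _ _,
    fun x _ => fg x, fun y _ => gf y⟩

theorem bih_swap (A : HA E M) (B : HA F N) :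
    Bih (A.prod B) (B.prod A) univ univ Prod.swap Prod.swap :=
  bih_univ (hol_swap A B) (hol_swap B A) Prod.swap_swap Prod.swap_swap

namespace Bih

variable {U : Set M} {V : Set N} {g : M → N} {f : N → M}

theorem symm (h : Bih A B U V g f) : Bih B A V U f g :=
  ⟨h.opV, h.opU, h.hf, h.hg, h.mf, h.mg, h.gf, h.fg⟩

theorem prod {H : Type} [NormedAddCommGroup H] [NormedSpace ℂ H] [FiniteDimensional ℂ H]
    {Q : Type} [TopologicalSpace Q] {D : HA H Q} {U' : Set P} {V' : Set Q} {g' : P → Q}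
    {f' : Q → P} (h : Bih A B U V g f) (h' : Bih C D U' V' g' f') :
    Bih (A.prod C) (B.prod D) (U ×ˢ U') (V ×ˢ V') (fun q => (g q.1, g' q.2))
      (fun q => (f q.1, f' q.2)) :=
  ⟨h.opU.prod h'.opU, h.opV.prod h'.opV, fun _ hq => (h.hg _ hq.1).prodMap (h'.hg _ hq.2),
    fun _ hq => (h.hf _ hq.1).prodMap (h'.hf _ hq.2), fun _ hq => ⟨h.mg hq.1, h'.mg hq.2⟩,
    fun _ hq => ⟨h.mf hq.1, h'.mf hq.2⟩, fun _ hq => Prod.ext (h.fg _ hq.1) (h'.fg _ hq.2),
    fun _ hq => Prod.ext (h.gf _ hq.1) (h'.gf _ hq.2)⟩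

theorem subm (h : Bih A B U V g f) {x : M} (hx : x ∈ U) : A.Subm B g x :=
  subm_of_sec (h.hg x hx) (h.hf _ (h.mg hx)) (h.fg x hx)
    ((h.opV.eventually_mem (h.mg hx)).mono h.gf)

theorem reg (h : Bih A B U V g f) {Z : Set M} {d : ℕ} {x : M} (hx : x ∈ U) (hr : A.Reg Z d x) :
    B.Reg (f ⁻¹' Z) d (g x) :=
  hr.biholo (h.hg x hx) (h.hf _ (h.mg hx)) ((h.opU.eventually_mem hx).mono h.fg)
    ((h.opV.eventually_mem (h.mg hx)).mono h.gf)

theorem reg_iff (h : Bih A B U V g f) {Z : Set M} {d : ℕ} {y : N} (hy : y ∈ V) :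
    B.Reg (f ⁻¹' Z) d y ↔ A.Reg Z d (f y) := by
  refine ⟨fun hr => (h.symm.reg hy hr).congr ?_, fun hr => h.gf y hy ▸ h.reg (h.mf hy) hr⟩
  filter_upwards [h.opU.eventually_mem (h.mf hy)] with x hx
  rw [mem_preimage, mem_preimage, h.fg x hx]

theorem an (h : Bih A B U V g f) {Z : Set M} (hZ : A.An U Z) : B.An V (f ⁻¹' Z) :=
  hZ.preimage h.hf h.mf

theorem contOn (h : Bih A B U V g f) : ContinuousOn g U :=
  fun x hx => (h.hg x hx).1.continuousWithinAt

theorem image_eq (h : Bih A B U V g f) (S : Set M) : g '' (U ∩ S) = V ∩ f ⁻¹' S := by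
  ext y
  constructor
  · rintro ⟨x, hx, rfl⟩
    exact ⟨h.mg hx.1, by rw [mem_preimage, h.fg x hx.1]; exact hx.2⟩
  · exact fun hy => ⟨f y, ⟨h.mf hy.1, hy.2⟩, h.gf y hy.1⟩

theorem irr (h : Bih A B U V g f) {Y : Set M} {d : ℕ} (hY : A.Irr U Y d) :
    B.Irr V (f ⁻¹' Y) d := by
  refine irr_of_dense (S := g '' {y | y ∈ U ∧ A.Reg Y d y}) (h.an hY.1) (hY.2.1.image g)
    (hY.2.2.1.image g (h.contOn.mono fun _ hy => hy.1)) ?_ fun y hy => ?_
  · rintro _ ⟨x, hx, rfl⟩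
    exact ⟨h.mg hx.1, h.reg hx.1 hx.2⟩
  · rw [← h.gf y hy.1]
    exact mem_closure_image (h.hg _ (h.mf hy.1)).1 (hY.2.2.2 ⟨h.mf hy.1, hy.2⟩)

theorem finrank_eq (h : Bih A B U V g f) {x : M} (hx : x ∈ U) : finrank ℂ E = finrank ℂ F :=
  le_antisymm (h.symm.subm (h.mg hx)).finrank_le (h.subm hx).finrank_le

theorem cov (h : Bih A B U V g f) {S : Set M} {k : ℕ} (hS : A.Cov k S) :
    B.Cov k (V ∩ f ⁻¹' S) := by
  rcases V.eq_empty_or_nonempty with rfl | ⟨y, hy⟩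
  · rw [empty_inter]
    exact B.cov_empty k
  have h1 := hS.preimage (A := B) (U := V) fun y hy => h.symm.subm hy
  rwa [h.symm.finrank_eq hy, Nat.sub_self, Nat.add_zero] at h1

end Bih

theorem Irr.swap {Y : Set (M × N)} {d : ℕ} (h : (A.prod B).Irr univ Y d) :
    (B.prod A).Irr univ (Prod.swap ⁻¹' Y) d := (bih_swap A B).irr h

theorem Cov.swap {S : Set (M × N)} {k : ℕ} (h : (A.prod B).Cov k S) :
    (B.prod A).Cov k (Prod.swap ⁻¹' S) :=
  ((bih_swap A B).cov h).sub fun _ hq => ⟨mem_univ _, hq⟩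

theorem Reg.swap {Y : Set (M × N)} {d : ℕ} {q : M × N} (h : (A.prod B).Reg Y d q) :
    (B.prod A).Reg (Prod.swap ⁻¹' Y) d q.swap := (bih_swap A B).reg (mem_univ q) h

end HA

end Crest.Agent.X261.Ans
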