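import Crest.Agent.X261.Ans.EqvD
import Crest.Agent.X261.Ans.Man2
import Crest.Agent.X261.Ans.Shif
import Crest.Agent.X261.Ans.Reg
import Crest.Agent.X261.Ans.PjB
import Crest.Agent.X261.Ans.Dec

-- ▼ part X261/Ans/EqA
section

/-!
# X261/Ans/EqA (helper7): a class `RelK` is directed; its member of maximal dimension is maximal
-/

set_option autoImplicit false
set_option linter.unusedSectionVars false

open Set Filter Topology Module

namespace Crest.Agent.X261.Ans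

variable {E F : Type} [NormedAddCommGroup E] [NormedSpace ℂ E] [FiniteDimensional ℂ E]
  [NormedAddCommGroup F] [NormedSpace ℂ F] [FiniteDimensional ℂ F]
  {M N : Type} [TopologicalSpace M] [TopologicalSpace N] {A : HA E M} {B : HA F N}

namespace HA

instance countable_prod [Countable A.ι] [Countable B.ι] : Countable (A.prod B).ι :=
  inferInstanceAs (Countable (A.ι × B.ι))

instance countable_self : Countable (self E).ι := inferInstanceAs (Countable Unit)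

theorem comp_finite_at {U Z : Set M} (hU : IsOpen U) (hZ : A.An U Z) {x : M} (hx : x ∈ U) :
    {Y | A.Comp U Z Y ∧ x ∈ Y}.Finite := by
  obtain ⟨W, hW, h⟩ := comp_lf hU hZ hx
  exact h.subset fun Y hY => ⟨hY.1, x, hY.2, mem_of_mem_nhds hW⟩

/-- near `x` only the components through `x` matter -/
theorem comp_near {U Z : Set M} (hU : IsOpen U) (hZ : A.An U Z) {x : M} (hx : x ∈ U) :
    ∀ᶠ z in 𝓝 x, z ∈ Z → ∃ Y, A.Comp U Z Y ∧ x ∈ Y ∧ z ∈ Y := by
  have h1 := (an_sUnion_comp hU hZ (T := {Y | A.Comp U Z Y ∧ x ∉ Y}) (fun _ h => h.1) x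
    hx).eventually_notMem fun ⟨_, h1, h2⟩ => h1.2 h2
  filter_upwards [h1, hU.mem_nhds hx] with z h2 h3 h4
  obtain ⟨Y, h5, h6⟩ := comp_cover hU hZ h3 h4
  exact ⟨Y, h5, by_contra fun h7 => h2 ⟨Y, ⟨h5, h7⟩, h6⟩, h6⟩

/-- a component of large dimension through a point of large local dimension -/
theorem exists_comp_not_cov {U Z : Set M} (hU : IsOpen U) (hZ : A.An U Z) {x : M} (hx : x ∈ U)
    {r : ℕ} (h : ∀ W ∈ 𝓝 x, ¬ A.Cov r (Z ∩ W)) : ∃ Y, A.Comp U Z Y ∧ x ∈ Y ∧ ¬ A.Cov r Y := by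
  by_contra h1
  refine h _ (comp_near hU hZ hx) ((cov_biUnion (comp_finite_at hU hZ hx).countable (S := id)
    fun Y hY => by_contra fun h2 => h1 ⟨Y, hY.1, hY.2, h2⟩).sub fun z hz => ?_)
  obtain ⟨Y, a, b, c⟩ := hz.2 hz.1
  exact mem_biUnion (t := id) ⟨a, b⟩ c

theorem not_cov_univ [Nonempty M] (A : HA E M) : ¬ A.Cov (finrank ℂ E) univ :=
  fun h => h.ne_univ rfl

/-- a countable cover has a member which is not thin -/
theorem exists_not_cov [Nonempty M] (A : HA E M) {α : Type*} {t : Set α} (ht : t.Countable)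
    {c : M → α} (hc : ∀ y, c y ∈ t) : ∃ a ∈ t, ¬ A.Cov (finrank ℂ E) {y | c y = a} := by
  by_contra h
  refine A.not_cov_univ ((cov_biUnion ht (S := fun a => {y | c y = a})
    fun a ha => by_contra fun h1 => h ⟨a, ha, h1⟩).sub fun y _ => mem_biUnion (hc y) rfl)

theorem An.eq_univ_of_not_cov [PreconnectedSpace M] {Z S : Set M} (hZ : A.An univ Z)
    (hS : ¬ A.Cov (finrank ℂ E) S) (h : S ⊆ Z) : Z = univ :=
  by_contra fun h1 => hS ((hZ.cov_of_ne h1).sub h)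



theorem hol_diag3 (A : HA E M) (x : M) : A.Hol (A.prod (A.prod A)) (fun y => (y, y, y)) x :=
  (hol_id A x).prodMk (hol_diag A x)

/-- the fibres of an irreducible set have dimension at least the expected one at every point -/
theorem Irr.fib_low {U Y : Set N} {r : ℕ} (hU : IsOpen U)
    (h : B.Irr U Y (finrank ℂ E + r)) {p : N} (hp : p ∈ U ∩ Y) {f : N → M} (hf : B.Hol A f p)
    {W : Set N} (hW : W ∈ 𝓝 p) : ¬ B.Cov r (Y ∩ W ∩ f ⁻¹' {f p}) := by
  intro h1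
  rcases r with _ | s
  · exact eq_empty_iff_forall_notMem.1 (cov_zero.1 h1) p ⟨⟨hp.2, mem_of_mem_nhds hW⟩, rfl⟩
  obtain ⟨O, a1, a2, -, -, a3⟩ := usc (h.1 p hp.1) hf hW h1
  exact h.not_cov hU a1 ⟨p, ⟨a2, hp.1⟩, hp.2⟩ (a3.sub fun z hz => ⟨hz.2, hz.1.1⟩)

theorem Cov.fibre' [Countable B.ι] {r : ℕ} {S : Set N} (h : B.Cov (finrank ℂ E + r) S) {f : N → M}
    (hf : ∀ x ∈ S, B.Hol A f x) : A.Cov (finrank ℂ E) {t | ¬ B.Cov r (S ∩ f ⁻¹' {t})} := by
  rcases Nat.eq_zero_or_pos (finrank ℂ E + r) with h0 | h0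
  · rw [h0] at h
    refine (A.cov_empty _).sub fun t ht => ht ?_
    rw [cov_zero.1 h, empty_inter]
    exact B.cov_empty r
  · have h1 := (h.mono (l := finrank ℂ E + r - 1 + 1) (by omega)).fibre hf
    rwa [show finrank ℂ E + r - 1 + 1 - finrank ℂ E = r by omega] at h1

/-- an irreducible relation is determined by large parts of many fibres -/
theorem Irr.sub_of_fibres [Countable A.ι] [Countable B.ι] {Y Z : Set (N × M)} {r : ℕ}
    (h : (B.prod A).Irr univ Y (finrank ℂ E + r)) (hZ : (B.prod A).An univ Z) {S : Set M}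
    (hS : ¬ A.Cov (finrank ℂ E) S) (h1 : ∀ y ∈ S, ¬ B.Cov r {x | (x, y) ∈ Y ∩ Z}) : Y ⊆ Z := by
  rcases h.drop isOpen_univ hZ with h2 | h2
  · exact fun q hq => h2 ⟨mem_univ _, hq⟩
  rw [univ_inter] at h2
  refine absurd ((h2.fibre' fun q _ => hol_snd B A q).sub fun y hy h4 => h1 y hy ?_) hS
  exact (h4.image fun q _ => hol_fst B A q).sub fun x hx => ⟨(x, y), ⟨hx, rfl⟩, rfl⟩

theorem Irr.le_of_diag [Nonempty M] [Countable A.ι] {Y : Set (M × M)} {d : ℕ}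
    (h : (A.prod A).Irr univ Y d) (hd : ∀ x, (x, x) ∈ Y) : finrank ℂ E ≤ d := by
  by_contra h1
  exact A.not_cov_univ ((((h.cov isOpen_univ).mono (not_le.1 h1)).image
    fun q _ => hol_fst A A q).sub fun x _ => ⟨(x, x), ⟨mem_univ _, hd x⟩, rfl⟩)

/-- a large irreducible subset of the fibre through the diagonal point -/
theorem Irr.exists_leaf [Countable A.ι] {Y : Set (M × M)} {r : ℕ}
    (h : (A.prod A).Irr univ Y (finrank ℂ E + r)) {y : M} (hy : (y, y) ∈ Y) :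
    ∃ (S : Set M) (k : ℕ), A.Irr univ S k ∧ y ∈ S ∧ (∀ x ∈ S, (x, y) ∈ Y) ∧ ¬ A.Cov r S := by
  have h1 : A.An univ {x | (x, y) ∈ Y} :=
    h.1.preimage (fun x _ => hol_inl A A y x) (mapsTo_univ _ _)
  obtain ⟨S, a1, a2, a3⟩ := exists_comp_not_cov isOpen_univ h1 (mem_univ y) (r := r)
    fun W hW h2 => h.fib_low isOpen_univ ⟨mem_univ (y, y), hy⟩ (hol_snd A A _)
      (continuousAt_fst.preimage_mem_nhds hW)
      ((h2.image fun x _ => hol_inl A A y x).sub (by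
        rintro ⟨x, z⟩ ⟨⟨b1, b2⟩, b3⟩
        obtain rfl : z = y := b3
        exact ⟨x, ⟨b1, b2⟩, rfl⟩))
  obtain ⟨b1, k, hk⟩ := a1.irr isOpen_univ h1
  exact ⟨S, k, hk, a2, b1, a3⟩

end HA

open HA

variable [ConnectedSpace M] [Countable A.ι]

/-- the class is directed -/
theorem RelK.directed (D : RelK A) {Y₁ Y₂ : Set (M × M)}
    (h1 : Y₁ ∈ D.K) (h2 : Y₂ ∈ D.K) : ∃ Y₃ ∈ D.K, Y₁ ⊆ Y₃ ∧ Y₂ ⊆ Y₃ := by
  obtain ⟨d₁, i1⟩ := D.irr Y₁ h1
  obtain ⟨d₂, i2⟩ := D.irr Y₂ h2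
  obtain ⟨r₁, rfl⟩ := Nat.exists_eq_add_of_le (i1.le_of_diag (D.diag Y₁ h1))
  obtain ⟨r₂, rfl⟩ := Nat.exists_eq_add_of_le (i2.le_of_diag (D.diag Y₂ h2))
  choose S k a1 a2 a3 a4 using fun y => i1.exists_leaf (D.diag Y₁ h1 y)
  choose T l b1 b2 b3 b4 using fun y => i2.swap.exists_leaf (y := y) (D.diag Y₂ h2 y)
  have hFP := an_FP i1.1 i2.1
  choose C c1 c2 using fun y => Irr.img_comp isOpen_univ hFP isOpen_univ ((a1 y).prod_univ (b1 y))
    (f := fun q => (q.1, y, q.2))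
    (fun q _ => (hol_fst A A q).prodMk ((hol_const _ _ y q).prodMk (hol_snd A A q)))
    fun q hq => ⟨mem_univ _, a3 y _ hq.2.1, b3 y _ hq.2.2⟩
  obtain ⟨C0, d1, d2⟩ := A.exists_not_cov (comp_countable isOpen_univ hFP) c1
  have d3 : ∀ y, C y = C0 → ∀ x ∈ S y, ∀ z ∈ T y, (x, y, z) ∈ C0 := fun y hy x hx z hz =>
    hy ▸ c2 y (x, z) ⟨mem_univ _, hx, hz⟩
  have d4 := ((Comp.an isOpen_univ hFP d1).preimage (fun x _ => hol_diag3 A x)
    (mapsTo_univ _ _)).eq_univ_of_not_cov d2 fun y hy => d3 y hy y (a2 y) y (b2 y)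
  obtain ⟨Y₃, e1, e2⟩ := D.up Y₁ h1 Y₂ h2 C0 d1 fun x => eq_univ_iff_forall.1 d4 x
  obtain ⟨d₃, i3⟩ := D.irr Y₃ e1
  refine ⟨Y₃, e1, i1.sub_of_fibres i3.1 d2 fun y hy h => a4 y (h.sub fun x hx =>
    ⟨a3 y x hx, e2 _ (d3 y hy x hx y (b2 y))⟩), fun q hq => ?_⟩
  exact i2.swap.sub_of_fibres i3.swap.1 d2 (fun y hy h => b4 y (h.sub fun x hx =>
    ⟨b3 y x hx, e2 _ (d3 y hy y (a2 y) x hx)⟩)) (a := q.swap) hq

/-- the class has a largest member -/
theorem RelK.exists_max (D : RelK A) :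
    ∃ Y ∈ D.K, ∀ Y' ∈ D.K, Y' ⊆ Y := by
  have hb : BddAbove {d | ∃ Y ∈ D.K, (A.prod A).Irr univ Y d} := ⟨finrank ℂ (E × E), by
    rintro d ⟨Y, -, h⟩
    obtain ⟨q, hq⟩ := h.2.1
    exact hq.2.le⟩
  obtain ⟨Y0, h0⟩ := D.ne
  obtain ⟨Y, h1, h2⟩ := Nat.sSup_mem (s := {d | ∃ Y ∈ D.K, (A.prod A).Irr univ Y d})
    ⟨_, Y0, h0, (D.irr Y0 h0).choose_spec⟩ hb
  refine ⟨Y, h1, fun Y' h' => ?_⟩
  obtain ⟨Y₃, a1, a2, a3⟩ := D.directed h1 h'
  obtain ⟨k, hk⟩ := D.irr Y₃ a1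
  exact fun q hq => h2.sub_of_sub isOpen_univ hk (fun z hz => a2 hz.2) (le_csSup hb ⟨Y₃, a1, hk⟩)
    ⟨mem_univ _, a3 hq⟩

/-- the properties of the largest member which are used later -/
structure MaxR (A : HA E M) (Y : Set (M × M)) (r : ℕ) : Prop where
  irr : (A.prod A).Irr univ Y (finrank ℂ E + r)
  diag : ∀ x, (x, x) ∈ Y
  symm : ∀ x y, (x, y) ∈ Y → (y, x) ∈ Y
  up : ∀ C, (A.prod (A.prod A)).Comp univ (FP Y Y) C → (∀ x, (x, x, x) ∈ C) →
    ∀ t ∈ C, (t.1, t.2.2) ∈ Y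

theorem RelK.exists_maxR (D : RelK A) :
    ∃ Y ∈ D.K, (∀ Y' ∈ D.K, Y' ⊆ Y) ∧ ∃ r, MaxR A Y r := by
  obtain ⟨Y, h1, h2⟩ := D.exists_max
  obtain ⟨d, hd⟩ := D.irr Y h1
  obtain ⟨r, rfl⟩ := Nat.exists_eq_add_of_le (hd.le_of_diag (D.diag Y h1))
  refine ⟨Y, h1, h2, r, hd, D.diag Y h1, fun x y h => ?_, fun C a b t ht => ?_⟩
  · obtain ⟨Y', a, b⟩ := D.symm Y h1
    exact h2 Y' a (b x y h)
  · obtain ⟨Y', c, e⟩ := D.up Y h1 Y h1 C a b
    exact h2 Y' c (e t ht)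

theorem MaxR.le {Y : Set (M × M)} {r : ℕ} (h : MaxR A Y r) : r ≤ finrank ℂ E := by
  obtain ⟨q, hq⟩ := h.irr.2.1
  have h1 := hq.2.le
  rw [finrank_prod] at h1
  omega

end Crest.Agent.X261.Ans
end

-- ▼ part X261/Ans/EqB
section

/-!
# X261/Ans/EqB (helper7): the maximal relation is regular at some point of the diagonal
-/

set_option autoImplicit false
set_option linter.unusedSectionVars false

open Set Filter Topology Module

namespace Crest.Agent.X261.Ans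

variable {E F V : Type} [NormedAddCommGroup E] [NormedSpace ℂ E] [FiniteDimensional ℂ E]
  [NormedAddCommGroup F] [NormedSpace ℂ F] [FiniteDimensional ℂ F]
  [NormedAddCommGroup V] [NormedSpace ℂ V] [FiniteDimensional ℂ V]
  {M N : Type} [TopologicalSpace M] [TopologicalSpace N] {A : HA E M} {B : HA F N}

/-- a common complement of the kernels of two surjections -/
theorem C2.exists_two {L L' : V →L[ℂ] E} (h : Function.Surjective L)
    (h' : Function.Surjective L') : ∃ ι : E →L[ℂ] V, Function.Surjective (L.comp ι) ∧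
      Function.Surjective (L'.comp ι) := by
  obtain ⟨a, ha⟩ := C2.exists_rinv h
  obtain ⟨b, hb⟩ := C2.exists_rinv h'
  have h1 : ∀ T : V →L[ℂ] E, AnalyticOnNhd ℂ (fun t : ℂ => T.comp (a + t • (b - a))) univ :=
    fun T t _ => ((ContinuousLinearMap.compL ℂ E V E T).analyticAt _).comp
      (analyticAt_const.add (analyticAt_id.smul analyticAt_const))
  have h2 : ∀ (T : V →L[ℂ] E) (t : ℂ), Function.Surjective (T.comp (a + t • (b - a))) →
      (HA.self ℂ).Cov (finrank ℂ ℂ) {t : ℂ | ¬ Function.Surjective (T.comp (a + t • (b - a)))} :=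
    fun T t ht => HA.An.cov_of_ne (fun x _ => HA.self_anAt.2
      ⟨univ, isOpen_univ, mem_univ x, Man.cut_crit (h1 T)⟩)
      fun h3 => (eq_univ_iff_forall.1 h3 t) ht
  have h3 := ((h2 L 0 fun x => ⟨x, by simp [ha]⟩).union
    (h2 L' 1 fun x => ⟨x, by simp [hb]⟩)).ne_univ
  obtain ⟨t, ht⟩ := (ne_univ_iff_exists_notMem _).1 h3
  exact ⟨_, by_contra fun h4 => ht (Or.inl h4), by_contra fun h4 => ht (Or.inr h4)⟩

namespace HA

/-- a common transversal of two submersions -/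
theorem exists_two {α β : V → M} {t : V} (hα : (self V).Subm A α t) (hβ : (self V).Subm A β t) :
    ∃ u : E → V, AnalyticAt ℂ u 0 ∧ u 0 = t ∧ (self E).Subm A (fun s => α (u s)) 0 ∧
      (self E).Subm A (fun s => β (u s)) 0 := by
  obtain ⟨i, hi⟩ := A.cover (α t)
  obtain ⟨j, hj⟩ := A.cover (β t)
  obtain ⟨ι, h1, h2⟩ := C2.exists_two (hα.2 () i (mem_univ _) hi) (hβ.2 () j (mem_univ _) hj)
  have h0 : t + ι 0 = t := by simp
  have hu : AnalyticAt ℂ (fun s => t + ι s) 0 := analyticAt_const.add (ι.analyticAt 0)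
  have key : ∀ {γ : V → M} {k : A.ι}, (self V).Hol A γ t → γ t ∈ (A.e k).source →
      Function.Surjective ((fderiv ℂ (fun z => A.e k (γ z)) t).comp ι) →
      (self E).Subm A (fun s => γ (t + ι s)) 0 := by
    intro γ k a1 a2 a3
    refine subm_of (i := ()) (j := k) (a1.comp_of_eq (self_hol_iff.2 hu) h0) (mem_univ _)
      (by rw [h0]; exact a2) ?_
    have a4 : HasFDerivAt (fun z => A.e k (γ z)) (fderiv ℂ (fun z => A.e k (γ z)) t) (t + ι 0) := by
      rw [h0]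
      exact (a1.2 () k (mem_univ _) a2).differentiableAt.hasFDerivAt
    have a5 : HasFDerivAt (fun s => A.e k (γ (t + ι s)))
        ((fderiv ℂ (fun z => A.e k (γ z)) t).comp ι) 0 :=
      HasFDerivAt.comp (f := fun s => t + ι s) (0 : E) a4 (ι.hasFDerivAt.const_add t)
    exact a5.fderiv.symm ▸ a3
  exact ⟨fun s => t + ι s, hu, h0, key hα.1 hi h1, key hβ.1 hj h2⟩

/-- `f` has a local section through `p` with values in `Y` -/
def SecY (B : HA F N) (A : HA E M) (f : N → M) (Y : Set N) (p : N) : Prop :=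
  ∃ σ : M → N, A.Hol B σ (f p) ∧ σ (f p) = p ∧ ∀ᶠ t in 𝓝 (f p), σ t ∈ Y ∧ f (σ t) = t

/-- in a parametrisation `SecY` means submersion -/
theorem secY_iff {Y : Set N} {f : N → M} {φ : V → N} {ρ : N → V} {p : N}
    (hφ : (self V).Hol B φ (ρ p)) (hρ : B.Hol (self V) ρ p) (hf : B.Hol A f p) (h0 : φ (ρ p) = p)
    (h1 : ∀ᶠ t in 𝓝 (ρ p), φ t ∈ Y) (h2 : ∀ᶠ y in 𝓝 p, y ∈ Y → φ (ρ y) = y) :
    SecY B A f Y p ↔ (self V).Subm A (fun t => f (φ t)) (ρ p) := by
  constructor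
  · rintro ⟨σ, a1, a2, a3⟩
    refine subm_of_sec (hf.comp_of_eq hφ h0) (σ := fun t => ρ (σ t)) ?_ ?_ ?_
    · rw [h0]
      exact hρ.comp_of_eq a1 a2
    · rw [h0, a2]
    · rw [h0]
      filter_upwards [a3, a1.1.eventually (a2.symm ▸ h2)] with t b1 b2
      rw [b2 b1.1, b1.2]
  · intro h
    obtain ⟨σ, a1, a2, a3⟩ := h.sec
    rw [h0] at a1 a2 a3
    refine ⟨fun t => φ (σ t), hφ.comp_of_eq a1 a2, by beta_reduce; rw [a2, h0], ?_⟩
    filter_upwards [a3, a1.1.eventually (a2.symm ▸ h1)] with t b1 b2 using ⟨b2, b1⟩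

theorem Reg.loc_sec {Y : Set N} {d : ℕ} {p : N} (h : B.Reg Y d p) {f : N → M} (hf : B.Hol A f p) :
    ∃ (φ : (Fin d → ℂ) → N) (ρ : N → Fin d → ℂ), (self _).Hol A (fun t => f (φ t)) (ρ p) ∧
      B.Hol (self _) ρ p ∧ ∀ᶠ q in 𝓝 p, q ∈ Y → φ (ρ q) = q ∧
        (SecY B A f Y q ↔ (self _).Subm A (fun t => f (φ t)) (ρ q)) := by
  obtain ⟨φ, ρ, a1, a2, a3, a4, a5⟩ := h.param
  refine ⟨φ, ρ, hf.comp_of_eq a1 a3, a2, ?_⟩
  filter_upwards [a2.1.eventually a1.eventually, a2.eventually, hf.eventually,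
    a2.1.eventually a4.eventually_nhds, a5.eventually_nhds] with q b1 b2 b3 b4 b5 hq
  exact ⟨b5.self_of_nhds hq, secY_iff b1 b2 b3 (b5.self_of_nhds hq) (b4.mono fun _ h => h.1) b5⟩

theorem Reg.anAt_sec {Y : Set N} {d : ℕ} {p : N} (h : B.Reg Y d p) {f : N → M}
    (hf : B.Hol A f p) : B.AnAt {q | q ∈ Y ∧ ¬ SecY B A f Y q} p := by
  obtain ⟨φ, ρ, a1, a2, a3⟩ := h.loc_sec hf
  refine (h.anAt.inter ((anAt_crit a1).preimage a2)).congr (a3.mono fun q hq => ?_)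
  exact and_congr_right fun h1 => (not_congr (hq h1).2).symm

/-- Sard's theorem on the regular locus -/
theorem cov_sec [Countable B.ι] {Y S : Set N} {d : ℕ} {f : N → M}
    (h : ∀ q ∈ S, B.Reg Y d q ∧ B.Hol A f q ∧ ¬ SecY B A f Y q) :
    A.Cov (finrank ℂ E) (f '' S) := by
  refine HA.cov_image_of_local B fun p hp => ?_
  obtain ⟨φ, ρ, a1, a2, a3⟩ := (h p hp).1.loc_sec (h p hp).2.1
  refine ⟨_, a3.and (a2.1.eventually a1.eventually), (cov_critval
    (U := {t | (self _).Hol A (fun t => f (φ t)) t}) fun _ h => h).sub ?_⟩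
  rintro _ ⟨q, ⟨b1, b2, b3⟩, rfl⟩
  obtain ⟨c1, c2⟩ := b2 (h q b1).1.mem
  exact ⟨ρ q, ⟨b3, fun h1 => (h q b1).2.2 (c2.2 h1)⟩, congrArg f c1⟩

/-- a dominant map is a submersion at the generic point -/
theorem Irr.cov_crit [Countable B.ι] {U Y : Set N} {r : ℕ} (hU : IsOpen U)
    (h : B.Irr U Y (finrank ℂ E + r)) {f : N → M} (hf : ∀ q ∈ U ∩ Y, B.Hol A f q)
    (hd : ¬ A.Cov (finrank ℂ E) (f '' (U ∩ Y))) :
    B.Cov (finrank ℂ E + r) {q | q ∈ U ∩ Y ∧ ¬ SecY B A f Y q} := by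
  have hs := h.cov_sing hU
  rcases ident h.2.2.1 (fun y hy => reg_reg hU hy.1 hy.2) (Z := {q | q ∈ Y ∧ ¬ SecY B A f Y q})
    (fun q hq => hq.2.anAt_sec (hf q ⟨hq.1, hq.2.mem⟩)) with h1 | h1
  · refine absurd (((cov_sec (S := {y | y ∈ U ∧ B.Reg Y (finrank ℂ E + r) y}) fun q hq =>
      ⟨hq.2, hf q ⟨hq.1, hq.2.mem⟩, (h1 hq).2⟩).union
      (hs.fibre' fun q hq => hf q hq.1)).sub ?_) hd
    rintro _ ⟨p, hp, rfl⟩
    by_contra h2
    rw [mem_union, not_or] at h2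
    refine h.fib_low hU hp (hf p hp) (hU.mem_nhds hp.1) ((not_not.1 h2.2).sub fun q hq => ?_)
    exact ⟨⟨⟨hq.1.2, hq.1.1⟩, fun h3 => h2.1 ⟨q, ⟨hq.1.2, h3⟩, hq.2⟩⟩, hq.2⟩
  · refine (h1.1.union hs).sub fun q hq => ?_
    by_cases h2 : B.Reg Y (finrank ℂ E + r) q
    · exact Or.inl ⟨⟨hq.1.1, h2⟩, hq.1.2, hq.2⟩
    · exact Or.inr ⟨hq.1, h2⟩

/-- through a doubly submersive regular point there is the graph of a local biholomorphism -/
theorem exists_graph {Y : Set (M × M)} {d : ℕ} {a b : M} (h : (A.prod A).Reg Y d (a, b))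
    (h1 : SecY (A.prod A) A Prod.fst Y (a, b)) (h2 : SecY (A.prod A) A Prod.snd Y (a, b)) :
    ∃ ψ ψ' : M → M, A.Hol A ψ a ∧ A.Hol A ψ' b ∧ ψ a = b ∧ ψ' b = a ∧
      (∀ᶠ s in 𝓝 a, (s, ψ s) ∈ Y ∧ ψ' (ψ s) = s) ∧ ∀ᶠ s in 𝓝 b, ψ (ψ' s) = s := by
  obtain ⟨φ, ρ, a1, a2, a3, a4, a5⟩ := h.param
  have a6 := a4.mono fun _ h => h.1
  obtain ⟨u, b1, b2, b3, b4⟩ := exists_two ((secY_iff a1 a2 (hol_fst A A _) a3 a6 a5).1 h1)
    ((secY_iff a1 a2 (hol_snd A A _) a3 a6 a5).1 h2)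
  obtain ⟨σ, c1, c2, c3⟩ := b3.inv rfl
  obtain ⟨τ, d1, d2, d3⟩ := b4.inv rfl
  have c4 := c2.self_of_nhds
  have d4 := d2.self_of_nhds
  beta_reduce at c1 c3 c4 d1 d3 d4
  rw [b2, a3] at c1 c3 c4 d1 d3 d4
  have e1 : ∀ᶠ s in 𝓝 (0 : E), φ (u s) ∈ Y := b1.continuousAt.eventually (b2.symm ▸ a6)
  refine ⟨fun s => (φ (u (σ s))).2, fun s => (φ (u (τ s))).1, b4.1.comp_of_eq c1 c4,
    b3.1.comp_of_eq d1 d4, ?_, ?_, ?_, ?_⟩
  · beta_reduce
    rw [c4, b2, a3]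
  · beta_reduce
    rw [d4, b2, a3]
  · filter_upwards [c3, c1.1.eventually (c4.symm ▸ e1.and d2)] with s f1 f2
    refine ⟨?_, by rw [f2.2, f1]⟩
    have f3 : (s, (φ (u (σ s))).2) = φ (u (σ s)) := Prod.ext f1.symm rfl
    exact f3 ▸ f2.1
  · filter_upwards [d3, d1.1.eventually (d4.symm ▸ c2)] with s f1 f2
    rw [f2, f1]

end HA

open HA

variable [ConnectedSpace M] [Countable A.ι] {Y : Set (M × M)} {r : ℕ}

/-- the relation is transitive near some point -/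
theorem MaxR.exists_trans (h : MaxR A Y r) :
    ∃ x, ∀ᶠ t in 𝓝 (x, x, x), t ∈ FP Y Y → (t.1, t.2.2) ∈ Y := by
  have hFP := an_FP h.irr.1 h.irr.1
  have h1 : A.Cov (finrank ℂ E) (⋃ C ∈ {C | (A.prod (A.prod A)).Comp univ (FP Y Y) C ∧
      ¬ ∀ x, (x, x, x) ∈ C}, {x | (x, x, x) ∈ C}) :=
    HA.cov_biUnion ((comp_countable isOpen_univ hFP).mono fun C hC => hC.1) fun C hC =>
      ((hC.1.an isOpen_univ hFP).preimage (fun x _ => hol_diag3 A x)
        (mapsTo_univ _ _)).cov_of_ne fun h2 => hC.2 (eq_univ_iff_forall.1 h2)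
  obtain ⟨x, hx⟩ := (ne_univ_iff_exists_notMem _).1 h1.ne_univ
  refine ⟨x, (comp_near isOpen_univ hFP (mem_univ _)).mono fun t ht h2 => ?_⟩
  obtain ⟨C, a, b, c⟩ := ht h2
  exact h.up C a (by_contra fun h3 => hx (mem_biUnion ⟨a, h3⟩ b)) t c

theorem MaxR.ne_good (h : MaxR A Y r) :
    ∃ x, (A.prod A).Reg Y (finrank ℂ E + r) (x, x) := by
  obtain ⟨x, hx⟩ := h.exists_trans
  obtain ⟨U, hU, hxU, htr⟩ : ∃ U : Set M, IsOpen U ∧ x ∈ U ∧ ∀ a ∈ U, ∀ b ∈ U, ∀ c ∈ U,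
      (a, b) ∈ Y → (b, c) ∈ Y → (a, c) ∈ Y := by
    rw [nhds_prod_eq, nhds_prod_eq] at hx
    obtain ⟨s, h1, t, h2, h3⟩ := mem_prod_iff.1 hx
    obtain ⟨u, h4, h5⟩ := mem_prod_self_iff.1 h2
    obtain ⟨U, a1, a2, a3⟩ := _root_.mem_nhds_iff.1 (inter_mem h1 h4)
    exact ⟨U, a2, a3, fun a ha b hb c hc e1 e2 =>
      h3 (a := (a, b, c)) ⟨(a1 ha).1, h5 ⟨(a1 hb).2, (a1 hc).2⟩⟩ ⟨e1, e2⟩⟩
  have h1 := h.irr.cov_crit isOpen_univ (fun q _ => hol_fst A A q) fun h1 =>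
    A.not_cov_univ (h1.sub fun y _ => ⟨(y, y), ⟨mem_univ _, h.diag y⟩, rfl⟩)
  have h2 := h.irr.cov_crit isOpen_univ (fun q _ => hol_snd A A q) fun h1 =>
    A.not_cov_univ (h1.sub fun y _ => ⟨(y, y), ⟨mem_univ _, h.diag y⟩, rfl⟩)
  obtain ⟨⟨a, b⟩, h3, h4, h5⟩ := mem_closure_iff.1 (h.irr.sub_closure_diff isOpen_univ
    ((h1.union h2).union (h.irr.cov_sing isOpen_univ)) ⟨mem_univ _, h.diag x⟩) _ (hU.prod hU)
    ⟨hxU, hxU⟩
  have h6 : (A.prod A).Reg Y (finrank ℂ E + r) (a, b) := by_contra fun h6 => h5 (Or.inr ⟨h4, h6⟩)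
  obtain ⟨ψ, ψ', a1, a2, a3, a4, a5, a6⟩ := exists_graph h6
    (by_contra fun h7 => h5 (Or.inl (Or.inl ⟨h4, h7⟩)))
    (by_contra fun h7 => h5 (Or.inl (Or.inr ⟨h4, h7⟩)))
  have h7 := h6.biholo (B := A.prod A) (f := fun q => (q.1, ψ q.2)) (g := fun q => (q.1, ψ' q.2))
    ((hol_id A _).prodMap a2) ((hol_id A _).prodMap (a4.symm ▸ a1))
    ((continuousAt_snd.eventually a6).mono fun q hq => Prod.ext rfl hq)
    ((continuousAt_snd.eventually (a4.symm ▸ a5)).mono fun q hq => Prod.ext rfl hq.2)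
  beta_reduce at h7
  rw [a4] at h7
  refine ⟨a, h7.congr ?_⟩
  have h8 : ∀ᶠ s in 𝓝 a, ψ s ∈ U := a1.1.eventually (a3.symm ▸ hU.mem_nhds h3.2)
  filter_upwards [continuousAt_fst.eventually (hU.eventually_mem h3.1),
    continuousAt_snd.eventually ((hU.eventually_mem h3.1).and (h8.and a5))] with q b1 b2
  exact ⟨fun h9 => htr _ b1 _ b2.2.1 _ b2.1 h9 (h.symm _ _ b2.2.2.1),
    fun h9 => htr _ b1 _ b2.1 _ b2.2.1 h9 b2.2.2.1⟩

end Crest.Agent.X261.Ans
end

-- ▼ part X261/Ans/EqC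
section

/-!
# X261/Ans/EqC (helper7): foliation charts of the maximal relation
-/

set_option autoImplicit false
set_option linter.unusedSectionVars false

open Set Filter Topology Module

namespace Crest.Agent.X261.Ans

variable {E : Type} [NormedAddCommGroup E] [NormedSpace ℂ E] [FiniteDimensional ℂ E]
  {M : Type} [TopologicalSpace M] {A : HA E M}

/-- normal form of a relation which contains the diagonal, at a regular point of the diagonal -/
theorem C2.flat_h {Z : Set (E × E)} {x : E} {p r : ℕ} (hpr : p + r = finrank ℂ E)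
    (hr : Reg Z (finrank ℂ E + r) (x, x)) (hd : ∀ᶠ s in 𝓝 x, (s, s) ∈ Z) :
    ∃ (κ : E →L[ℂ] (Fin p → ℂ)) (l : E →L[ℂ] (Fin r → ℂ)) (h : (Fin r → ℂ) × E → E),
      Function.Bijective (κ.prod l) ∧ AnalyticAt ℂ h (l x, x) ∧
      (∀ᶠ q in 𝓝 (l x, x), (h q, q.2) ∈ Z ∧ l (h q) = q.1) ∧
      ∀ᶠ q in 𝓝 (x, x), q ∈ Z → h (l q.1, q.2) = q.1 := by
  obtain ⟨c, g, hc, hg, hs, hZ⟩ := hr.exists_subm
  obtain rfl : c = p := by
    rw [finrank_prod] at hc
    omega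
  have hg0 : g (x, x) = 0 := hZ.self_of_nhds.1 hr.1
  set T := fderiv ℂ g (x, x) with hT
  have hdg : HasFDerivAt g T (x, x) := hg.differentiableAt.hasFDerivAt
  have hTd : ∀ v, T (v, v) = 0 := by
    intro v
    have h1 : HasFDerivAt (fun s => g (s, s))
        (T.comp ((ContinuousLinearMap.id ℂ E).prod (ContinuousLinearMap.id ℂ E))) x :=
      HasFDerivAt.comp (f := fun s => (s, s)) x hdg ((hasFDerivAt_id x).prodMk (hasFDerivAt_id x))
    have h2 : HasFDerivAt (fun s => g (s, s)) (0 : E →L[ℂ] (Fin c → ℂ)) x := by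
      refine (hasFDerivAt_const (0 : Fin c → ℂ) x).congr_of_eventuallyEq ?_
      filter_upwards [hd, (continuousAt_id.prodMk continuousAt_id).eventually hZ] with s a b
        using b.1 a
    exact congrArg (fun L : E →L[ℂ] (Fin c → ℂ) => L v) (h1.unique h2)
  let κ : E →L[ℂ] (Fin c → ℂ) := T.comp (ContinuousLinearMap.inl ℂ E E)
  have hκ : Function.Surjective κ := by
    intro y
    obtain ⟨⟨v, w⟩, h⟩ := hs y
    refine ⟨v - w, ?_⟩
    change T (v - w, 0) = y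
    rw [show ((v - w, 0) : E × E) = (v, w) - (w, w) by simp, map_sub, h, hTd, sub_zero]
  have hK := C2.finrank_ker hκ
  set K := LinearMap.ker (κ : E →ₗ[ℂ] (Fin c → ℂ))
  obtain ⟨P, hP⟩ := C2.exists_linv (L := K.subtypeL) Subtype.val_injective
  let e : K ≃L[ℂ] (Fin r → ℂ) := ContinuousLinearEquiv.ofFinrankEq (by
    simp only [finrank_fintype_fun_eq_card, Fintype.card_fin] at hK ⊢
    omega)
  let l : E →L[ℂ] (Fin r → ℂ) := (e : K →L[ℂ] (Fin r → ℂ)).comp P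
  have hinj : ∀ v, κ v = 0 → l v = 0 → v = 0 := by
    intro v h1 h2
    have h3 : e (P (K.subtypeL ⟨v, h1⟩)) = 0 := h2
    rw [hP, map_eq_zero_iff _ e.injective] at h3
    exact congrArg Subtype.val h3
  have hbij : ∀ {X Y : Type} [NormedAddCommGroup X] [NormedSpace ℂ X] [FiniteDimensional ℂ X]
      [NormedAddCommGroup Y] [NormedSpace ℂ Y] [FiniteDimensional ℂ Y] (L : X →L[ℂ] Y),
      finrank ℂ X = finrank ℂ Y → (∀ v, L v = 0 → v = 0) → Function.Bijective L := by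
    intro X Y _ _ _ _ _ _ L h1 h2
    have h3 : Function.Injective L := (injective_iff_map_eq_zero L).2 h2
    exact ⟨h3, (LinearMap.injective_iff_surjective_of_finrank_eq_finrank h1
      (f := (L : X →ₗ[ℂ] Y))).1 h3⟩
  let H : E × E → ((Fin c → ℂ) × (Fin r → ℂ)) × E := fun q => ((g q, l q.1), q.2)
  have hH : AnalyticAt ℂ H (x, x) :=
    (hg.prod ((l.analyticAt _).comp analyticAt_fst)).prod analyticAt_snd
  have hH' : HasFDerivAt H ((T.prod (l.comp (ContinuousLinearMap.fst ℂ E E))).prod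
      (ContinuousLinearMap.snd ℂ E E)) (x, x) :=
    (hdg.prodMk (l.comp (ContinuousLinearMap.fst ℂ E E)).hasFDerivAt).prodMk hasFDerivAt_snd
  obtain ⟨σ, a1, a2, a3⟩ := Man.exists_inv' hH (by
    rw [hH'.fderiv]
    refine hbij _ ?_ ?_
    · simp only [finrank_prod, finrank_fintype_fun_eq_card, Fintype.card_fin]
      omega
    · rintro ⟨v, w⟩ h
      obtain rfl : w = 0 := congrArg Prod.snd h
      exact Prod.ext (hinj v (congrArg (fun y => y.1.1) h) (congrArg (fun y => y.1.2) h)) rfl)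
  have h0 : H (x, x) = ((0, l x), x) := by simp only [H, hg0]
  have hσ0 : σ ((0, l x), x) = (x, x) := h0 ▸ a2.self_of_nhds
  rw [h0] at a1 a3
  have hj : AnalyticAt ℂ (fun q : (Fin r → ℂ) × E => (((0 : Fin c → ℂ), q.1), q.2)) (l x, x) :=
    (analyticAt_const.prod analyticAt_fst).prod analyticAt_snd
  have hσ : AnalyticAt ℂ (fun q : (Fin r → ℂ) × E => σ ((0, q.1), q.2)) (l x, x) :=
    AnalyticAt.comp (g := σ) a1 hj
  refine ⟨κ, l, fun q => (σ ((0, q.1), q.2)).1, hbij _ ?_ fun v hv =>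
    hinj v (congrArg Prod.fst hv) (congrArg Prod.snd hv),
    AnalyticAt.comp (g := Prod.fst) analyticAt_fst hσ, ?_, ?_⟩
  · simp only [finrank_prod, finrank_fintype_fun_eq_card, Fintype.card_fin]
    omega
  · filter_upwards [hj.continuousAt.eventually a3, hσ.continuousAt.eventually (hσ0.symm ▸ hZ)]
      with q b1 b2
    have b3 : (σ ((0, q.1), q.2)).2 = q.2 := congrArg Prod.snd b1
    refine ⟨?_, congrArg (fun y => y.1.2) b1⟩
    have b4 : ((σ ((0, q.1), q.2)).1, q.2) = σ ((0, q.1), q.2) := Prod.ext rfl b3.symm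
    exact b4 ▸ b2.2 (congrArg (fun y => y.1.1) b1)
  · filter_upwards [a2, hZ] with q b1 b2 hq
    have b3 : H q = ((0, l q.1), q.2) := by simp only [H, b2.1 hq]
    rw [← b3, b1]

open HA

variable [ConnectedSpace M] [Countable A.ι] {Y : Set (M × M)} {r : ℕ}

/-- saturation along plaques -/
theorem MaxR.sat (h : MaxR A Y r) {V : Type} [NormedAddCommGroup V] [NormedSpace ℂ V]
    [FiniteDimensional ℂ V] {D : Set V} (hD : IsOpen D) (hc : IsConnected D) {U : Set M}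
    (hU : IsOpen U) {η : V × M → M} (h1 : ∀ q ∈ D ×ˢ U, ((self V).prod A).Hol A η q ∧ (η q, q.2) ∈ Y)
    (h2 : ∀ z ∈ U, ∃ a ∈ D, η (a, z) = z) {a : V} (ha : a ∈ D) {z q : M} (hz : z ∈ U)
    (hq : (z, q) ∈ Y) : (η (a, z), q) ∈ Y := by
  have hFP := an_FP h.irr.1 h.irr.1
  have hO : IsOpen (U ×ˢ (univ : Set M)) := hU.prod isOpen_univ
  have hY : (A.prod A).An (U ×ˢ univ) Y := h.irr.1.mono (subset_univ _)
  obtain ⟨Y', a1, a2⟩ := comp_cover hO hY (x := (z, q)) ⟨hz, mem_univ _⟩ hq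
  obtain ⟨a3, d, a4⟩ := a1.irr hO hY
  obtain ⟨C, b1, b2⟩ := Irr.img_comp isOpen_univ hFP (hD.prod hO)
    ((irr_open (A := self V) hD hc Subset.rfl).prod a4) (f := fun t => (η (t.1, t.2.1), t.2))
    (fun t ht => (Hol.comp (g := η) (f := fun t : V × M × M => (t.1, t.2.1))
      (h1 (t.1, t.2.1) ⟨ht.1.1, ht.1.2.1⟩).1
      ((hol_fst _ _ t).prodMk (hol_snd _ _ t).fst)).prodMk (hol_snd _ _ t))
    fun t ht => ⟨mem_univ _, (h1 (t.1, t.2.1) ⟨ht.1.1, ht.1.2.1⟩).2, a3 ht.2.2⟩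
  have b3 : ∀ a ∈ D, ∀ w ∈ Y', (η (a, w.1), w) ∈ C := fun a ha w hw =>
    b2 (a, w) ⟨⟨ha, (a1.sub hY hw).1⟩, ha, hw⟩
  obtain ⟨k, K, ⟨w, hw⟩, -, -, c1, c2⟩ := a1.core hO hY
  have b4 := h.irr.sub_of_open isOpen_univ ((b1.an isOpen_univ hFP).preimage
    (f := fun w : M × M => (w.1, w)) (fun w _ => (hol_fst A A w).prodMk (hol_id _ w))
    (mapsTo_univ _ _)) ⟨mem_univ w, a3 (c1 hw)⟩ ((c2 w hw).2.2.mono fun v hv hvY => by
      obtain ⟨b, hb, e⟩ := h2 v.1 (a1.sub hY (c1 (hv hvY))).1.1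
      have := b3 b hb v (c1 (hv hvY))
      rwa [e] at this)
  exact h.up C b1 (fun x => b4 ⟨mem_univ (x, x), h.diag x⟩) _ (b3 a ha (z, q) a2)

theorem MaxR.fol (h : MaxR A Y r) {p : ℕ} (hpr : p + r = finrank ℂ E) {x : M}
    (hx : (A.prod A).Reg Y (finrank ℂ E + r) (x, x)) : Fol A Y p x := by
  obtain ⟨i, hi⟩ := A.cover x
  obtain ⟨κ, l, g, hb, hg, g1, g2⟩ := C2.flat_h hpr
    ((reg_iff (A := A.prod A) (i := (i, i)) ⟨hi, hi⟩).1 hx) (x := A.e i x)
    (Eventually.of_forall fun s => h.diag _)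
  have hx0 : g (l (A.e i x), A.e i x) = A.e i x := g2.self_of_nhds (h.diag _)
  have g3 := (g1.and hg.eventually_analyticAt).and
    (hg.continuousAt.eventually (hx0.symm ▸ ev_target hi))
  rw [nhds_prod_eq] at g2 g3
  obtain ⟨D0, d1, V0, d2, d3⟩ := mem_prod_iff.1 g3
  obtain ⟨V1, d4, d5⟩ := mem_prod_self_iff.1 g2
  obtain ⟨ε, hε, d6⟩ := Metric.mem_nhds_iff.1 d1
  obtain ⟨U, u1, hU, hxU⟩ := _root_.eventually_nhds_iff.1 ((ev_source hi).and ((ev_chart' hi).1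
    (Filter.Eventually.and d2 (Filter.Eventually.and d4
      (l.continuous.continuousAt.eventually (Metric.ball_mem_nhds _ hε))))))
  -- the plaque map
  let η : (Fin r → ℂ) × M → M := fun q => (A.e i).symm (g (q.1, A.e i q.2))
  have e0 : ∀ q ∈ Metric.ball (l (A.e i x)) ε ×ˢ U, ((η q, q.2) ∈ Y ∧ l (A.e i (η q)) = q.1) ∧
      AnalyticAt ℂ g (q.1, A.e i q.2) ∧ g (q.1, A.e i q.2) ∈ (A.e i).target := by
    intro q hq
    obtain ⟨⟨⟨b1, b2⟩, b3⟩, b4⟩ := d3 (a := (q.1, A.e i q.2)) ⟨d6 hq.1, (u1 _ hq.2).2.1⟩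
    refine ⟨⟨?_, ?_⟩, b3, b4⟩
    · have b5 : (η q, (A.e i).symm (A.e i q.2)) ∈ Y := b1
      rwa [(A.e i).left_inv (u1 _ hq.2).1] at b5
    · exact (congrArg l ((A.e i).right_inv b4)).trans b2
  have e1 : ∀ y ∈ U, ∀ z ∈ U, (y, z) ∈ Y → η (l (A.e i y), z) = y := by
    intro y hy z hz hyz
    have b1 := d5 (a := (A.e i y, A.e i z)) ⟨(u1 y hy).2.2.1, (u1 z hz).2.2.1⟩ (by
      change ((A.e i).symm (A.e i y), (A.e i).symm (A.e i z)) ∈ Y
      rwa [(A.e i).left_inv (u1 y hy).1, (A.e i).left_inv (u1 z hz).1])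
    exact (congrArg (A.e i).symm b1).trans ((A.e i).left_inv (u1 y hy).1)
  have sat : ∀ y ∈ U, ∀ z ∈ U, (y, z) ∈ Y → ∀ q, (z, q) ∈ Y → (y, q) ∈ Y := by
    intro y hy z hz hyz q hq
    rw [← e1 y hy z hz hyz]
    refine h.sat Metric.isOpen_ball (Metric.isConnected_ball hε) hU (fun q hq => ⟨?_, (e0 q hq).1.1⟩)
      (fun z hz => ⟨_, (u1 z hz).2.2.2, e1 z hz z hz (h.diag z)⟩) (u1 y hy).2.2.2 hz hq
    exact Hol.comp (g := (A.e i).symm) (f := fun q : (Fin r → ℂ) × M => g (q.1, A.e i q.2))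
      (hol_symm (e0 q hq).2.2) (Hol.an_comp (g := g)
      (f := fun q : (Fin r → ℂ) × M => (q.1, A.e i q.2)) ((hol_fst _ _ q).pair
      ((hol_chart (u1 _ hq.2).1).comp (hol_snd _ _ q))) (e0 q hq).2.1)
  -- the projection
  have hs : AnalyticAt ℂ (fun z => g (l (A.e i x), z)) (A.e i x) :=
    AnalyticAt.comp (g := g) hg (analyticAt_const.prod analyticAt_id)
  have hπ : AnalyticAt ℂ (fun z => κ (g (l (A.e i x), z))) (A.e i x) := (κ.analyticAt _).comp hs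
  have hsurj : Function.Surjective (fderiv ℂ (fun z => κ (g (l (A.e i x), z))) (A.e i x)) := by
    obtain ⟨J, hJ⟩ := C2.exists_rinv hb.2
    have j0 : J (κ (g (l (A.e i x), A.e i x)), l (A.e i x)) = A.e i x := by
      rw [hx0]
      exact hb.1 (hJ _)
    have j1 : AnalyticAt ℂ (fun c => J (c, l (A.e i x))) (κ (g (l (A.e i x), A.e i x))) :=
      (J.analyticAt _).comp (analyticAt_id.prod analyticAt_const)
    refine Man.surj_of_sec hπ j1 j0 ?_
    filter_upwards [j1.continuousAt.eventually (j0.symm ▸ (ev_target hi).and d4)] with c hc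
    have j2 : l (J (c, l (A.e i x))) = l (A.e i x) := congrArg Prod.snd (hJ (c, l (A.e i x)))
    have j3 := d5 (a := (J (c, l (A.e i x)), J (c, l (A.e i x)))) ⟨hc.2, hc.2⟩ (h.diag _)
    beta_reduce at j3
    rw [j2] at j3
    rw [j3]
    exact congrArg Prod.fst (hJ (c, l (A.e i x)))
  have hη : ∀ᶠ z in 𝓝 (A.e i x), (A.e i).symm (g (l (A.e i x), z)) ∈ U := by
    refine (ContinuousAt.comp (f := fun z => g (l (A.e i x), z))
      (by beta_reduce; rw [hx0]; exact cont_symm hi) hs.continuousAt).eventually ?_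
    have e2 : (A.e i).symm (g (l (A.e i x), A.e i x)) = x := by
      rw [hx0, (A.e i).left_inv hi]
    exact (congrArg 𝓝 e2).symm ▸ hU.mem_nhds hxU
  obtain ⟨U', v1, hU', hxU'⟩ := _root_.eventually_nhds_iff.1 ((hU.eventually_mem hxU).and
    ((ev_chart' hi).1 (hη.and (hπ.eventually_analyticAt.and
      (C2.eventually_surj hπ (B := ContinuousLinearMap.id ℂ _) hsurj)))))
  have hl0 : l (A.e i x) ∈ Metric.ball (l (A.e i x)) ε := Metric.mem_ball_self hε
  refine ⟨i, U', fun z => κ (g (l (A.e i x), z)), hU', hxU', fun y hy => (u1 y (v1 y hy).1).1,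
    fun y hy => (v1 y hy).2.2, fun y hy z hz => ⟨fun hyz => ?_, fun hyz => ?_⟩,
    fun y hy z hz => sat y (v1 y hy).1 z (v1 z hz).1⟩
  · obtain ⟨⟨b1, b2⟩, -, b3⟩ := e0 (l (A.e i x), y) ⟨hl0, (v1 y hy).1⟩
    have b4 := e1 _ (v1 y hy).2.1 z (v1 z hz).1 (sat _ (v1 y hy).2.1 y (v1 y hy).1 b1 z hyz)
    have b5 : l (A.e i ((A.e i).symm (g (l (A.e i x), A.e i y)))) = l (A.e i x) := b2
    rw [b5] at b4
    exact congrArg κ ((A.e i).symm.injOn b3 (e0 (l (A.e i x), z) ⟨hl0, (v1 z hz).1⟩).2.2 b4.symm)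
  · obtain ⟨⟨b1, b2⟩, -, b3⟩ := e0 (l (A.e i x), y) ⟨hl0, (v1 y hy).1⟩
    obtain ⟨⟨c1, c2⟩, -, c3⟩ := e0 (l (A.e i x), z) ⟨hl0, (v1 z hz).1⟩
    have b5 : l (A.e i ((A.e i).symm (g (l (A.e i x), A.e i y)))) = l (A.e i x) := b2
    have c5 : l (A.e i ((A.e i).symm (g (l (A.e i x), A.e i z)))) = l (A.e i x) := c2
    rw [(A.e i).right_inv b3] at b5
    rw [(A.e i).right_inv c3] at c5
    have b6 : g (l (A.e i x), A.e i y) = g (l (A.e i x), A.e i z) :=
      hb.1 (Prod.ext hyz (b5.trans c5.symm))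
    have b7 : η (l (A.e i x), y) = η (l (A.e i x), z) := congrArg (A.e i).symm b6
    exact sat y (v1 y hy).1 _ (v1 y hy).2.1 (h.symm _ _ b1) z
      (show (η (l (A.e i x), y), z) ∈ Y from b7.symm ▸ c1)

end Crest.Agent.X261.Ans
end

-- ▼ part X261/Ans/Forms
section

/-!
# X261/Ans/Forms (helper72): singular locus on manifolds, the fields `an_bad` and `forms` of `EqvK`

The two flat theorems `conorm` and `sing` enter as the hypotheses `ConormStmt`, `SingStmt`.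
-/

set_option autoImplicit false
set_option linter.unusedSectionVars false

open Set Filter Topology Module

namespace Crest.Agent.X261.Ans

/-- the statement of `conorm` -/
def ConormStmt (E : Type) [NormedAddCommGroup E] [NormedSpace ℂ E] : Prop :=
  ∀ (Z : Set E) (x : E) (d : ℕ), AnAt Z x →
    (∀ᶠ y in 𝓝 x, y ∈ Z → y ∈ closure {z | Reg Z d z}) →
    ∃ W : Set E, IsOpen W ∧ x ∈ W ∧ Cut W Z ∧ ∀ y ∈ W, ∀ (φ : (Fin d → ℂ) → E) (t : Fin d → ℂ),
      Reg Z d y → AnalyticAt ℂ φ t → φ t = y → (∀ᶠ s in 𝓝 t, φ s ∈ Z) →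
      Function.Injective (fderiv ℂ φ t) →
      ∀ v, (∀ f, Van W Z f → fderiv ℂ f y v = 0) → v ∈ range (fderiv ℂ φ t)

/-- the statement of `sing` -/
def SingStmt (E : Type) [NormedAddCommGroup E] [NormedSpace ℂ E] : Prop :=
  ∀ (Z : Set E) (x : E) (d : ℕ), AnAt Z x →
    (∀ᶠ y in 𝓝 x, y ∈ Z → y ∈ closure {z | Reg Z d z}) → AnAt {y | y ∈ Z ∧ ¬ Reg Z d y} x

variable {E F : Type} [NormedAddCommGroup E] [NormedSpace ℂ E] [FiniteDimensional ℂ E]
  [NormedAddCommGroup F] [NormedSpace ℂ F] [FiniteDimensional ℂ F]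
  {M : Type} [TopologicalSpace M] {A : HA E M}

namespace Frm

/-- independent members of a family of linear forms with small common kernel -/
theorem exists_surj {ι : Type*} (l : ι → E →L[ℂ] ℂ) {K : Submodule ℂ E}
    (h : ∀ v, (∀ i, l i v = 0) → v ∈ K) (k : ℕ) (hk : k + finrank ℂ K ≤ finrank ℂ E) :
    ∃ σ : Fin k → ι, Function.Surjective fun v j => l (σ j) v := by
  induction k with
  | zero => exact ⟨Fin.elim0, fun t => ⟨0, Subsingleton.elim _ _⟩⟩
  | succ k ih =>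
    obtain ⟨σ, hσ⟩ := ih (by omega)
    let L : E →ₗ[ℂ] (Fin k → ℂ) := LinearMap.pi fun j => (l (σ j) : E →ₗ[ℂ] ℂ)
    have h1 := L.finrank_range_add_finrank_ker
    have h2 : finrank ℂ (LinearMap.range L) ≤ k := by
      simpa using (LinearMap.range L).finrank_le
    have h3 : ¬ LinearMap.ker L ≤ K := fun h3 => by
      have := Submodule.finrank_mono h3
      omega
    obtain ⟨v, hv, hvK⟩ := SetLike.not_le_iff_exists.1 h3
    obtain ⟨i, hi⟩ := not_forall.1 fun h4 => hvK (h v h4)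
    refine ⟨Fin.cons i σ, fun t => ?_⟩
    obtain ⟨u, hu⟩ := hσ (Fin.tail t)
    refine ⟨u + ((t 0 - l i u) / l i v) • v, funext fun j => ?_⟩
    refine Fin.cases ?_ (fun j => ?_) j
    · simp only [Fin.cons_zero, map_add, map_smul, smul_eq_mul]
      field_simp
      ring
    · have h5 : l (σ j) v = 0 := congrFun (LinearMap.mem_ker.1 hv) j
      have h6 : l (σ j) u = t j.succ := congrFun hu j
      simp [h5, h6]

/-- a subspace of `E × E` containing the diagonal -/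
theorem finrank_comap_le {T : Submodule ℂ (E × E)} (h : ∀ v, (v, v) ∈ T) :
    finrank ℂ E + finrank ℂ (T.comap (LinearMap.inr ℂ E E)) ≤ finrank ℂ T := by
  let K := T.comap (LinearMap.inr ℂ E E)
  let L : (E × K) →ₗ[ℂ] (E × E) := (LinearMap.fst ℂ E K).prod
    (LinearMap.fst ℂ E K + K.subtype.comp (LinearMap.snd ℂ E K))
  have h1 : ∀ q, L q ∈ T := fun q => by
    have h2 : L q = (q.1, q.1) + (0, (q.2 : E)) := by simp [L]
    rw [h2]
    exact T.add_mem (h q.1) q.2.2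
  have h3 : Function.Injective (L.codRestrict T h1) := by
    rw [injective_iff_map_eq_zero]
    intro q hq
    have h4 : L q = 0 := congrArg Subtype.val hq
    have h5 : q.1 = 0 := congrArg Prod.fst h4
    have h6 : q.1 + (q.2 : E) = 0 := congrArg Prod.snd h4
    rw [h5, zero_add] at h6
    exact Prod.ext h5 (Subtype.ext h6)
  simpa [Module.finrank_prod] using LinearMap.finrank_le_finrank_of_injective h3

/-- the flat statement at a regular point of the diagonal -/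
theorem flat {Z W : Set (E × E)} {z : E} {p r : ℕ} (hpr : p + r = finrank ℂ E)
    (hz : (z, z) ∈ W) (hr : Reg Z (finrank ℂ E + r) (z, z)) (hd : ∀ᶠ y in 𝓝 z, (y, y) ∈ Z)
    (hc : ∀ (φ : (Fin (finrank ℂ E + r) → ℂ) → E × E) (t : Fin (finrank ℂ E + r) → ℂ),
      AnalyticAt ℂ φ t → φ t = (z, z) → (∀ᶠ s in 𝓝 t, φ s ∈ Z) →
      Function.Injective (fderiv ℂ φ t) →
      ∀ v, (∀ f, Van W Z f → fderiv ℂ f (z, z) v = 0) → v ∈ range (fderiv ℂ φ t)) :
    ∃ f : Fin p → E × E → ℂ, (∀ j, Van W Z (f j)) ∧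
      Function.Surjective (fderiv ℂ (fun y => fun j => f j (z, y)) z) := by
  obtain ⟨hzZ, φ, ρ, hφ, hρ, h1, h2⟩ := hr
  have e1 : φ (ρ (z, z)) = (z, z) := h2.self_of_nhds hzZ
  have hρ' : HasFDerivAt ρ (fderiv ℂ ρ (z, z)) (φ (ρ (z, z))) := by
    rw [e1]
    exact hρ.differentiableAt.hasFDerivAt
  have hφ' := hφ.differentiableAt.hasFDerivAt
  have hi : Function.Injective (fderiv ℂ φ (ρ (z, z))) := by
    have h3 := (hρ'.comp _ hφ').unique ((hasFDerivAt_id _).congr_of_eventuallyEq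
      (h1.mono fun t ht => ht.2))
    exact Function.LeftInverse.injective (g := fderiv ℂ ρ (z, z)) fun v =>
      congrArg (fun L : _ →L[ℂ] _ => L v) h3
  let T : Submodule ℂ (E × E) := LinearMap.range (fderiv ℂ φ (ρ (z, z))).toLinearMap
  have hΔ : HasFDerivAt (fun y : E => (y, y))
      ((ContinuousLinearMap.id ℂ E).prod (ContinuousLinearMap.id ℂ E)) z :=
    (hasFDerivAt_id z).prodMk (hasFDerivAt_id z)
  have hT : ∀ v, (v, v) ∈ T := by
    have h4 := HasFDerivAt.comp (f := fun y : E => (y, y)) z hρ.differentiableAt.hasFDerivAt hΔ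
    have h3 := (HasFDerivAt.comp (f := ρ ∘ fun y : E => (y, y)) z hφ' h4).unique
      (hΔ.congr_of_eventuallyEq ((hd.and (hΔ.continuousAt.eventually h2)).mono
        fun y hy => hy.2 hy.1))
    exact fun v => ⟨_, congrArg (fun L : _ →L[ℂ] _ => L v) h3⟩
  have hT2 : finrank ℂ T ≤ finrank ℂ E + r := by
    simpa using LinearMap.finrank_range_le (fderiv ℂ φ (ρ (z, z))).toLinearMap
  have hT3 := finrank_comap_le hT
  obtain ⟨σ, hσ⟩ := exists_surj (ι := {f : E × E → ℂ // Van W Z f})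
    (fun f => (fderiv ℂ f.1 (z, z)).comp (ContinuousLinearMap.inr ℂ E E))
    (K := T.comap (LinearMap.inr ℂ E E))
    (fun v hv => hc φ _ hφ e1 (h1.mono fun t ht => ht.1) hi (0, v) fun f hf => hv ⟨f, hf⟩) p
    (by omega)
  refine ⟨fun j => (σ j).1, fun j => (σ j).2, ?_⟩
  have h4 : HasFDerivAt (fun y => fun j => (σ j).1 (z, y)) (ContinuousLinearMap.pi fun j =>
      (fderiv ℂ (σ j).1 (z, z)).comp (ContinuousLinearMap.inr ℂ E E)) z :=
    hasFDerivAt_pi.2 fun j =>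
      ((σ j).2.1 _ hz).differentiableAt.hasFDerivAt.comp z (hasFDerivAt_prodMk_right z z)
  rw [h4.fderiv]
  exact hσ

end Frm

namespace HA

theorem pure_chart {Z : Set M} {x : M} {d : ℕ} {i : A.ι} (hi : x ∈ (A.e i).source)
    (hp : ∀ᶠ y in 𝓝 x, y ∈ Z → y ∈ closure {z | A.Reg Z d z}) :
    ∀ᶠ w in 𝓝 (A.e i x), w ∈ (A.e i).symm ⁻¹' Z →
      w ∈ closure {z | Ans.Reg ((A.e i).symm ⁻¹' Z) d z} := by
  filter_upwards [(ev_chart hi).1 hp, ev_target hi] with w h1 h2 h3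
  have h4 := (fr_chart ((A.e i).map_target h2)).1 (mem_closure_iff_frequently.1 (h1 h3))
  rw [(A.e i).right_inv h2] at h4
  exact mem_closure_iff_frequently.2 ((h4.and_eventually
    ((A.e i).open_target.mem_nhds h2)).mono fun z hz => (reg_chart hz.2).1 hz.1)

theorem Irr.pure {U Y : Set M} {d : ℕ} (hU : IsOpen U) (h : A.Irr U Y d) {x : M} (hx : x ∈ U) :
    ∀ᶠ y in 𝓝 x, y ∈ Y → y ∈ closure {z | A.Reg Y d z} :=
  (hU.eventually_mem hx).mono fun _ hy hyY => closure_mono (fun _ hz => hz.2) (h.2.2.2 ⟨hy, hyY⟩)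

/-- the singular locus is analytic -/
theorem sing_of (hs : SingStmt E) {Z : Set M} {x : M} {d : ℕ} (hZ : A.AnAt Z x)
    (hp : ∀ᶠ y in 𝓝 x, y ∈ Z → y ∈ closure {z | A.Reg Z d z}) :
    A.AnAt {y | y ∈ Z ∧ ¬ A.Reg Z d y} x := by
  obtain ⟨i, hi, hZ⟩ := hZ
  refine ⟨i, hi, (hs _ _ d hZ (pure_chart hi hp)).congr ?_⟩
  filter_upwards [ev_target hi] with w hw
  simp only [mem_preimage, mem_ofPred_eq, reg_chart hw]

theorem Irr.an_sing_of (hs : SingStmt E) {U Y : Set M} {d : ℕ} (hU : IsOpen U) (h : A.Irr U Y d) :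
    A.An U {y | y ∈ Y ∧ ¬ A.Reg Y d y} := fun x hx => sing_of hs (h.1 x hx) (h.pure hU hx)

/-- the field `an_bad` -/
theorem an_bad_of (hs : SingStmt (E × E)) {Y : Set (M × M)} {d : ℕ} (hY : (A.prod A).Irr univ Y d)
    (hd : ∀ x, (x, x) ∈ Y) : A.An univ {x | ¬ (A.prod A).Reg Y d (x, x)} := fun x _ =>
  (AnAt.preimage (hol_diag A x) (hY.an_sing_of hs isOpen_univ _ (mem_univ _))).congr
    (Eventually.of_forall fun y => and_iff_right (hd y))

/-- the field `forms` -/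
theorem forms_of [PreconnectedSpace M] (hc : ConormStmt (E × E)) (hs : SingStmt (E × E))
    {Y : Set (M × M)} {p r : ℕ} (hpr : p + r = finrank ℂ E)
    (hY : (A.prod A).Irr univ Y (finrank ℂ E + r)) (hd : ∀ x, (x, x) ∈ Y)
    (hne : ∃ x, (A.prod A).Reg Y (finrank ℂ E + r) (x, x)) (i : A.ι) (x : M)
    (hx : x ∈ (A.e i).source) : ∃ (W : Set E) (f : Fin p → E × E → ℂ), IsOpen W ∧
    IsPreconnected W ∧ A.e i x ∈ W ∧ W ⊆ (A.e i).target ∧
    (∀ j, AnalyticOnNhd ℂ (f j) (W ×ˢ W)) ∧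
    (∀ j, ∀ y ∈ W, ∀ z ∈ W, ((A.e i).symm y, (A.e i).symm z) ∈ Y → f j (y, z) = 0) ∧
    ∃ z ∈ W, Function.Surjective (fderiv ℂ (fun y => fun j => f j (z, y)) z) := by
  have hxx : (x, x) ∈ ((A.prod A).e (i, i)).source := ⟨hx, hx⟩
  obtain ⟨W', hW', hxW', -, h⟩ := hc _ _ _ ((anAt_iff hxx).1 (hY.1 _ (mem_univ _)))
    (pure_chart hxx (hY.pure isOpen_univ (mem_univ _)))
  obtain ⟨N, hN, N', hN', hNN⟩ := mem_nhds_prod_iff.1 (hW'.mem_nhds hxW')
  obtain ⟨ε, hε, hb⟩ := Metric.mem_nhds_iff.1 (inter_mem (inter_mem hN hN') (ev_target hx))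
  have hWW : Metric.ball (A.e i x) ε ×ˢ Metric.ball (A.e i x) ε ⊆ W' :=
    fun q hq => hNN ⟨(hb hq.1).1.1, (hb hq.2).1.2⟩
  have hden := (an_bad_of hs hY hd).dense_compl fun h1 => by
    obtain ⟨y, hy⟩ := hne
    exact (h1 ▸ mem_univ y : y ∈ {x | ¬ (A.prod A).Reg Y (finrank ℂ E + r) (x, x)}) hy
  obtain ⟨z, hz1, hz2⟩ := (((fr_chart hx).1 (mem_closure_iff_frequently.1 (hden x))).and_eventually
    (Metric.ball_mem_nhds _ hε)).exists
  have hzt : z ∈ (A.e i).target := (hb hz2).2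
  have hzz : (z, z) ∈ ((A.prod A).e (i, i)).target := ⟨hzt, hzt⟩
  have hr : Ans.Reg (((A.prod A).e (i, i)).symm ⁻¹' Y) (finrank ℂ E + r) (z, z) :=
    (reg_chart hzz).1 (not_not.1 hz1)
  have hzW : (z, z) ∈ W' := hWW ⟨hz2, hz2⟩
  obtain ⟨f, hf, hsu⟩ := Frm.flat hpr hzW hr (Eventually.of_forall fun y => hd _)
    fun φ t => h _ hzW φ t hr
  exact ⟨_, f, Metric.isOpen_ball, (convex_ball _ _).isPreconnected, Metric.mem_ball_self hε,
    fun y hy => (hb hy).2, fun j => (hf j).1.mono hWW,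
    fun j y hy w hw h1 => (hf j).2 (y, w) (hWW ⟨hy, hw⟩) h1, z, hz2, hsu⟩

end HA

end Crest.Agent.X261.Ans
end

-- ▼ part X261/Ans/Sing
section

/-!
# X261/Ans/Sing (helper4): the conormal spaces at the regular points are generated by functions on
a fixed neighbourhood; the singular locus is analytic (both modulo `dec`).
-/

set_option autoImplicit false
set_option linter.unusedSectionVars false

open Set Filter Topology Module Metric
open Crest.Agent.R281.Thn_280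

namespace Crest.Agent.X261.Ans.Sn

open Sh

variable {E V : Type} [NormedAddCommGroup E] [NormedSpace ℂ E] [FiniteDimensional ℂ E]
  [NormedAddCommGroup V] [NormedSpace ℂ V] [FiniteDimensional ℂ V]

/-- the image of the bad points -/
def Bad (A K : Set E) (l : E →L[ℂ] V) : Set V := l '' {y | y ∈ A ∩ K ∧ ¬ Good A l y}

variable {A K : Set E} {l : E →L[ℂ] V}

theorem isClosed_bad (hK : IsCompact (A ∩ K)) : IsClosed (Bad A K l) :=
  ((isCompact_bad hK).image l.continuous).isClosed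

theorem cov_pre (hsurj : Function.Surjective l) {S : Set V} (hS : Cov (finrank ℂ V) S) :
    Cov (finrank ℂ E) (l ⁻¹' S) :=
  (cov_iff_sth.2 ((cov_iff_sth.1 hS).preimage isOpen_univ
    (fun y _ => l.analyticAt y) (fun y _ => by rwa [l.fderiv]))).sub fun _ hy => ⟨mem_univ _, hy⟩

/-- canonical equations of a branched cover -/
theorem canon (hK : IsCompact (A ∩ K)) {O : Set V} (hO : IsOpen O) (hOc : IsPreconnected O)
    (hOK : ∀ y ∈ A ∩ K, l y ∈ O → K ∈ 𝓝 y) (hsurj : Function.Surjective l)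
    (hbad : Cov (finrank ℂ V) (Bad A K l)) :
    ∃ (k : ℕ) (en : V → Fin k → E),
      (∀ t ∈ O \ Bad A K l, Function.Injective (en t) ∧ range (en t) = A ∩ K ∩ l ⁻¹' {t}) ∧
      ∀ lam : E →L[ℂ] ℂ, ∃ g : E → ℂ, AnalyticOnNhd ℂ g (l ⁻¹' O) ∧
        ∀ y, l y ∈ O \ Bad A K l → g y = ∏ i, (lam y - lam (en (l y) i)) := by
  have : CompleteSpace E := FiniteDimensional.complete ℂ E
  set G := O \ Bad A K l with hG
  have hGo : IsOpen G := hO.sdiff (isClosed_bad hK)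
  have hGc : IsPreconnected G := preconnected_diff hO hOc hbad hGo
  set Z : V → Set E := fun t => A ∩ K ∩ l ⁻¹' {t} with hZ
  have hgood : ∀ t ∈ G, ∀ y ∈ A ∩ K, l y = t → Good A l y ∧ K ∈ 𝓝 y := fun t ht y hy hl =>
    ⟨by_contra fun hn => ht.2 ⟨y, ⟨hy, hn⟩, hl⟩, hOK y hy (hl ▸ ht.1)⟩
  have hfin : ∀ t ∈ G, (Z t).Finite := fun t ht =>
    finite_fib hK fun y hy hl => (hgood t ht y hy hl).1
  obtain ⟨k, hcard⟩ : ∃ k, ∀ t ∈ G, (Z t).ncard = k := by
    rcases G.eq_empty_or_nonempty with h0 | ⟨t₁, ht₁⟩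
    · exact ⟨0, fun t ht => by rw [h0] at ht; exact ht.elim⟩
    refine ⟨(Z t₁).ncard, fun t ht => ?_⟩
    refine hGc.constant (f := fun t => (Z t).ncard) (fun s hs => ?_) ht ht₁
    obtain ⟨σ, -, h2⟩ := sheets hK (hgood s hs)
    refine (continuousAt_const (y := (Z s).ncard)).continuousWithinAt.congr_of_eventuallyEq
      (nhdsWithin_le_nhds ?_) rfl
    filter_upwards [h2] with u hu
    show (A ∩ K ∩ l ⁻¹' {u}).ncard = _
    rw [hu.2, hu.1.ncard_image]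
  have hen : ∀ t ∈ G, ∃ en : Fin k → E, Function.Injective en ∧ range en = Z t := by
    intro t ht
    have := (hfin t ht).to_subtype
    let e := Finite.equivFinOfCardEq (α := Z t) (n := k) (by
      rw [Nat.card_coe_set_eq]; exact hcard t ht)
    refine ⟨fun i => e.symm i, Subtype.val_injective.comp e.symm.injective, ?_⟩
    rw [show (fun i => (e.symm i : E)) = Subtype.val ∘ e.symm from rfl, range_comp,
      e.symm.surjective.range_eq, image_univ, Subtype.range_coe]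
  choose! en hen1 hen2 using hen
  have henZ : ∀ t ∈ G, ∀ i, en t i ∈ Z t := fun t ht i => hen2 t ht ▸ mem_range_self i
  have hS : Cov (finrank ℂ E) (l ⁻¹' Bad A K l) := cov_pre hsurj hbad
  have hdiff : l ⁻¹' O \ l ⁻¹' Bad A K l = l ⁻¹' G := rfl
  obtain ⟨R, hR⟩ := hK.isBounded.exists_norm_le
  refine ⟨k, en, fun t ht => ⟨hen1 t ht, hen2 t ht⟩, fun lam => ?_⟩
  obtain ⟨g, g1, g2⟩ := hS.extend (hO.preimage l.continuous)
    (by rw [hdiff]; exact hGo.preimage l.continuous)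
    (f := fun y => ∏ i, (lam y - lam (en (l y) i))) (by
      rw [hdiff]
      intro y hy
      obtain ⟨σ, h1, h2⟩ := sheets hK (hgood _ hy)
      have ha : AnalyticAt ℂ (fun z => ∏ w ∈ (hfin _ hy).toFinset,
          (lam z - lam (σ w (l z)))) y := by
        refine Finset.analyticAt_fun_prod _ fun w hw => (lam.analyticAt _).sub ?_
        exact (lam.analyticAt _).comp
          ((h1 w ((hfin _ hy).mem_toFinset.1 hw)).1.comp (l.analyticAt y))
      refine ha.congr ?_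
      filter_upwards [l.continuous.continuousAt.eventually h2,
        (hGo.preimage l.continuous).mem_nhds hy] with z hz hzG
      rw [← finprod_mem_eq_finite_toFinset_prod,
        ← finprod_mem_image (f := fun w => lam z - lam w) hz.1, ← hz.2,
        ← finprod_eq_prod_of_fintype,
        ← finprod_mem_range (f := fun w => lam z - lam w) (hen1 _ hzG), hen2 _ hzG])
    (fun z _ => ⟨ball z 1, ball_mem_nhds z one_pos, (‖lam‖ * (‖z‖ + 1 + R)) ^ k, fun w hw => by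
      rw [hdiff] at hw
      rw [norm_prod]
      refine (Finset.prod_le_prod (g := fun _ => ‖lam‖ * (‖z‖ + 1 + R))
        (fun _ _ => norm_nonneg _) fun i _ => ?_).trans_eq
          (by rw [Finset.prod_const, Finset.card_univ, Fintype.card_fin])
      rw [← map_sub]
      refine (lam.le_opNorm _).trans (mul_le_mul_of_nonneg_left ?_ (norm_nonneg _))
      have h1 := hR _ (henZ _ hw.2 i).1
      have h2 : ‖w‖ ≤ ‖z‖ + 1 := by
        have := norm_le_norm_add_norm_sub' w z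
        have h3 := mem_ball_iff_norm.1 hw.1
        linarith
      linarith [norm_sub_le w (en (l w) i)]⟩)
  exact ⟨g, g1, fun y hy => g2 y (by rw [hdiff]; exact hy)⟩

/-- comparison of directional derivatives -/
theorem deriv_le {g p : E → ℂ} {y : E} (hg : AnalyticAt ℂ g y) (hp : AnalyticAt ℂ p y)
    (hg0 : g y = 0) (hp0 : p y = 0) {c : ℝ} (h : ∀ᶠ z in 𝓝 y, c * ‖p z‖ ≤ ‖g z‖) (v : E) :
    c * ‖fderiv ℂ p y v‖ ≤ ‖fderiv ℂ g y v‖ := by
  have hl : HasDerivAt (fun s : ℂ => y + s • v) v 0 := by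
    simpa using ((hasDerivAt_id (0 : ℂ)).smul_const v).const_add y
  have key : ∀ f : E → ℂ, AnalyticAt ℂ f y → f y = 0 →
      Tendsto (fun s : ℂ => ‖s⁻¹‖ * ‖f (y + s • v)‖) (𝓝[≠] 0) (𝓝 ‖fderiv ℂ f y v‖) := by
    intro f hf hf0
    have h1 : HasDerivAt (fun s : ℂ => f (y + s • v)) (fderiv ℂ f y v) 0 :=
      HasFDerivAt.comp_hasDerivAt_of_eq (0 : ℂ) hf.differentiableAt.hasFDerivAt hl (by simp)
    have h2 := (hasDerivAt_iff_tendsto_slope_zero.1 h1).norm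
    simpa [hf0, norm_smul] using h2
  have ht : Tendsto (fun s : ℂ => y + s • v) (𝓝[≠] 0) (𝓝 y) := by
    have := hl.continuousAt.tendsto
    simp only [zero_smul, add_zero] at this
    exact this.mono_left nhdsWithin_le_nhds
  refine le_of_tendsto_of_tendsto ((key p hp hp0).const_mul c) (key g hg hg0) ?_
  filter_upwards [ht.eventually h] with s hs
  rw [mul_left_comm]
  exact mul_le_mul_of_nonneg_left hs (norm_nonneg _)

/-- a canonical equation whose differential at a good point does not kill a transverse vector -/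
theorem sep (hK : IsCompact (A ∩ K)) {O : Set V} (hO : IsOpen O) (hOc : IsPreconnected O)
    (hOK : ∀ y ∈ A ∩ K, l y ∈ O → K ∈ 𝓝 y) (hA : ∀ y ∈ K, AnAt A y)
    (hbad : Cov (finrank ℂ V) (Bad A K l)) {y : E} (hy : y ∈ A ∩ K) (hyO : l y ∈ O)
    {σ : V → E} (hσ : AnalyticAt ℂ σ (l y)) (h1 : ∀ᶠ t in 𝓝 (l y), σ t ∈ A ∧ l (σ t) = t)
    (h2 : ∀ᶠ z in 𝓝 y, z ∈ A → σ (l z) = z) {v : E} (hv : v ≠ fderiv ℂ σ (l y) (l v)) :
    ∃ g : E → ℂ, AnalyticOnNhd ℂ g (l ⁻¹' O) ∧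
      (∀ z, K ∈ 𝓝 z → l z ∈ O → z ∈ closure {z | Good A l z} → g z = 0) ∧
      fderiv ℂ g y v ≠ 0 := by
  classical
  have : CompleteSpace V := FiniteDimensional.complete ℂ V
  have hgood : Good A l y := ⟨hy.1, σ, hσ, h1, h2⟩
  obtain ⟨k, en, hen, hg⟩ := canon hK hO hOc hOK hgood.surjective hbad
  have hfin : (A ∩ K ∩ l ⁻¹' {l y}).Finite := by
    refine Pj.finite_of_compact' (hK.inter_right (isClosed_singleton.preimage l.continuous))
      fun w hw => ?_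
    exact ((hA w hw.1.2).inter (anAt_of_mem (hOK w hw.1 (by rw [hw.2]; exact hyO)))).inter
      (anAt_eq (l.analyticAt w) analyticAt_const)
  set T : Set E := insert (v - fderiv ℂ σ (l y) (l v))
    ((fun w => y - w) '' ((A ∩ K ∩ l ⁻¹' {l y}) \ {y})) with hT
  have hTf : T.Finite := (hfin.sdiff.image _).insert _
  have := hTf.to_subtype
  obtain ⟨lam₀, hlam⟩ := Module.exists_dual_forall_apply_ne_zero (K := ℂ) (fun i : T => (i : E))
    (by
      rintro ⟨_, rfl | ⟨w, hw, rfl⟩⟩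
      · exact sub_ne_zero.2 hv
      · exact sub_ne_zero.2 (Ne.symm hw.2))
  set lam : E →L[ℂ] ℂ := LinearMap.toContinuousLinearMap lam₀
  have hlam' : ∀ u ∈ T, lam u ≠ 0 := fun u hu => hlam ⟨u, hu⟩
  obtain ⟨g, g1, g2⟩ := hg lam
  have hvan : ∀ z, K ∈ 𝓝 z → l z ∈ O → z ∈ closure {z | Good A l z} → g z = 0 := by
    intro z hzK hzO hz
    have hfr : ∃ᶠ u in 𝓝 z, u ∈ A ∧ l u ∉ Bad A K l := by
      have h1 : ∃ᶠ u in 𝓝 z, u ∈ {z | Good A l z} := mem_closure_iff_frequently.1 hz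
      exact fun h2 => h1 (h2.eventually_nhds.mono fun u hu hg => Good.frequently hg hbad hu)
    refine (isClosed_singleton (x := (0 : ℂ))).mem_of_frequently_of_tendsto ?_
      (g1 z hzO).continuousAt
    refine (hfr.and_eventually (inter_mem hzK
      ((hO.preimage l.continuous).mem_nhds hzO))).mono fun u hu => ?_
    have huG : l u ∈ O \ Bad A K l := ⟨hu.2.2, hu.1.2⟩
    obtain ⟨i, hi⟩ : u ∈ range (en (l u)) := by
      rw [(hen _ huG).2]
      exact ⟨⟨hu.1.1, hu.2.1⟩, rfl⟩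
    rw [mem_singleton_iff, g2 u huG]
    exact Finset.prod_eq_zero (Finset.mem_univ i) (by rw [hi, sub_self])
  refine ⟨g, g1, hvan, ?_⟩
  obtain ⟨c, hc0, hc1, hc⟩ : ∃ c : ℝ, 0 < c ∧ c < 1 ∧ ∀ u ∈ T, c < ‖lam u‖ := by
    have h3 : ∀ᶠ c in 𝓝[>] (0 : ℝ), ∀ u ∈ T, c < ‖lam u‖ :=
      (eventually_all_finite hTf).2 fun u hu =>
        nhdsWithin_le_nhds (gt_mem_nhds (norm_pos_iff.2 (hlam' u hu)))
    obtain ⟨c, h4, h5, h6⟩ := (h3.and ((show ∀ᶠ c in 𝓝[>] (0 : ℝ), 0 < c from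
      self_mem_nhdsWithin).and (nhdsWithin_le_nhds (gt_mem_nhds one_pos)))).exists
    exact ⟨c, h5, h6, h4⟩
  have h0 : σ (l y) = y := h2.self_of_nhds hy.1
  have hlc : ContinuousAt l y := l.continuous.continuousAt
  have hnear : ∀ᶠ z in 𝓝 y, ∀ w ∈ A ∩ K,
      w ∈ A → l w = l z → w = σ (l z) ∨ c ≤ ‖lam z - lam w‖ := by
    refine hK.eventually_forall_of_forall_eventually
      (P := fun z w => w ∈ A → l w = l z → w = σ (l z) ∨ c ≤ ‖lam z - lam w‖) fun w hw => ?_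
    by_cases hl : l w = l y
    swap
    · have hc : ContinuousAt (fun p : E × E => l p.2 - l p.1) (y, w) := by fun_prop
      filter_upwards [hc.eventually_ne (sub_ne_zero.2 hl)] with p hp _ hpl
      exact (hp (sub_eq_zero.2 hpl)).elim
    by_cases hwy : w = y
    · subst hwy
      filter_upwards [continuousAt_snd.eventually (p := fun z => z ∈ A → σ (l z) = z) h2]
        with p hp hpA hpl
      exact Or.inl (by rw [← hpl, hp hpA])
    · have hc' : ContinuousAt (fun p : E × E => ‖lam p.1 - lam p.2‖) (y, w) := by fun_prop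
      have h3 := hc (y - w) (Or.inr ⟨w, ⟨⟨hw, hl⟩, hwy⟩, rfl⟩)
      rw [map_sub] at h3
      filter_upwards [hc'.eventually (lt_mem_nhds h3)] with p hp _ _
      exact Or.inr hp.le
  have hσl : AnalyticAt ℂ (fun z => σ (l z)) y := hσ.comp (l.analyticAt y)
  have hp : AnalyticAt ℂ (fun z => lam z - lam (σ (l z))) y :=
    (lam.analyticAt y).sub ((lam.analyticAt _).comp hσl)
  have hσK : ∀ᶠ z in 𝓝 y, σ (l z) ∈ K :=
    hσl.continuousAt.eventually (p := fun z => z ∈ K) (by simp only [h0]; exact hOK y hy hyO)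
  have hlow : ∀ᶠ z in 𝓝 y, l z ∉ Bad A K l → c ^ k * ‖lam z - lam (σ (l z))‖ ≤ ‖g z‖ := by
    filter_upwards [hnear, hσK, hlc.eventually h1, hlc.eventually (hO.mem_nhds hyO)]
      with z k1 k2 k3 k4 hz
    have hzG : l z ∈ O \ Bad A K l := ⟨k4, hz⟩
    obtain ⟨i, hi⟩ : σ (l z) ∈ range (en (l z)) := by
      rw [(hen _ hzG).2]
      exact ⟨⟨k3.1, k2⟩, k3.2⟩
    rw [g2 z hzG, ← Finset.mul_prod_erase _ _ (Finset.mem_univ i), hi, norm_mul, mul_comm]
    refine mul_le_mul_of_nonneg_left ?_ (norm_nonneg _)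
    rw [norm_prod]
    calc c ^ k ≤ c ^ (Finset.univ.erase i).card :=
          pow_le_pow_of_le_one hc0.le hc1.le (by
            refine (Finset.card_le_univ _).trans_eq (Fintype.card_fin k))
      _ = ∏ _j ∈ Finset.univ.erase i, c := (Finset.prod_const c).symm
      _ ≤ _ := by
        refine Finset.prod_le_prod (fun _ _ => hc0.le) fun j hj => ?_
        have hj' : en (l z) j ∈ A ∩ K ∩ l ⁻¹' {l z} := (hen _ hzG).2 ▸ mem_range_self j
        refine (k1 _ hj'.1 hj'.1.1 hj'.2).resolve_left fun h => ?_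
        exact (Finset.mem_erase.1 hj).1 ((hen _ hzG).1 (h.trans hi.symm))
  have hall : ∀ᶠ z in 𝓝 y, c ^ k * ‖lam z - lam (σ (l z))‖ ≤ ‖g z‖ := by
    filter_upwards [hlow.eventually_nhds, hp.eventually_analyticAt,
      (g1 y hyO).eventually_analyticAt] with z k1 k2 k3
    have hfr : ∃ᶠ u in 𝓝 z, u ∈ (l ⁻¹' Bad A K l)ᶜ :=
      mem_closure_iff_frequently.1 ((cov_pre hgood.surjective hbad).dense_compl z)
    have hcl : IsClosed {q : ℝ × ℝ | q.1 ≤ q.2} := isClosed_le continuous_fst continuous_snd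
    have h3 : ContinuousAt (fun u => (c ^ k * ‖lam u - lam (σ (l u))‖, ‖g u‖)) z :=
      (k2.continuousAt.norm.const_mul _).prodMk k3.continuousAt.norm
    have h4 := hcl.mem_of_frequently_of_tendsto
      ((hfr.and_eventually k1).mono fun u hu => hu.2 hu.1) h3
    exact h4
  have hd := deriv_le (g1 y hyO) hp (hvan y (hOK y hy hyO) hyO (subset_closure hgood))
    (by rw [h0, sub_self]) hall v
  have hpd : HasFDerivAt (fun z => lam z - lam (σ (l z)))
      (lam - lam.comp ((fderiv ℂ σ (l y)).comp l)) y :=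
    lam.hasFDerivAt.sub (lam.hasFDerivAt.comp y
      (hσ.differentiableAt.hasFDerivAt.comp y l.hasFDerivAt))
  rw [hpd.fderiv] at hd
  intro hz
  rw [hz, norm_zero] at hd
  have h3 := hlam' _ (mem_insert _ _)
  rw [map_sub] at h3
  exact absurd hd (not_le.2 (mul_pos (pow_pos hc0 k) (norm_pos_iff.2 h3)))

theorem cov_not_good {d : ℕ} {y : E} (h : Reg A d y) :
    Cov (finrank ℂ (E →L[ℂ] (Fin d → ℂ))) {l : E →L[ℂ] (Fin d → ℂ) | ¬ Good A l y} := by
  obtain ⟨hyA, φ, ρ, hφ, hρ, h1, h2⟩ := h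
  have h0 : φ (ρ y) = y := h2.self_of_nhds hyA
  have hJ : Function.Injective (fderiv ℂ φ (ρ y)) := Function.LeftInverse.injective
    (Rg.fderiv_comp_eq hφ (by rw [h0]; exact hρ) (h1.mono fun _ h => h.2))
  refine (cov_not_surj hJ).sub fun l hl hs => hl ?_
  refine good_of_param hyA (by simp) hφ hρ.continuousAt h1 h2 ?_
  have h6 : HasFDerivAt (fun t => l (φ t)) (l.comp (fderiv ℂ φ (ρ y))) (ρ y) :=
    l.hasFDerivAt.comp (ρ y) hφ.differentiableAt.hasFDerivAt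
  rwa [h6.fderiv]

/-- the non regular points of a pure dimensional set are thin -/
theorem pure_thin (dec : DecS E) {Z : Set E} {x : E} {d : ℕ} (hZ : AnAt Z x)
    (hp : ∀ᶠ y in 𝓝 x, y ∈ Z → y ∈ closure {z | Reg Z d z}) :
    ∃ U : Set E, IsOpen U ∧ x ∈ U ∧ An U Z ∧ (∀ y ∈ U, y ∈ Z → y ∈ closure {z | Reg Z d z}) ∧
      Cov d {p | p ∈ Z ∩ U ∧ ¬ Reg Z d p} := by
  obtain ⟨W, hW, hWo, hxW⟩ := _root_.eventually_nhds_iff.1 (hZ.eventually.and hp)
  obtain ⟨W₀, 𝒞, h1, h2, h3, h4, h5, h6⟩ := dec hWo hxW (fun y hy => (hW y hy).1)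
  refine ⟨W₀, h1, h2, fun y hy => (hW y (h3 hy)).1, fun y hy => (hW y (h3 hy)).2, ?_⟩
  have hd : ∀ C ∈ 𝒞, C.2 = d := by
    intro C hC
    obtain ⟨c1, -, c3, c4, -, -⟩ := h5 C hC
    obtain ⟨y, hy⟩ := closure_nonempty_iff.1 ⟨x, c4⟩
    obtain ⟨z, hz, hz'⟩ := mem_closure_iff_nhds.1 ((hW y (c1 hy).2).2 (c1 hy).1) _
      (c3 y hy).1.eventually
    exact (hz hz'.1).unique hz'
  refine (cov_biUnion h4.countable (S := fun C => (closure C.1 ∩ W₀) \ C.1)
    fun C hC => hd C hC ▸ (h5 C hC).2.2.2.2.2).sub fun p hp => ?_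
  obtain ⟨C, hC, hpC⟩ := mem_iUnion₂.1 (h6 hp.1)
  exact mem_iUnion₂.2 ⟨C, hC, ⟨hpC, hp.1.2⟩,
    fun h => hp.2 (hd C hC ▸ ((h5 C hC).2.2.1 p h).1)⟩

theorem isCompact_inter {Z U K : Set E} (hUZ : An U Z) (hK : IsCompact K) (hKU : K ⊆ U) :
    IsCompact (Z ∩ K) :=
  hK.of_isClosed_subset (isClosed_of_closure_subset fun y hy => by
    have h1 : y ∈ K := hK.isClosed.closure_subset_iff.2 inter_subset_right hy
    exact ⟨(hUZ y (hKU h1)).mem_of_closure (closure_mono inter_subset_left hy), h1⟩)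
    inter_subset_right

/-- an open set of linear projections which are proper on `Z` over a common ball -/
theorem exists_box {Z U : Set E} {x : E} {d : ℕ} (hU : IsOpen U) (hxU : x ∈ U) (hUZ : An U Z)
    (hcov : Cov (d + 1) (Z ∩ U)) :
    ∃ (r δ : ℝ) (l₀ : E →L[ℂ] (Fin d → ℂ)) (L : Set (E →L[ℂ] (Fin d → ℂ))) (W₁ : Set E),
      0 < r ∧ closedBall x r ⊆ U ∧ L ∈ 𝓝 l₀ ∧ W₁ ∈ 𝓝 x ∧
      (∀ l ∈ L, ∀ y ∈ Z ∩ closedBall x r, l y ∈ ball (l₀ x) δ → y ∈ ball x r) ∧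
      ∀ l ∈ L, ∀ z ∈ W₁, l z ∈ ball (l₀ x) δ := by
  have : ProperSpace E := FiniteDimensional.proper ℂ E
  obtain ⟨l₀, hl₀⟩ := (hcov.dense_slice x).nonempty
  obtain ⟨ε, hε, hεU⟩ := Metric.isOpen_iff.1 hU x hxU
  obtain ⟨r, hr1, hr2⟩ := ((Set.Countable.image hl₀ fun y => dist y x).dense_compl ℝ).exists_mem_open
    isOpen_Ioo (nonempty_Ioo.2 hε)
  have hKU : closedBall x r ⊆ U := (closedBall_subset_ball hr2.2).trans hεU
  have h1 : ∀ᶠ q : (E →L[ℂ] (Fin d → ℂ)) × (Fin d → ℂ) in 𝓝 (l₀, l₀ x),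
      ∀ y ∈ Z ∩ sphere x r, q.1 y ≠ q.2 := by
    refine (isCompact_inter hUZ (isCompact_sphere x r)
      (sphere_subset_closedBall.trans hKU)).eventually_forall_of_forall_eventually
      (P := fun (q : (E →L[ℂ] (Fin d → ℂ)) × (Fin d → ℂ)) y => q.1 y ≠ q.2) fun y hy => ?_
    have hc : ContinuousAt (fun p : ((E →L[ℂ] (Fin d → ℂ)) × (Fin d → ℂ)) × E =>
        p.1.1 p.2 - p.1.2) ((l₀, l₀ x), y) :=
      ((continuous_fst.fst.clm_apply continuous_snd).sub continuous_fst.snd).continuousAt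
    have h0 : l₀ y - l₀ x ≠ 0 := fun h0 => hr1
      ⟨y, ⟨⟨hy.1, hKU (sphere_subset_closedBall hy.2)⟩, sub_eq_zero.1 h0⟩, hy.2⟩
    filter_upwards [hc.eventually_ne h0] with p hp
    exact sub_ne_zero.1 hp
  rw [nhds_prod_eq, eventually_prod_iff] at h1
  obtain ⟨L₁, hL₁, O₁, hO₁, h2⟩ := h1
  obtain ⟨δ, hδ, hδO⟩ := Metric.mem_nhds_iff.1 hO₁
  have h3 : ∀ᶠ q : (E →L[ℂ] (Fin d → ℂ)) × E in 𝓝 (l₀, x), q.1 q.2 ∈ ball (l₀ x) δ := by
    have hc : ContinuousAt (fun p : (E →L[ℂ] (Fin d → ℂ)) × E => p.1 p.2) (l₀, x) :=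
      (continuous_fst.clm_apply continuous_snd).continuousAt
    exact hc.eventually (ball_mem_nhds _ hδ)
  rw [nhds_prod_eq, eventually_prod_iff] at h3
  obtain ⟨L₂, hL₂, W₁, hW₁, h4⟩ := h3
  refine ⟨r, δ, l₀, {l | L₁ l ∧ L₂ l}, {z | W₁ z}, hr2.1, hKU, hL₁.and hL₂, hW₁,
    fun l hl z hz hlz => ?_, fun l hl z hz => h4 hl.2 hz⟩
  exact lt_of_le_of_ne hz.2 fun h => h2 hl.1 (hδO hlz) z ⟨hz.1, h⟩ rfl

/-- the tangent space of a good point -/
theorem mem_range_of_good {Z : Set E} {d : ℕ} {l : E →L[ℂ] (Fin d → ℂ)} {y : E}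
    {σ φ : (Fin d → ℂ) → E} {t : Fin d → ℂ} (hσ : AnalyticAt ℂ σ (l y))
    (s2 : ∀ᶠ z in 𝓝 y, z ∈ Z → σ (l z) = z) (hφ : AnalyticAt ℂ φ t) (hφy : φ t = y)
    (hφZ : ∀ᶠ s in 𝓝 t, φ s ∈ Z) (hinj : Function.Injective (fderiv ℂ φ t)) (u : Fin d → ℂ) :
    fderiv ℂ σ (l y) u ∈ range (fderiv ℂ φ t) := by
  subst hφy
  have e1 : ∀ᶠ s in 𝓝 t, φ s = σ (l (φ s)) := by
    filter_upwards [hφZ, hφ.continuousAt.eventually (p := fun z => z ∈ Z → σ (l z) = z) s2]
      with s a b using (b a).symm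
  have e2 : HasFDerivAt (fun s => σ (l (φ s)))
      ((fderiv ℂ σ (l (φ t))).comp (l.comp (fderiv ℂ φ t))) t :=
    HasFDerivAt.comp t hσ.differentiableAt.hasFDerivAt
      (l.hasFDerivAt.comp t hφ.differentiableAt.hasFDerivAt)
  have e3 := hφ.differentiableAt.hasFDerivAt.unique (e2.congr_of_eventuallyEq e1)
  have e4 : ∀ w, fderiv ℂ φ t w = fderiv ℂ σ (l (φ t)) (l (fderiv ℂ φ t w)) :=
    fun w => DFunLike.congr_fun e3 w
  have e5 : Function.Injective (l.comp (fderiv ℂ φ t)) := fun a b hab =>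
    hinj (by rw [e4 a, e4 b]; exact congrArg _ hab)
  obtain ⟨w, hw⟩ := LinearMap.injective_iff_surjective.1
    (show Function.Injective ((l.comp (fderiv ℂ φ t) : _ →L[ℂ] _) :
      (Fin d → ℂ) →ₗ[ℂ] (Fin d → ℂ)) from e5) u
  exact ⟨w, by rw [e4, ← hw]; rfl⟩

theorem conorm_of (dec : DecS E) {Z : Set E} {x : E} {d : ℕ} (hZ : AnAt Z x)
    (hp : ∀ᶠ y in 𝓝 x, y ∈ Z → y ∈ closure {z | Reg Z d z}) :
    ∃ W : Set E, IsOpen W ∧ x ∈ W ∧ Cut W Z ∧ ∀ y ∈ W, ∀ (φ : (Fin d → ℂ) → E) (t : Fin d → ℂ),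
      Reg Z d y → AnalyticAt ℂ φ t → φ t = y → (∀ᶠ s in 𝓝 t, φ s ∈ Z) →
      Function.Injective (fderiv ℂ φ t) →
      ∀ v, (∀ f, Van W Z f → fderiv ℂ f y v = 0) → v ∈ range (fderiv ℂ φ t) := by
  have : ProperSpace E := FiniteDimensional.proper ℂ E
  obtain ⟨U, hU, hxU, hUZ, hpure, hthin⟩ := pure_thin dec hZ hp
  have hSr : ∀ y ∈ {z | Reg Z d z}, Reg Z d y := fun _ h => h
  have hcov : Cov (d + 1) (Z ∩ U) := by
    refine ((hthin.mono (Nat.le_succ d)).union (reg_cov hSr)).sub fun y hy => ?_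
    by_cases h : Reg Z d y
    · exact Or.inr h
    · exact Or.inl ⟨hy, h⟩
  obtain ⟨r, δ, l₀, L, W₁, hr, hKU, hL, hW₁, h2, h4⟩ := exists_box hU hxU hUZ hcov
  obtain ⟨W, hWo, hxW, hWs, hcut⟩ := hZ.exists_sub (inter_mem hW₁ (ball_mem_nhds x hr))
  refine ⟨W, hWo, hxW, hcut, fun y hy φ t hreg hφ hφy hφZ hinj v hv => ?_⟩
  by_contra hvn
  obtain ⟨l, hl1, hl2⟩ := ((cov_not_good hreg).union
    (cov_not_dense hSr)).dense_compl.inter_nhds_nonempty hL
  rw [mem_compl_iff, mem_union, not_or] at hl1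
  obtain ⟨hyZ, σ, hσ, s1, s2⟩ : Good Z l y := not_not.1 hl1.1
  have hl3 : {z | Reg Z d z} ⊆ closure {z | Good Z l z} := not_not.1 hl1.2
  have hWO : ∀ z ∈ W, l z ∈ ball (l₀ x) δ := fun z hz => h4 l hl2 z (hWs hz).1
  have hWK : ∀ z ∈ W, closedBall x r ∈ 𝓝 z := fun z hz =>
    mem_of_superset (isOpen_ball.mem_nhds (hWs hz).2) ball_subset_closedBall
  have hbad : Cov (finrank ℂ (Fin d → ℂ)) (Bad Z (closedBall x r) l) := by
    have h5 : Cov (finrank ℂ (Fin d → ℂ)) (l '' {p | p ∈ Z ∩ U ∧ ¬ Reg Z d p}) := by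
      rw [finrank_fin_fun]
      exact hthin.image fun y _ => l.analyticAt y
    refine (h5.union (cov_bad (l := l) (finrank_fin_fun ℂ) hSr)).sub ?_
    rintro _ ⟨z, hz, rfl⟩
    by_cases h : Reg Z d z
    · exact Or.inr ⟨z, ⟨h, hz.2⟩, rfl⟩
    · exact Or.inl ⟨z, ⟨⟨hz.1.1, hKU hz.1.2⟩, h⟩, rfl⟩
  have hvσ : v ≠ fderiv ℂ σ (l y) (l v) := fun hvv =>
    hvn (hvv ▸ mem_range_of_good hσ s2 hφ hφy hφZ hinj (l v))
  obtain ⟨g, g1, g2, g3⟩ := sep (isCompact_inter hUZ (isCompact_closedBall x r) hKU) isOpen_ball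
    (convex_ball (l₀ x) δ).isPreconnected
    (fun z hz hlz => mem_of_superset (isOpen_ball.mem_nhds (h2 l hl2 z hz hlz))
      ball_subset_closedBall)
    (fun z hz => hUZ z (hKU hz)) hbad ⟨hyZ, mem_of_mem_nhds (hWK y hy)⟩ (hWO y hy) hσ s1 s2 hvσ
  refine g3 (hv g ⟨fun z hz => g1 z (hWO z hz), fun z hz hzZ => g2 z (hWK z hz) (hWO z hz) ?_⟩)
  exact closure_minimal hl3 isClosed_closure (hpure z (hKU (mem_of_mem_nhds (hWK z hz))) hzZ)

/-- a pure `d`-dimensional analytic set inside a `d`-dimensional manifold germ is regular -/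
theorem reg_of_sub {Z M : Set E} {y : E} {d : ℕ} (hZ : AnAt Z y) (hM : Reg M d y)
    (hy : y ∈ closure {z | Reg Z d z}) (hs : ∀ᶠ z in 𝓝 y, z ∈ Z → z ∈ M) : Reg Z d y := by
  rcases hM.dich hZ with h | ⟨N, hN, hyN, hc, -⟩
  · exact hM.congr (by filter_upwards [h, hs] with z a b using ⟨a, b⟩)
  · obtain ⟨z, hz, hz'⟩ := mem_closure_iff_nhds.1 hy _
      (hs.eventually_nhds.and (hN.eventually_mem hyN))
    exact (Reg.not_cov hz' (inter_mem hz.1 (hN.mem_nhds hz.2))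
      (hc.sub fun w hw => ⟨⟨hw.2.1 hw.1, hw.1⟩, hw.2.2⟩)).elim

/-- finitely many linear forms of a family with small common kernel -/
theorem exists_forms {ι : Type*} (f : ι → E →L[ℂ] ℂ) (T : Submodule ℂ E)
    (h : ∀ v, (∀ i, f i v = 0) → v ∈ T) {c : ℕ} (hc : c + finrank ℂ T ≤ finrank ℂ E) :
    ∃ j : Fin c → ι, Function.Surjective fun (v : E) (a : Fin c) => f (j a) v := by
  induction c with
  | zero => exact ⟨Fin.elim0, fun w => ⟨0, Subsingleton.elim _ _⟩⟩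
  | succ c ih =>
    obtain ⟨j, hj⟩ := ih (by omega)
    let L : E →ₗ[ℂ] (Fin c → ℂ) := LinearMap.pi fun a => (f (j a) : E →ₗ[ℂ] ℂ)
    have h1 := LinearMap.finrank_range_add_finrank_ker L
    have h2 : finrank ℂ (LinearMap.range L) ≤ c :=
      (Submodule.finrank_le _).trans_eq (finrank_fin_fun ℂ)
    obtain ⟨v, hv, hvT⟩ : ∃ v ∈ LinearMap.ker L, v ∉ T := by
      by_contra hcon
      push Not at hcon
      have := Submodule.finrank_mono (show LinearMap.ker L ≤ T from hcon)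
      omega
    obtain ⟨i, hi⟩ : ∃ i, f i v ≠ 0 := by
      by_contra hcon
      push Not at hcon
      exact hvT (h v hcon)
    refine ⟨Fin.cons i j, fun w => ?_⟩
    obtain ⟨u, hu⟩ := hj (Fin.tail w)
    refine ⟨u + ((w 0 - f i u) / f i v) • v, funext fun a => ?_⟩
    refine Fin.cases ?_ (fun a => ?_) a
    · simp only [Fin.cons_zero, map_add, map_smul, smul_eq_mul]
      field_simp
      ring
    · have h3 : f (j a) v = 0 := congrFun (LinearMap.mem_ker.1 hv) a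
      have h4 : f (j a) u = w a.succ := congrFun hu a
      simp [h3, h4]

/-- at a regular point: a submersion with components vanishing on `Z` -/
theorem exists_subm_van {Z W : Set E} {y : E} {d : ℕ} (hreg : Reg Z d y)
    (h : ∀ (φ : (Fin d → ℂ) → E) (t : Fin d → ℂ), AnalyticAt ℂ φ t → φ t = y →
      (∀ᶠ s in 𝓝 t, φ s ∈ Z) → Function.Injective (fderiv ℂ φ t) →
      ∀ v, (∀ f, Van W Z f → fderiv ℂ f y v = 0) → v ∈ range (fderiv ℂ φ t)) :
    ∃ (c : ℕ) (f : Fin c → E → ℂ), c + d = finrank ℂ E ∧ (∀ a, Van W Z (f a)) ∧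
      Function.Surjective fun (v : E) (a : Fin c) => fderiv ℂ (f a) y v := by
  obtain ⟨c, hc⟩ := Nat.exists_eq_add_of_le' hreg.le_finrank
  obtain ⟨hyZ, φ, ρ, hφ, hρ, h1, h2⟩ := hreg
  have h0 : φ (ρ y) = y := h2.self_of_nhds hyZ
  have hJ : Function.Injective (fderiv ℂ φ (ρ y)) := Function.LeftInverse.injective
    (Rg.fderiv_comp_eq hφ (by rw [h0]; exact hρ) (h1.mono fun _ h => h.2))
  obtain ⟨j, hj⟩ := exists_forms (fun f : {f : E → ℂ // Van W Z f} => fderiv ℂ f.1 y)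
    (LinearMap.range (fderiv ℂ φ (ρ y) : (Fin d → ℂ) →ₗ[ℂ] E))
    (fun v hv => h φ (ρ y) hφ h0 (h1.mono fun _ h => h.1) hJ v fun f hf => hv ⟨f, hf⟩) (c := c)
    (by
      have := LinearMap.finrank_range_le (fderiv ℂ φ (ρ y) : (Fin d → ℂ) →ₗ[ℂ] E)
      rw [finrank_fin_fun] at this
      omega)
  exact ⟨c, fun a => (j a).1, hc.symm, fun a => (j a).2, hj⟩

theorem sing_of (dec : DecS E) {Z : Set E} {x : E} {d : ℕ} (hZ : AnAt Z x)
    (hp : ∀ᶠ y in 𝓝 x, y ∈ Z → y ∈ closure {z | Reg Z d z}) :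
    AnAt {y | y ∈ Z ∧ ¬ Reg Z d y} x := by
  have : CompleteSpace E := FiniteDimensional.complete ℂ E
  obtain ⟨W, hW, hx, hcut, hco⟩ := conorm_of dec hZ hp
  refine Cut.anAt (W := W ∩ {y | y ∈ Z → y ∈ closure {z | Reg Z d z}}) (fun y hy hyS => ?_)
    (inter_mem (hW.mem_nhds hx) hp)
  by_cases hyZ : y ∈ Z
  swap
  · obtain ⟨f, hf, hf0⟩ := hcut y hy.1 hyZ
    exact ⟨f, hf.mono inter_subset_left fun _ _ h => h.1, hf0⟩
  have hreg : Reg Z d y := by_contra fun h => hyS ⟨hyZ, h⟩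
  obtain ⟨c, f, hc, hf, hs⟩ := exists_subm_van hreg fun φ t => hco y hy.1 φ t hreg
  choose J hJ using fun a : Fin c => hs (Pi.single a 1)
  let D : E → ℂ := fun z => (Matrix.of fun a b : Fin c => fderiv ℂ (f a) z (J b)).det
  refine ⟨D, ⟨fun z hz => ?_, fun z hz hzS => ?_⟩, ?_⟩
  · simp only [D, Matrix.det_apply', Matrix.of_apply]
    refine Finset.analyticAt_fun_sum _ fun s _ => analyticAt_const.mul ?_
    refine Finset.analyticAt_fun_prod _ fun i _ => ?_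
    exact ((ContinuousLinearMap.apply ℂ ℂ (J i)).analyticAt _).comp ((hf _).1 z hz.1).fderiv
  · by_contra hD
    refine hzS.2 ?_
    have hg : AnalyticAt ℂ (fun u a => f a u) z := analyticAt_pi_iff.2 fun a => (hf a).1 z hz.1
    have hg' : HasFDerivAt (fun u a => f a u)
        (ContinuousLinearMap.pi fun a => fderiv ℂ (f a) z) z :=
      hasFDerivAt_pi.2 fun a => ((hf a).1 z hz.1).differentiableAt.hasFDerivAt
    have hsz : Function.Surjective (fderiv ℂ (fun u a => f a u) z) := by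
      rw [hg'.fderiv]
      intro w
      obtain ⟨u, hu⟩ := Matrix.mulVec_surjective_iff_isUnit.2
        ((Matrix.isUnit_iff_isUnit_det _).2 (isUnit_iff_ne_zero.2 hD)) w
      refine ⟨∑ b, u b • J b, funext fun a => ?_⟩
      rw [← hu]
      simp [Matrix.mulVec, dotProduct, mul_comm]
    have hM : Reg {u | (fun a => f a u) = fun a => f a z} d z :=
      Reg.of_subm hg hsz (Eventually.of_forall fun _ => Iff.rfl) (by rw [finrank_fin_fun, hc])
    refine reg_of_sub (hcut.an hW z hz.1) hM (hz.2 hzS.1) ?_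
    filter_upwards [hW.mem_nhds hz.1] with u hu huZ
    exact funext fun a => by rw [(hf a).2 u hu huZ, (hf a).2 z hz.1 hzS.1]
  · have : (Matrix.of fun a b : Fin c => fderiv ℂ (f a) y (J b)) = 1 := by
      ext a b
      have h1 : fderiv ℂ (f a) y (J b) = _ := congrFun (hJ b) a
      rw [Matrix.of_apply, h1, Matrix.one_apply, Pi.single_apply]
    simp only [D, this, Matrix.det_one]
    exact one_ne_zero

end Crest.Agent.X261.Ans.Sn
end

-- ▼ part X261/Ans/Forms2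
section

/-!
# X261/Ans/Forms2 (helper72): unconditional versions of `Ans/Forms`
-/

set_option autoImplicit false
set_option linter.unusedSectionVars false

open Set Filter Topology Module

namespace Crest.Agent.X261.Ans

variable {E : Type} [NormedAddCommGroup E] [NormedSpace ℂ E] [FiniteDimensional ℂ E]
  {M : Type} [TopologicalSpace M] {A : HA E M}

theorem conormStmt (E : Type) [NormedAddCommGroup E] [NormedSpace ℂ E] [FiniteDimensional ℂ E] :
    ConormStmt E := fun _ _ _ hZ hp => Sn.conorm_of (fun h1 h2 h3 => dec h1 h2 h3) hZ hp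

theorem singStmt (E : Type) [NormedAddCommGroup E] [NormedSpace ℂ E] [FiniteDimensional ℂ E] :
    SingStmt E := fun _ _ _ hZ hp => Sn.sing_of (fun h1 h2 h3 => dec h1 h2 h3) hZ hp

namespace HA



theorem an_bad {Y : Set (M × M)} {d : ℕ} (hY : (A.prod A).Irr univ Y d)
    (hd : ∀ x, (x, x) ∈ Y) : A.An univ {x | ¬ (A.prod A).Reg Y d (x, x)} :=
  an_bad_of (singStmt _) hY hd

theorem forms [PreconnectedSpace M] {Y : Set (M × M)} {p r : ℕ} (hpr : p + r = finrank ℂ E)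
    (hY : (A.prod A).Irr univ Y (finrank ℂ E + r)) (hd : ∀ x, (x, x) ∈ Y)
    (hne : ∃ x, (A.prod A).Reg Y (finrank ℂ E + r) (x, x)) (i : A.ι) (x : M)
    (hx : x ∈ (A.e i).source) : ∃ (W : Set E) (f : Fin p → E × E → ℂ), IsOpen W ∧
    IsPreconnected W ∧ A.e i x ∈ W ∧ W ⊆ (A.e i).target ∧
    (∀ j, AnalyticOnNhd ℂ (f j) (W ×ˢ W)) ∧
    (∀ j, ∀ y ∈ W, ∀ z ∈ W, ((A.e i).symm y, (A.e i).symm z) ∈ Y → f j (y, z) = 0) ∧
    ∃ z ∈ W, Function.Surjective (fderiv ℂ (fun y => fun j => f j (z, y)) z) :=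
  forms_of (conormStmt _) (singStmt _) hpr hY hd hne i x hx

end HA

end Crest.Agent.X261.Ans
namespace Crest.Agent.X261.Ans.HA.Irr
end Crest.Agent.X261.Ans.HA.Irr
end

-- ▼ part X261/Ans/Eqv

/-!
# X261/Ans/Eqv (helper7): the maximal relation of a class (`eqvK`, `eqv`)
-/

set_option autoImplicit false
set_option linter.unusedSectionVars false

open Set Filter Topology Module

namespace Crest.Agent.X261.Ans

/-- **EQV** (class form) -/
theorem eqvK : EqvKStmt := by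
  intro E _ _ _ M _ _ A _ D
  obtain ⟨Y, h1, h2, r, h⟩ := D.exists_maxR
  have hpr : (finrank ℂ E - r) + r = finrank ℂ E := Nat.sub_add_cancel h.le
  exact ⟨{
    p := finrank ℂ E - r
    r := r
    hpr := hpr
    Y := Y
    mem := h1
    irr := h.irr
    diag := h.diag
    symm := h.symm
    max := h2
    an_bad := HA.an_bad h.irr h.diag
    ne_good := h.ne_good
    fol := fun _ hx => h.fol hpr hx
    forms := HA.forms hpr h.irr h.diag h.ne_good }⟩

/-- **EQV** (family form) -/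
theorem eqv {E : Type} [NormedAddCommGroup E] [NormedSpace ℂ E] [FiniteDimensional ℂ E]
    {M : Type} [TopologicalSpace M] [ConnectedSpace M] {A : HA E M} [Countable A.ι]
    (D : RelD A) : Nonempty (EqvD D) :=
  eqv_of_eqvK eqvK D

end Crest.Agent.X261.Ans
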