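import Crest.Agent.X261.Ans.Man1
import Crest.Agent.X261.Ans.Cov2
import Crest.Agent.X261.Ans.Reg

/-!
# X261/Ans/Man (helper72): `HA.Reg`, the identity theorem, `HA.Mg`, fibres
-/

set_option autoImplicit false
set_option linter.unusedSectionVars false

open Set Filter Topology Module

namespace Crest.Agent.X261.Ans

variable {E F G : Type} [NormedAddCommGroup E] [NormedSpace ℂ E] [FiniteDimensional ℂ E]
  [NormedAddCommGroup F] [NormedSpace ℂ F] [FiniteDimensional ℂ F]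
  [NormedAddCommGroup G] [NormedSpace ℂ G] [FiniteDimensional ℂ G]
  {M N P : Type} [TopologicalSpace M] [TopologicalSpace N] [TopologicalSpace P]
  {A : HA E M} {B : HA F N} {C : HA G P}

namespace HA

/-! ### regular points -/

theorem Reg.mem {Z : Set M} {d : ℕ} {x : M} (h : A.Reg Z d x) : x ∈ Z := by
  obtain ⟨i, hi, h⟩ := h
  have h1 := h.1
  rwa [mem_preimage, (A.e i).left_inv hi] at h1

theorem Reg.congr {Z Z' : Set M} {d : ℕ} {x : M} (h : A.Reg Z d x)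
    (hZ : ∀ᶠ y in 𝓝 x, y ∈ Z ↔ y ∈ Z') : A.Reg Z' d x := by
  obtain ⟨i, hi, h⟩ := h
  exact ⟨i, hi, h.congr ((ev_chart hi).1 hZ)⟩

theorem Reg.biholo {Z : Set M} {d : ℕ} {x : M} (h : A.Reg Z d x) {f : N → M} {g : M → N}
    (hg : A.Hol B g x) (hf : B.Hol A f (g x)) (h1 : ∀ᶠ y in 𝓝 x, f (g y) = y)
    (h2 : ∀ᶠ t in 𝓝 (g x), g (f t) = t) : B.Reg (f ⁻¹' Z) d (g x) := by
  obtain ⟨i, hi, h⟩ := h
  obtain ⟨j, hj⟩ := B.cover (g x)
  have hfg : f (g x) = x := h1.self_of_nhds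
  have hi' : f (g x) ∈ (A.e i).source := hfg.symm ▸ hi
  have e2 : B.e j (g ((A.e i).symm (A.e i x))) = B.e j (g x) := by rw [(A.e i).left_inv hi]
  have hs : ∀ᶠ t in 𝓝 (g x), f t ∈ (A.e i).source := hf.1.eventually (ev_source hi')
  have h3 := h.biholo (f := fun w => A.e i (f ((B.e j).symm w)))
    (g := fun z => B.e j (g ((A.e i).symm z))) (hg.2 i j hi hj)
    (by rw [e2]; exact hf.2 j i hj hi')
    (by
      filter_upwards [(ev_chart hi).1 (h1.and (hg.1.eventually (ev_source hj))), ev_target hi]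
        with z hz hz'
      rw [(B.e j).left_inv hz.2, hz.1, (A.e i).right_inv hz'])
    (by
      rw [e2]
      filter_upwards [(ev_chart hj).1 (h2.and hs), ev_target hj] with w hw hw'
      rw [(A.e i).left_inv hw.2, hw.1, (B.e j).right_inv hw'])
  rw [e2] at h3
  refine ⟨j, hj, h3.congr ?_⟩
  filter_upwards [(ev_chart hj).1 hs] with w hw
  simp only [mem_preimage]
  rw [(A.e i).left_inv hw]

theorem reg_iff {Z : Set M} {d : ℕ} {x : M} {i : A.ι} (hx : x ∈ (A.e i).source) :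
    A.Reg Z d x ↔ Ans.Reg ((A.e i).symm ⁻¹' Z) d (A.e i x) := by
  refine ⟨fun h => ?_, fun h => ⟨i, hx, h⟩⟩
  obtain ⟨_, _, h1⟩ := h.biholo (hol_chart hx) (hol_symm ((A.e i).map_source hx))
    ((ev_source hx).mono fun _ hy => (A.e i).left_inv hy)
    ((ev_target hx).mono fun _ hy => (A.e i).right_inv hy)
  exact h1


theorem reg_chart {Z : Set M} {d : ℕ} {i : A.ι} {z : E} (hz : z ∈ (A.e i).target) :
    A.Reg Z d ((A.e i).symm z) ↔ Ans.Reg ((A.e i).symm ⁻¹' Z) d z := by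
  rw [reg_iff ((A.e i).map_target hz), (A.e i).right_inv hz]

theorem Reg.eventually {Z : Set M} {d : ℕ} {x : M} (h : A.Reg Z d x) :
    ∀ᶠ y in 𝓝 x, y ∈ Z → A.Reg Z d y := by
  obtain ⟨i, hi, h⟩ := h
  filter_upwards [(ev_chart' hi).1 h.eventually, ev_source hi] with y h1 h2 hy
  exact ⟨i, h2, h1 (by rw [mem_preimage, (A.e i).left_inv h2]; exact hy)⟩

theorem Reg.unique {Z : Set M} {d k : ℕ} {x : M} (h : A.Reg Z d x) (h' : A.Reg Z k x) : d = k := by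
  obtain ⟨i, hi, h⟩ := h
  exact h.unique ((reg_iff hi).1 h')

theorem Reg.anAt {Z : Set M} {d : ℕ} {x : M} (h : A.Reg Z d x) : A.AnAt Z x := by
  obtain ⟨i, hi, h⟩ := h
  exact ⟨i, hi, h.anAt⟩

theorem Reg.le {Z : Set M} {d : ℕ} {x : M} (h : A.Reg Z d x) : d ≤ finrank ℂ E := by
  obtain ⟨i, -, h⟩ := h
  obtain ⟨c, -, hc, -⟩ := h.exists_subm
  omega

theorem reg_univ (A : HA E M) (x : M) : A.Reg univ (finrank ℂ E) x := by
  obtain ⟨i, hi⟩ := A.cover x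
  exact ⟨i, hi, Ans.reg_univ _⟩

theorem reg_of_mem {Z : Set M} {x : M} (h : Z ∈ 𝓝 x) : A.Reg Z (finrank ℂ E) x :=
  (A.reg_univ x).congr (Filter.Eventually.mono h fun _ hy => iff_of_true (mem_univ _) hy)

theorem Reg.prod {Z : Set M} {Y : Set N} {d k : ℕ} {x : M × N} (h : A.Reg Z d x.1)
    (h' : B.Reg Y k x.2) : (A.prod B).Reg (Z ×ˢ Y) (d + k) x := by
  obtain ⟨i, hi, h⟩ := h
  obtain ⟨j, hj, h'⟩ := h'
  exact ⟨(i, j), ⟨hi, hj⟩, h.prod h'⟩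

theorem Reg.cov {Z : Set M} {d : ℕ} {x : M} (h : A.Reg Z d x) :
    ∃ W ∈ 𝓝 x, A.Cov (d + 1) (Z ∩ W) := by
  obtain ⟨i, hi, h⟩ := h
  obtain ⟨W, hW, hc⟩ := h.cov
  refine ⟨(A.e i).source ∩ A.e i ⁻¹' W, inter_mem (ev_source hi) ((A.e i).continuousAt hi hW), ?_⟩
  rw [cov_chart (i := i) fun y hy => hy.2.1]
  refine hc.sub ?_
  rintro _ ⟨y, hy, rfl⟩
  exact ⟨by rw [mem_preimage, (A.e i).left_inv hy.2.1]; exact hy.1, hy.2.2⟩

theorem Reg.not_cov {Z : Set M} {d : ℕ} {x : M} (h : A.Reg Z d x) {W : Set M} (hW : W ∈ 𝓝 x) :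
    ¬ A.Cov d (Z ∩ W) := by
  obtain ⟨i, hi, h⟩ := h
  intro hc
  exact h.not_cov (inter_mem (ev_target hi) (tendsto_symm hi hW))
    ((hc i).sub fun z hz => ⟨hz.2.1, hz.1, hz.2.2⟩)

/-- a set all of whose points are regular of dimension `d` has dimension `≤ d` -/
theorem cov_of_reg {S Z : Set M} {d : ℕ} (h : ∀ x ∈ S, A.Reg Z d x) : A.Cov (d + 1) S :=
  cov_of_local fun x hx => by
    obtain ⟨W, hW, hc⟩ := (h x hx).cov
    exact ⟨W, hW, hc.sub fun y hy => ⟨(h y hy.1).mem, hy.2⟩⟩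

theorem Reg.mem_nhds {Z : Set M} {x : M} (h : A.Reg Z (finrank ℂ E) x) : Z ∈ 𝓝 x := by
  obtain ⟨i, hi, h⟩ := h
  obtain ⟨c, g, hc, -, -, hg⟩ := h.exists_subm
  obtain rfl : c = 0 := by omega
  exact (ev_chart hi).2 (hg.mono fun y hy => hy.2 (Subsingleton.elim _ _))

/-- local parametrisation at a regular point -/
theorem Reg.param {Z : Set M} {d : ℕ} {x : M} (h : A.Reg Z d x) :
    ∃ (φ : (Fin d → ℂ) → M) (ρ : M → Fin d → ℂ), (self (Fin d → ℂ)).Hol A φ (ρ x) ∧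
      A.Hol (self (Fin d → ℂ)) ρ x ∧ φ (ρ x) = x ∧ (∀ᶠ t in 𝓝 (ρ x), φ t ∈ Z ∧ ρ (φ t) = t) ∧
      ∀ᶠ y in 𝓝 x, y ∈ Z → φ (ρ y) = y := by
  have hx := h.mem
  obtain ⟨i, hi, hz, φ, ρ, hφ, hρ, h1, h2⟩ := h
  have e1 : φ (ρ (A.e i x)) = A.e i x := h2.self_of_nhds hz
  have ht : φ (ρ (A.e i x)) ∈ (A.e i).target := e1.symm ▸ (A.e i).map_source hi
  refine ⟨fun t => (A.e i).symm (φ t), fun y => ρ (A.e i y),
    (hol_symm ht).comp (self_hol_iff.2 hφ), (hol_chart hi).an_comp hρ, ?_, ?_, ?_⟩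
  · change (A.e i).symm (φ (ρ (A.e i x))) = x
    rw [e1, (A.e i).left_inv hi]
  · filter_upwards [h1, hφ.continuousAt.eventually ((A.e i).open_target.mem_nhds ht)]
      with t h3 h4
    exact ⟨h3.1, by rw [(A.e i).right_inv h4]; exact h3.2⟩
  · filter_upwards [(ev_chart' hi).1 h2, ev_source hi] with y h3 h4 hy
    rw [h3 (by rw [mem_preimage, (A.e i).left_inv h4]; exact hy), (A.e i).left_inv h4]

/-- regular points from a parametrisation by a manifold -/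
theorem Reg.of_param {Z : Set M} {x : M} (hx : x ∈ Z) {φ : N → M} {ρ : M → N}
    (hφ : B.Hol A φ (ρ x)) (hρ : A.Hol B ρ x) (h1 : ∀ᶠ t in 𝓝 (ρ x), φ t ∈ Z ∧ ρ (φ t) = t)
    (h2 : ∀ᶠ y in 𝓝 x, y ∈ Z → φ (ρ y) = y) : A.Reg Z (finrank ℂ F) x := by
  obtain ⟨i, hi⟩ := A.cover x
  obtain ⟨j, hj⟩ := B.cover (ρ x)
  have e0 : φ (ρ x) = x := h2.self_of_nhds hx
  have hi' : φ (ρ x) ∈ (A.e i).source := e0.symm ▸ hi
  have e2 : B.e j (ρ ((A.e i).symm (A.e i x))) = B.e j (ρ x) := by rw [(A.e i).left_inv hi]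
  have hs : ∀ᶠ t in 𝓝 (ρ x), φ t ∈ (A.e i).source := hφ.1.eventually (ev_source hi')
  refine ⟨i, hi, Ans.Reg.of_param (φ := fun w => A.e i (φ ((B.e j).symm w)))
    (ρ := fun z => B.e j (ρ ((A.e i).symm z))) ?_ ?_ (hρ.2 i j hi hj) ?_ ?_⟩
  · rw [mem_preimage, (A.e i).left_inv hi]
    exact hx
  · rw [e2]
    exact hφ.2 j i hj hi'
  · rw [e2]
    filter_upwards [(ev_chart hj).1 (h1.and hs), ev_target hj] with w hw hw'
    rw [mem_preimage, (A.e i).left_inv hw.2, hw.1.2, (B.e j).right_inv hw']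
    exact ⟨hw.1.1, rfl⟩
  · filter_upwards [(ev_chart hi).1 (h2.and (hρ.1.eventually (ev_source hj))), ev_target hi]
      with z hz hz' hzZ
    rw [(B.e j).left_inv hz.2, hz.1 hzZ, (A.e i).right_inv hz']

/-- graphs are regular -/
theorem reg_graph {f : M → N} {x : M} (hf : A.Hol B f x) :
    (A.prod B).Reg {q | f q.1 = q.2} (finrank ℂ E) (x, f x) :=
  Reg.of_param (B := A) (φ := fun y => (y, f y)) (ρ := Prod.fst) rfl
    ((hol_id A x).prodMk hf) (hol_fst A B _) (Eventually.of_forall fun _ => ⟨rfl, rfl⟩)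
    (Eventually.of_forall fun _ hq => Prod.ext rfl hq)



theorem Reg.locconn {S : Set M} {d : ℕ} {x : M} (h : A.Reg S d x) {W : Set M} (hW : W ∈ 𝓝 x) :
    ∃ V : Set M, IsOpen V ∧ x ∈ V ∧ V ⊆ W ∧ IsPreconnected (S ∩ V) := by
  obtain ⟨i, hi, h⟩ := h
  obtain ⟨V, hV, hxV, hVW, hc⟩ := h.locconn (inter_mem (ev_target hi) (tendsto_symm hi hW))
  have hVt : V ⊆ (A.e i).target := fun z hz => (hVW hz).1
  refine ⟨(A.e i).symm '' V, isOpen_symm_image hVt hV, ⟨_, hxV, (A.e i).left_inv hi⟩, ?_, ?_⟩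
  · rintro _ ⟨z, hz, rfl⟩
    exact (hVW hz).2
  · rw [← image_preimage_inter]
    exact preconnected_symm_image (inter_subset_right.trans hVt) hc

/-- local identity theorem -/
theorem Reg.dich {S Z : Set M} {d : ℕ} {x : M} (h : A.Reg S d x) (hZ : A.AnAt Z x) :
    (∀ᶠ y in 𝓝 x, y ∈ S → y ∈ Z) ∨ ∃ V : Set M, IsOpen V ∧ x ∈ V ∧ A.Cov d (S ∩ Z ∩ V) ∧
      IsPreconnected ((S ∩ V) \ Z) ∧ S ∩ V ⊆ closure ((S ∩ V) \ Z) := by
  obtain ⟨i, hi, h⟩ := h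
  have h' : Ans.Reg ((A.e i).target ∩ (A.e i).symm ⁻¹' S) d (A.e i x) :=
    h.congr ((ev_target hi).mono fun z hz => ⟨fun h1 => ⟨hz, h1⟩, fun h1 => h1.2⟩)
  rcases h'.dich ((anAt_iff hi).1 hZ) with h1 | ⟨V, hV, hxV, hc, hp, hd⟩
  · refine Or.inl ((ev_chart hi).2 ?_)
    filter_upwards [h1, ev_target hi] with z hz hz' hS using hz ⟨hz', hS⟩
  right
  have e1 : (S ∩ ((A.e i).source ∩ A.e i ⁻¹' V)) \ Z = (A.e i).symm ''
      (((A.e i).target ∩ (A.e i).symm ⁻¹' S ∩ V) \ (A.e i).symm ⁻¹' Z) := by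
    ext y
    constructor
    · rintro ⟨⟨h1, h2, h3⟩, h4⟩
      refine ⟨A.e i y, ⟨⟨⟨(A.e i).map_source h2, ?_⟩, h3⟩, ?_⟩, (A.e i).left_inv h2⟩
      · rw [mem_preimage, (A.e i).left_inv h2]
        exact h1
      · rw [mem_preimage, (A.e i).left_inv h2]
        exact h4
    · rintro ⟨z, ⟨⟨⟨h1, h2⟩, h3⟩, h4⟩, rfl⟩
      exact ⟨⟨h2, (A.e i).map_target h1, by rw [mem_preimage, (A.e i).right_inv h1]; exact h3⟩, h4⟩
  refine ⟨(A.e i).source ∩ A.e i ⁻¹' V, (A.e i).isOpen_inter_preimage hV, ⟨hi, hxV⟩, ?_, ?_, ?_⟩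
  · rw [cov_chart (i := i) fun y hy => hy.2.1]
    refine hc.sub ?_
    rintro _ ⟨y, ⟨⟨h1, h2⟩, h3, h4⟩, rfl⟩
    refine ⟨⟨⟨(A.e i).map_source h3, ?_⟩, ?_⟩, h4⟩
    · rw [mem_preimage, (A.e i).left_inv h3]
      exact h1
    · rw [mem_preimage, (A.e i).left_inv h3]
      exact h2
  · rw [e1]
    exact preconnected_symm_image (fun z hz => hz.1.1.1) hp
  · rintro y ⟨h1, h2, h3⟩
    rw [e1, ← (A.e i).left_inv h2]
    refine mem_closure_image (cont_symm h2) (hd ⟨⟨(A.e i).map_source h2, ?_⟩, h3⟩)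
    rw [mem_preimage, (A.e i).left_inv h2]
    exact h1

/-- global identity theorem -/
theorem ident {S Z : Set M} {d : ℕ} (hc : IsPreconnected S) (h : ∀ y ∈ S, A.Reg S d y)
    (hZ : A.An S Z) :
    S ⊆ Z ∨ (A.Cov d (S ∩ Z) ∧ IsPreconnected (S \ Z) ∧ S ⊆ closure (S \ Z)) := by
  let U₁ : Set M := {x | ∀ᶠ y in 𝓝 x, y ∈ S → y ∈ Z}
  let U₂ : Set M := {x | ∃ V : Set M, IsOpen V ∧ x ∈ V ∧ A.Cov d (S ∩ Z ∩ V) ∧
    IsPreconnected ((S ∩ V) \ Z) ∧ S ∩ V ⊆ closure ((S ∩ V) \ Z)}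
  have h₁ : IsOpen U₁ := isOpen_setOfPred_eventually_nhds
  have h₂ : IsOpen U₂ := isOpen_iff_mem_nhds.2 fun x ⟨V, hV, hx, hr⟩ =>
    mem_of_superset (hV.mem_nhds hx) fun y hy => ⟨V, hV, hy, hr⟩
  have hcov : S ⊆ U₁ ∪ U₂ := fun x hx => (h x hx).dich (hZ x hx)
  by_cases h1 : (S ∩ U₁).Nonempty
  · by_cases h2 : (S ∩ U₂).Nonempty
    · exfalso
      obtain ⟨x, hx, hx1, V, hV, hxV, -, -, hd⟩ := hc U₁ U₂ h₁ h₂ hcov h1 h2
      obtain ⟨y, hy1, hy2⟩ := mem_closure_iff_nhds.1 (hd ⟨hx, hxV⟩) _ hx1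
      exact hy2.2 (hy1 hy2.1.1)
    · refine Or.inl fun x hx => ?_
      exact ((hcov hx).resolve_right fun h3 => h2 ⟨x, hx, h3⟩).self_of_nhds hx
  · have h3 : ∀ x ∈ S, x ∈ U₂ := fun x hx => (hcov hx).resolve_left fun h3 => h1 ⟨x, hx, h3⟩
    refine Or.inr ⟨cov_of_local fun x hx => ?_,
      Man.preconnected_of_local hc sdiff_subset fun x hx => ?_, fun x hx => ?_⟩
    · obtain ⟨V, hV, hxV, hr, -⟩ := h3 x hx.1
      exact ⟨V, hV.mem_nhds hxV, hr⟩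
    · obtain ⟨V, hV, hxV, -, hp, hd⟩ := h3 x hx
      have e : (S \ Z) ∩ V = (S ∩ V) \ Z := by
        ext y
        exact ⟨fun hy => ⟨⟨hy.1.1, hy.2⟩, hy.1.2⟩, fun hy => ⟨⟨hy.1.1, hy.2⟩, hy.1.2⟩⟩
      exact ⟨V, hV, hxV, e ▸ hp, e ▸ hd⟩
    · obtain ⟨V, hV, hxV, -, -, hd⟩ := h3 x hx
      exact closure_mono (sdiff_subset_sdiff_left inter_subset_left) (hd ⟨hx, hxV⟩)

/-- the identity theorem on a connected open set -/
theorem An.dich {U Z : Set M} (hZ : A.An U Z) (hU : IsOpen U) (hc : IsPreconnected U) :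
    U ⊆ Z ∨ (A.Cov (finrank ℂ E) (U ∩ Z) ∧ IsPreconnected (U \ Z) ∧ U ⊆ closure (U \ Z)) :=
  ident hc (fun _ hy => reg_of_mem (hU.mem_nhds hy)) hZ

theorem An.cov_of_ne [PreconnectedSpace M] {Z : Set M} (hZ : A.An univ Z) (hne : Z ≠ univ) :
    A.Cov (finrank ℂ E) Z := by
  rcases hZ.dich isOpen_univ isPreconnected_univ with h | h
  · exact absurd (univ_subset_iff.1 h) hne
  · exact h.1.sub fun _ hx => ⟨mem_univ _, hx⟩

theorem An.dense_compl [PreconnectedSpace M] {Z : Set M} (hZ : A.An univ Z) (hne : Z ≠ univ) :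
    Dense Zᶜ := (hZ.cov_of_ne hne).dense_compl

theorem An.preconnected_compl [PreconnectedSpace M] {Z : Set M} (hZ : A.An univ Z) :
    IsPreconnected Zᶜ := by
  rcases hZ.dich isOpen_univ isPreconnected_univ with h | h
  · rw [univ_subset_iff.1 h, compl_univ]
    exact isPreconnected_empty
  · rw [compl_eq_univ_sdiff]
    exact h.2.1

theorem An.eq_univ [PreconnectedSpace M] {Z : Set M} (hZ : A.An univ Z) {x : M} (hx : Z ∈ 𝓝 x) :
    Z = univ := by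
  by_contra hne
  exact (hZ.cov_of_ne hne).not_mem_nhds x hx

theorem An.sub_of_mem_nhds {U Z : Set M} (hZ : A.An U Z) (hU : IsOpen U) (hc : IsPreconnected U)
    {x : M} (hxU : x ∈ U) (hx : Z ∈ 𝓝 x) : U ⊆ Z := by
  refine (hZ.dich hU hc).resolve_right fun h => ?_
  exact h.1.not_mem_nhds x (inter_mem (hU.mem_nhds hxU) hx)


/-! ### fibres -/

theorem Cov.fibre [Countable A.ι] {d : ℕ} {S : Set M} (h : A.Cov (d + 1) S) {f : M → N}
    (hf : ∀ x ∈ S, A.Hol B f x) :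
    B.Cov (finrank ℂ F) {t : N | ¬ A.Cov (d + 1 - finrank ℂ F) (S ∩ f ⁻¹' {t})} := by
  intro j
  refine (Ans.cov_iUnion fun i : A.ι =>
    ((h.sub (inter_subset_left (t := f ⁻¹' (B.e j).source))) i).fibre
      (f := fun z => B.e j (f ((A.e i).symm z)))
      fun z hz => (hf _ hz.2.1).an hz.1 hz.2.2).sub ?_
  rintro s ⟨hs, hn⟩
  by_contra hcon
  refine hn fun i => ?_
  have h1 : Ans.Cov (d + 1 - finrank ℂ F) (((A.e i).target ∩ (A.e i).symm ⁻¹'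
      (S ∩ f ⁻¹' (B.e j).source)) ∩ (fun z => B.e j (f ((A.e i).symm z))) ⁻¹' {s}) := by
    by_contra h2
    exact hcon (mem_iUnion.2 ⟨i, h2⟩)
  refine h1.sub ?_
  rintro z ⟨hz, hz1, hz2⟩
  have hz3 : f ((A.e i).symm z) = (B.e j).symm s := hz2
  refine ⟨⟨hz, hz1, ?_⟩, ?_⟩
  · change f ((A.e i).symm z) ∈ (B.e j).source
    rw [hz3]
    exact (B.e j).map_target hs
  · change B.e j (f ((A.e i).symm z)) = s
    rw [hz3, (B.e j).right_inv hs]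

/-! ### countable unions of proper analytic sets -/

theorem Mg.sub {S T : Set M} (h : A.Mg T) (hST : S ⊆ T) : A.Mg S := by
  obtain ⟨Z, hZ, hT⟩ := h
  exact ⟨Z, hZ, hST.trans hT⟩



theorem mg_iUnion_nat {S : ℕ → Set M} (h : ∀ k, A.Mg (S k)) : A.Mg (⋃ k, S k) := by
  choose Z hZ hS using h
  refine ⟨fun n => Z n.unpair.1 n.unpair.2, fun n => hZ _ _, fun x hx => ?_⟩
  obtain ⟨k, hk⟩ := mem_iUnion.1 hx
  obtain ⟨l, hl⟩ := mem_iUnion.1 (hS k hk)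
  exact mem_iUnion.2 ⟨Nat.pair k l, by rw [Nat.unpair_pair]; exact hl⟩



theorem Mg.union {S T : Set M} (hS : A.Mg S) (hT : A.Mg T) : A.Mg (S ∪ T) := by
  refine (mg_iUnion_nat (S := fun k => if k = 0 then S else T) fun k => ?_).sub ?_
  · split_ifs
    · exact hS
    · exact hT
  · rintro x (hx | hx)
    · exact mem_iUnion.2 ⟨0, by simpa using hx⟩
    · exact mem_iUnion.2 ⟨1, by simpa using hx⟩

theorem Mg.cov [PreconnectedSpace M] {S : Set M} (h : A.Mg S) : A.Cov (finrank ℂ E) S := by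
  obtain ⟨Z, hZ, hS⟩ := h
  exact (cov_iUnion fun k => (hZ k).1.cov_of_ne (hZ k).2).sub hS

theorem Mg.dense_compl [PreconnectedSpace M] {S : Set M} (h : A.Mg S) : Dense Sᶜ :=
  h.cov.dense_compl

theorem Mg.frequently_notMem [PreconnectedSpace M] {S : Set M} (h : A.Mg S) (x : M) :
    ∃ᶠ y in 𝓝 x, y ∉ S := h.cov.frequently_notMem x

theorem Mg.ne_univ [ConnectedSpace M] {S : Set M} (h : A.Mg S) : S ≠ univ := h.cov.ne_univ

theorem Mg.preimage {S : Set N} (h : B.Mg S) {f : M → N} (hf : ∀ x, A.Hol B f x)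
    (hs : Function.Surjective f) : A.Mg (f ⁻¹' S) := by
  obtain ⟨Z, hZ, hS⟩ := h
  refine ⟨fun k => f ⁻¹' Z k, fun k => ⟨(hZ k).1.preimage (fun x _ => hf x) (mapsTo_univ _ _),
    fun h0 => (hZ k).2 (eq_univ_of_forall fun y => ?_)⟩, ?_⟩
  · obtain ⟨x, rfl⟩ := hs y
    exact eq_univ_iff_forall.1 h0 x
  · rw [← preimage_iUnion]
    exact preimage_mono hS

end HA

end Crest.Agent.X261.Ans
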