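import Crest.Agent.X261.Ans.Dim
import Crest.Agent.X261.Ans.Man
import Crest.Agent.X261.Ans.Defs2
import Crest.Agent.X261.Ans.Comp

-- ▼ part X261/Ans/DimM
section

/-!
# X261/Ans/DimM (helper97): manifold versions of `Ans/Dim` (USC, finite maps, DOM)
-/

set_option autoImplicit false
set_option linter.unusedSectionVars false

open Set Filter Topology Module

namespace Crest.Agent.X261.Ans

variable {E F : Type} [NormedAddCommGroup E] [NormedSpace ℂ E] [FiniteDimensional ℂ E]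
  [NormedAddCommGroup F] [NormedSpace ℂ F] [FiniteDimensional ℂ F]
  {M N : Type} [TopologicalSpace M] [TopologicalSpace N] {A : HA E M} {B : HA F N}

namespace HA

/-- the domain of `f` read in the charts `i`, `j`, restricted to `W` -/
theorem dm_nhds {f : M → N} {x : M} (hf : ContinuousAt f x) {i : A.ι} {j : B.ι}
    (hi : x ∈ (A.e i).source) (hj : f x ∈ (B.e j).source) {W : Set M} (hW : W ∈ 𝓝 x) :
    (A.e i).target ∩ (A.e i).symm ⁻¹' (W ∩ f ⁻¹' (B.e j).source) ∈ 𝓝 (A.e i x) :=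
  inter_mem (ev_target hi) (tendsto_symm hi (inter_mem hW (hf ((B.e j).open_source.mem_nhds hj))))

/-- **upper semicontinuity of the fibre dimension** -/
theorem usc {Z W : Set M} {x : M} (hZ : A.AnAt Z x) {f : M → N} (hf : A.Hol B f x)
    (hW : W ∈ 𝓝 x) {s : ℕ} (hc : A.Cov (s + 1) (Z ∩ W ∩ f ⁻¹' {f x})) :
    ∃ O : Set M, IsOpen O ∧ x ∈ O ∧ O ⊆ W ∧ (∀ t, A.Cov (s + 1) (Z ∩ O ∩ f ⁻¹' {t})) ∧
      A.Cov (finrank ℂ F + s + 1) (Z ∩ O) := by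
  obtain ⟨i, hi, hZ⟩ := hZ
  obtain ⟨j, hj⟩ := B.cover (f x)
  obtain ⟨O, h1, h2, h3, h4, h5⟩ := Dm.usc hZ (hf.2 i j hi hj) (dm_nhds hf.1 hi hj hW) (s := s)
    ((hc i).sub (by
      rintro z ⟨⟨a, b, c, d⟩, e⟩
      refine ⟨b, ⟨a, c⟩, ?_⟩
      have e' : B.e j (f ((A.e i).symm z)) = B.e j (f ((A.e i).symm (A.e i x))) := e
      rw [(A.e i).left_inv hi] at e'
      exact (B.e j).injOn d hj e'))
  have hOt : O ⊆ (A.e i).target := fun z hz => (h3 hz).1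
  refine ⟨(A.e i).symm '' O, isOpen_symm_image hOt h1, ⟨_, h2, (A.e i).left_inv hi⟩, ?_,
    fun t => (cov_symm (fun z hz => hOt hz.1.2) (h4 (B.e j t))).sub ?_,
    (cov_symm (fun z hz => hOt hz.2) h5).sub ?_⟩
  · rintro _ ⟨z, hz, rfl⟩
    exact (h3 hz).2.1
  · rintro _ ⟨⟨a, z, hz, rfl⟩, b⟩
    exact ⟨z, ⟨⟨a, hz⟩, congrArg (B.e j) b⟩, rfl⟩
  · rintro _ ⟨a, z, hz, rfl⟩
    exact ⟨z, ⟨a, hz⟩, rfl⟩

/-- **dimension from the image and the fibres** -/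
theorem cov_of_image {Z W : Set M} (hW : IsOpen W) (hZ : ∀ x ∈ W, x ∈ Z → A.AnAt Z x)
    {f : M → N} (hf : ∀ x ∈ Z ∩ W, A.Hol B f x) {s : ℕ}
    (hc : ∀ t, A.Cov (s + 1) (Z ∩ W ∩ f ⁻¹' {t})) {m : ℕ} (hm : B.Cov m (f '' (Z ∩ W))) :
    A.Cov (m + s) (Z ∩ W) := by
  refine cov_of_local fun x hx => ?_
  obtain ⟨i, hi⟩ := A.cover x
  obtain ⟨j, hj⟩ := B.cover (f x)
  obtain ⟨O, hO, hOo, hxO⟩ := mem_nhds_iff.1 (dm_nhds (hf x hx).1 hi hj (hW.mem_nhds hx.2))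
  have hOt : O ⊆ (A.e i).target := fun z hz => (hO hz).1
  have h1 := Dm.cov_of_image (Z := (A.e i).symm ⁻¹' Z) hOo
    (fun z hz hzZ => (hZ _ (hO hz).2.1 hzZ).chart (hOt hz))
    (f := fun z => B.e j (f ((A.e i).symm z)))
    (fun z hz => (hf _ ⟨hz.1, (hO hz.2).2.1⟩).an (hOt hz.2) (hO hz.2).2.2) (s := s)
    (fun t => (hc ((B.e j).symm t) i).sub (by
      rintro z ⟨⟨a, b⟩, c⟩
      refine ⟨hOt b, ⟨a, (hO b).2.1⟩, ?_⟩
      have c' : B.e j (f ((A.e i).symm z)) = t := c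
      change f ((A.e i).symm z) = (B.e j).symm t
      rw [← c', (B.e j).left_inv (hO b).2.2])) (m := m)
    ((hm j).sub (by
      rintro _ ⟨z, ⟨a, b⟩, rfl⟩
      refine ⟨(B.e j).map_source (hO b).2.2, (A.e i).symm z, ⟨a, (hO b).2.1⟩, ?_⟩
      exact ((B.e j).left_inv (hO b).2.2).symm))
  refine ⟨(A.e i).symm '' O, (isOpen_symm_image hOt hOo).mem_nhds ⟨_, hxO, (A.e i).left_inv hi⟩,
    (cov_symm (fun z hz => hOt hz.2) h1).sub ?_⟩
  rintro _ ⟨a, z, hz, rfl⟩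
  exact ⟨z, ⟨a.1, hz⟩, rfl⟩

/-- **dimension from fibres** -/
theorem cov_of_fibres {Z W : Set M} (hW : IsOpen W) (hZ : ∀ x ∈ W, x ∈ Z → A.AnAt Z x)
    {f : M → N} (hf : ∀ x ∈ Z ∩ W, A.Hol B f x) {s : ℕ}
    (hc : ∀ t, A.Cov (s + 1) (Z ∩ W ∩ f ⁻¹' {t})) : A.Cov (finrank ℂ F + s + 1) (Z ∩ W) :=
  (cov_of_image hW hZ hf hc (B.cov_top _)).mono (by omega)

theorem ev_chart_ne {x : M} {i : A.ι} (hi : x ∈ (A.e i).source) {p : M → Prop} :
    (∀ᶠ y in 𝓝[≠] x, p y) ↔ ∀ᶠ z in 𝓝[≠] (A.e i x), p ((A.e i).symm z) := by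
  rw [eventually_nhdsWithin_iff, eventually_nhdsWithin_iff, ev_chart hi]
  refine eventually_congr ((ev_target hi).mono fun z hz => imp_congr_left (not_congr ⟨?_, ?_⟩))
  · intro h
    rw [mem_singleton_iff] at h ⊢
    rw [← h, (A.e i).right_inv hz]
  · intro h
    rw [mem_singleton_iff] at h ⊢
    rw [h, (A.e i).left_inv hi]




theorem isol_chart {Z : Set M} {x : M} {f : M → N} (hf : ContinuousAt f x) {i : A.ι} {j : B.ι}
    (hi : x ∈ (A.e i).source) (hj : f x ∈ (B.e j).source)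
    (h : ∀ᶠ y in 𝓝[≠] x, y ∈ Z → f y ≠ f x) :
    ∀ᶠ z in 𝓝[≠] (A.e i x), z ∈ (A.e i).symm ⁻¹' Z →
      B.e j (f ((A.e i).symm z)) ≠ B.e j (f ((A.e i).symm (A.e i x))) := by
  rw [(A.e i).left_inv hi]
  filter_upwards [(ev_chart_ne hi).1 h, nhdsWithin_le_nhds (dm_nhds hf hi hj univ_mem)]
    with z a b c e
  exact a c ((B.e j).injOn b.2.2 hj e)

/-- **finite mapping theorem** at an isolated point of the fibre -/
theorem fib_usc {Z : Set M} {x : M} (hZ : A.AnAt Z x) {f : M → N} (hf : A.Hol B f x)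
    (h : ∀ᶠ y in 𝓝[≠] x, y ∈ Z → f y ≠ f x) {W : Set M} (hW : W ∈ 𝓝 x) :
    ∃ O ∈ 𝓝 x, O ⊆ W ∧ (∀ t, (Z ∩ O ∩ f ⁻¹' {t}).Finite) ∧ B.AnAt (f '' (Z ∩ O)) (f x) := by
  obtain ⟨i, hi, hZ⟩ := hZ
  obtain ⟨j, hj⟩ := B.cover (f x)
  obtain ⟨O, h1, h2, h3, h4⟩ := Pj.fib_usc' hZ (hf.2 i j hi hj) (isol_chart hf.1 hi hj h)
    (dm_nhds hf.1 hi hj hW)
  refine ⟨(A.e i).symm '' O, ?_, ?_, fun t => ((h3 (B.e j t)).image (A.e i).symm).subset ?_,
    j, hj, ?_⟩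
  · filter_upwards [(ev_chart' hi).1 (show ∀ᶠ z in 𝓝 (A.e i x), z ∈ O from h1), ev_source hi]
      with y a b
    exact ⟨_, a, (A.e i).left_inv b⟩
  · rintro _ ⟨z, hz, rfl⟩
    exact (h2 hz).2.1
  · rintro _ ⟨⟨a, z, hz, rfl⟩, b⟩
    exact ⟨z, ⟨⟨a, hz⟩, congrArg (B.e j) b⟩, rfl⟩
  · rw [(A.e i).left_inv hi] at h4
    refine h4.congr ((ev_target hj).mono fun t ht => ⟨?_, ?_⟩)
    · rintro ⟨z, ⟨a, b⟩, rfl⟩
      exact ⟨(A.e i).symm z, ⟨a, z, b, rfl⟩, ((B.e j).left_inv (h2 b).2.2).symm⟩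
    · rintro ⟨_, ⟨a, z, b, rfl⟩, e⟩
      refine ⟨z, ⟨a, b⟩, ?_⟩
      change B.e j (f ((A.e i).symm z)) = t
      rw [e, (B.e j).right_inv ht]

/-- **openness of finite maps** -/
theorem image_mem_nhds {Z : Set M} {x : M} (hZ : A.AnAt Z x) {f : M → N} (hf : A.Hol B f x)
    (h : ∀ᶠ y in 𝓝[≠] x, y ∈ Z → f y ≠ f x) (hd : ∀ O ∈ 𝓝 x, ¬ A.Cov (finrank ℂ F) (Z ∩ O))
    {W : Set M} (hW : W ∈ 𝓝 x) : f '' (Z ∩ W) ∈ 𝓝 (f x) := by
  obtain ⟨i, hi, hZ⟩ := hZ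
  obtain ⟨j, hj⟩ := B.cover (f x)
  have h1 := Dm.image_mem_nhds hZ (hf.2 i j hi hj) (isol_chart hf.1 hi hj h) (fun O hO hc => by
    refine hd ((A.e i).source ∩ A.e i ⁻¹' O) (inter_mem (ev_source hi)
      ((A.e i).continuousAt hi hO)) ((cov_symm (i := i) inter_subset_right
        (hc.sub inter_subset_left)).sub fun y hy => ?_)
    refine ⟨A.e i y, ⟨⟨?_, hy.2.2⟩, (A.e i).map_source hy.2.1⟩, (A.e i).left_inv hy.2.1⟩
    rw [mem_preimage, (A.e i).left_inv hy.2.1]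
    exact hy.1) (dm_nhds hf.1 hi hj hW)
  rw [(A.e i).left_inv hi] at h1
  filter_upwards [(B.e j).continuousAt hj h1, ev_source hj] with t a b
  obtain ⟨z, ⟨c, d⟩, e⟩ := a
  exact ⟨(A.e i).symm z, ⟨c, d.2.1⟩, (B.e j).injOn d.2.2 b e⟩



/-- images: `Cov` is local in the source -/
theorem cov_image_of_local (A : HA E M) [Countable A.ι] {k : ℕ} {S : Set M} {f : M → N}
    (h : ∀ x ∈ S, ∃ O ∈ 𝓝 x, B.Cov k (f '' (S ∩ O))) : B.Cov k (f '' S) := by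
  have := A.secondCountable
  choose! O hO hS using h
  obtain ⟨t, htE, htc, hcov⟩ := TopologicalSpace.countable_cover_nhdsWithin
    (s := S) (f := O) (fun z hz => mem_nhdsWithin_of_mem_nhds (hO z hz))
  refine (cov_biUnion htc fun z hz => hS z (htE hz)).sub ?_
  rintro _ ⟨z, hz, rfl⟩
  obtain ⟨w, hw, hzw⟩ := mem_iUnion₂.1 (hcov hz)
  exact mem_iUnion₂.2 ⟨w, hw, z, ⟨hz, hzw⟩, rfl⟩

/-- fibres which are big at every point force a small image -/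
theorem cov_image_of_big [Countable A.ι] {Z W : Set M} (hW : IsOpen W)
    (hZ : ∀ x ∈ W, x ∈ Z → A.AnAt Z x) {f : M → N} (hf : ∀ x ∈ Z ∩ W, A.Hol B f x) {d m : ℕ}
    (hd : A.Cov (d + 1) (Z ∩ W))
    (hb : ∀ x ∈ Z ∩ W, ∀ O ∈ 𝓝 x, ¬ A.Cov (d + 1 - m) (Z ∩ O ∩ f ⁻¹' {f x})) :
    B.Cov m (f '' (Z ∩ W)) := by
  refine cov_image_of_local A fun x hx => ?_
  obtain ⟨i, hi⟩ := A.cover x
  obtain ⟨j, hj⟩ := B.cover (f x)
  obtain ⟨O, hO, hOo, hxO⟩ := mem_nhds_iff.1 (dm_nhds (hf x hx).1 hi hj (hW.mem_nhds hx.2))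
  have hOt : O ⊆ (A.e i).target := fun z hz => (hO hz).1
  have hO' := isOpen_symm_image hOt hOo
  have h1 := Dm.cov_image_of_big (Z := (A.e i).symm ⁻¹' Z) hOo
    (fun z hz hzZ => (hZ _ (hO hz).2.1 hzZ).chart (hOt hz))
    (f := fun z => B.e j (f ((A.e i).symm z)))
    (fun z hz => (hf _ ⟨hz.1, (hO hz.2).2.1⟩).an (hOt hz.2) (hO hz.2).2.2) (d := d) (m := m)
    ((hd i).sub fun z hz => ⟨hOt hz.2, hz.1, (hO hz.2).2.1⟩) fun z hz hc => by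
      refine hb _ ⟨hz.1, (hO hz.2).2.1⟩ _ (hO'.mem_nhds ⟨z, hz.2, rfl⟩)
        ((cov_symm (fun w hw => hOt hw.1.2) hc).sub ?_)
      rintro _ ⟨⟨a, w, hw, rfl⟩, b⟩
      exact ⟨w, ⟨⟨a, hw⟩, congrArg (B.e j) b⟩, rfl⟩
  refine ⟨_, hO'.mem_nhds ⟨_, hxO, (A.e i).left_inv hi⟩,
    (cov_symm (A := B) (i := j) ?_ h1).sub ?_⟩
  · rintro _ ⟨z, hz, rfl⟩
    exact (B.e j).map_source (hO hz.2).2.2
  · rintro _ ⟨_, ⟨a, z, hz, rfl⟩, rfl⟩
    exact ⟨_, ⟨z, ⟨a.1, hz⟩, rfl⟩, (B.e j).left_inv (hO hz).2.2⟩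



end HA

end Crest.Agent.X261.Ans
namespace Crest.Agent.X261.Ans.HA.Reg
end Crest.Agent.X261.Ans.HA.Reg
namespace Crest.Agent.X261.Ans.HA.Irr
end Crest.Agent.X261.Ans.HA.Irr
end

-- ▼ part X261/Ans/EqvD

/-!
# X261/Ans/EqvD (helper97): `LocStmt`, `Irr.dom`, and `eqv` from `EqvKStmt`
-/

set_option autoImplicit false
set_option linter.unusedSectionVars false

open Set Filter Topology Module

namespace Crest.Agent.X261.Ans

variable {E F : Type} [NormedAddCommGroup E] [NormedSpace ℂ E] [FiniteDimensional ℂ E]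
  [NormedAddCommGroup F] [NormedSpace ℂ F] [FiniteDimensional ℂ F]
  {M N : Type} [TopologicalSpace M] [TopologicalSpace N] {A : HA E M} {B : HA F N}

namespace HA


/-- the union of the components of `Z` which are not inside `Y` -/
def out (A : HA E M) (U Z Y : Set M) : Set M := ⋃₀ {C | A.Comp U Z C ∧ ¬ C ⊆ Y}

theorem an_out {U Z : Set M} (hU : IsOpen U) (hZ : A.An U Z) (Y : Set M) :
    A.An U (A.out U Z Y) := an_sUnion_comp hU hZ fun _ h => h.1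

/-- `Z` is inside `Y` near `q` iff `q` lies on no component of `Z` which is not inside `Y` -/
theorem mem_out_iff {U Z Y : Set M} (hU : IsOpen U) (hZ : A.An U Z) (hY : A.An U Y) {q : M}
    (hq : q ∈ U) : q ∈ A.out U Z Y ↔ ¬ ∀ᶠ z in 𝓝 q, z ∈ Z → z ∈ Y := by
  constructor
  · rintro ⟨C, ⟨hC, hCY⟩, hqC⟩ h
    obtain ⟨h1, d, h2⟩ := hC.irr hU hZ
    exact hCY fun z hz => h2.sub_of_open hU hY ⟨hq, hqC⟩ (h.mono fun w hw hwC => hw (h1 hwC))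
      ⟨(hC.sub hZ hz).1, hz⟩
  · intro h
    by_contra hq'
    apply h
    filter_upwards [(an_out hU hZ Y q hq).eventually_notMem hq', hU.mem_nhds hq] with z a b c
    obtain ⟨C, hC, hzC⟩ := comp_cover hU hZ b c
    by_contra hzY
    exact a ⟨C, ⟨hC, fun h => hzY (h hzC)⟩, hzC⟩

/-- generic inclusion along a holomorphic map from a connected manifold -/
theorem loc_along [ConnectedSpace N] {Z Y : Set M} (hZ : A.An univ Z) (hY : A.An univ Y)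
    {f : N → M} (hf : ∀ x, B.Hol A f x)
    (h : ∀ C, A.Comp univ Z C → (∀ x, f x ∈ C) → C ⊆ Y) :
    B.An univ {x | ¬ ∀ᶠ q in 𝓝 (f x), q ∈ Z → q ∈ Y} ∧
      ∃ x, ∀ᶠ q in 𝓝 (f x), q ∈ Z → q ∈ Y := by
  have e : {x | ¬ ∀ᶠ q in 𝓝 (f x), q ∈ Z → q ∈ Y} = f ⁻¹' A.out univ Z Y :=
    Set.ext fun x => (mem_out_iff isOpen_univ hZ hY (mem_univ _)).symm
  refine ⟨e ▸ (an_out isOpen_univ hZ Y).preimage (fun x _ => hf x) (mapsTo_univ _ _), ?_⟩
  obtain ⟨x₀⟩ : Nonempty N := inferInstance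
  obtain ⟨W, hW, hfin⟩ := comp_lf isOpen_univ hZ (mem_univ (f x₀))
  have h1 : B.Cov (finrank ℂ F)
      (⋃ C ∈ {C | (A.Comp univ Z C ∧ (C ∩ W).Nonempty) ∧ ¬ C ⊆ Y}, f ⁻¹' C) := by
    refine cov_biUnion (hfin.subset fun C hC => hC.1).countable fun C hC => ?_
    refine An.cov_of_ne ((hC.1.1.an isOpen_univ hZ).preimage (fun x _ => hf x)
      (mapsTo_univ _ _)) fun hu => hC.2 (h C hC.1.1 fun x => ?_)
    exact (hu ▸ mem_univ x : x ∈ f ⁻¹' C)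
  obtain ⟨x, hx1, hx2⟩ := ((h1.frequently_notMem x₀).and_eventually ((hf x₀).1 hW)).exists
  refine ⟨x, by_contra fun hn => hx1 ?_⟩
  obtain ⟨C, hC, hxC⟩ := (mem_out_iff isOpen_univ hZ hY (mem_univ _)).2 hn
  exact mem_iUnion₂.2 ⟨C, ⟨⟨hC.1, f x, hxC, hx2⟩, hC.2⟩, hxC⟩

theorem an_FP {Y₁ Y₂ : Set (M × M)} (h₁ : (A.prod A).An univ Y₁) (h₂ : (A.prod A).An univ Y₂) :
    (A.prod (A.prod A)).An univ (FP Y₁ Y₂) :=
  (h₁.preimage (f := fun t : M × M × M => (t.1, t.2.1))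
    (fun t _ => (hol_fst _ _ t).prodMk (hol_snd _ _ t).fst) (mapsTo_univ _ _)).inter
  (h₂.preimage (f := fun t : M × M × M => (t.2.1, t.2.2))
    (fun t _ => (hol_snd _ _ t).fst.prodMk (hol_snd _ _ t).snd) (mapsTo_univ _ _))

theorem hol_pr13 (A : HA E M) (t : M × M × M) :
    (A.prod (A.prod A)).Hol (A.prod A) (fun t => (t.1, t.2.2)) t :=
  (hol_fst _ _ t).prodMk (hol_snd _ _ t).snd

/-- some component of an analytic relation containing the diagonal contains the diagonal -/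
theorem exists_comp_diag [ConnectedSpace M] {Z : Set (M × M)} (hZ : (A.prod A).An univ Z)
    (hd : ∀ x, (x, x) ∈ Z) : ∃ Y, (A.prod A).Comp univ Z Y ∧ ∀ x, (x, x) ∈ Y := by
  obtain ⟨Y, h1, h2⟩ := img_comp (B := A) isOpen_univ hZ isPreconnected_univ univ_nonempty
    (fun y _ => A.reg_univ y) (f := fun y => (y, y)) (fun y _ => hol_diag A y)
    (fun y _ => ⟨mem_univ _, hd y⟩)
  exact ⟨Y, h1, fun x => h2 x (mem_univ x)⟩

end HA


/-- the class of the irreducible sets between the diagonal and some `R c` -/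
def RelD.toK [ConnectedSpace M] (D : RelD A) : RelK A where
  K := {Y | (∃ d, (A.prod A).Irr univ Y d) ∧ (∀ x, (x, x) ∈ Y) ∧ ∃ c, Y ⊆ D.R c}
  ne := by
    obtain ⟨c⟩ := D.ne
    obtain ⟨Y, h1, h2⟩ := HA.exists_comp_diag (D.an c) (D.diag c)
    obtain ⟨h3, h4⟩ := h1.irr isOpen_univ (D.an c)
    exact ⟨Y, h4, h2, c, h3⟩
  irr := fun _ h => h.1
  diag := fun _ h => h.2.1
  symm := by
    rintro Y ⟨⟨d, h1⟩, h2, c, h3⟩
    obtain ⟨c', hc'⟩ := D.symm c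
    exact ⟨Prod.swap ⁻¹' Y, ⟨⟨d, h1.swap⟩, h2, c', fun q hq => hc' _ _ (h3 hq)⟩, fun _ _ h => h⟩
  up := by
    rintro Y₁ ⟨⟨d₁, a1⟩, -, c₁, a3⟩ Y₂ ⟨⟨d₂, b1⟩, -, c₂, b3⟩ C hC hd
    obtain ⟨c, T, ⟨S, hS, hT⟩, hc⟩ := D.comp c₁ c₂
    obtain ⟨h1, d, h2⟩ := hC.irr isOpen_univ (HA.an_FP a1.1 b1.1)
    have h3 : univ ∩ C ⊆ (fun t : M × M × M => (t.1, t.2.2)) ⁻¹' D.R c := by
      let Z : Option (ℕ × Fin 3) → Set (M × M × M) := fun o => match o with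
        | none => (fun t : M × M × M => (t.1, t.2.2)) ⁻¹' D.R c
        | some (k, 0) => (fun t : M × M × M => t.1) ⁻¹' S k
        | some (k, 1) => (fun t : M × M × M => t.2.1) ⁻¹' S k
        | some (k, 2) => (fun t : M × M × M => t.2.2) ⁻¹' S k
      obtain ⟨o, ho⟩ := h2.sub_iUnion isOpen_univ (Z := Z) (fun o => match o with
        | none => (D.an c).preimage (fun t _ => HA.hol_pr13 A t) (mapsTo_univ _ _)
        | some (k, 0) => (hS k).1.preimage (fun t _ => HA.hol_fst _ _ t) (mapsTo_univ _ _)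
        | some (k, 1) => (hS k).1.preimage (fun t _ => (HA.hol_snd _ _ t).fst) (mapsTo_univ _ _)
        | some (k, 2) => (hS k).1.preimage (fun t _ => (HA.hol_snd _ _ t).snd) (mapsTo_univ _ _))
        (fun t ht => by
          by_cases e1 : t.1 ∈ T
          · obtain ⟨k, hk⟩ := mem_iUnion.1 (hT e1)
            exact mem_iUnion.2 ⟨some (k, 0), hk⟩
          by_cases e2 : t.2.1 ∈ T
          · obtain ⟨k, hk⟩ := mem_iUnion.1 (hT e2)
            exact mem_iUnion.2 ⟨some (k, 1), hk⟩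
          by_cases e3 : t.2.2 ∈ T
          · obtain ⟨k, hk⟩ := mem_iUnion.1 (hT e3)
            exact mem_iUnion.2 ⟨some (k, 2), hk⟩
          exact mem_iUnion.2 ⟨none, hc _ _ _ e1 e2 e3 (a3 (h1 ht.2).1) (b3 (h1 ht.2).2)⟩)
      match o, ho with
      | none, ho => exact ho
      | some (k, 0), ho =>
        exact ((hS k).2 (eq_univ_of_forall fun x => ho ⟨mem_univ _, hd x⟩)).elim
      | some (k, 1), ho =>
        exact ((hS k).2 (eq_univ_of_forall fun x => ho ⟨mem_univ _, hd x⟩)).elim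
      | some (k, 2), ho =>
        exact ((hS k).2 (eq_univ_of_forall fun x => ho ⟨mem_univ _, hd x⟩)).elim
    obtain ⟨Y, h4, h5⟩ := HA.Irr.img_comp isOpen_univ (D.an c) isOpen_univ h2
      (f := fun t : M × M × M => (t.1, t.2.2)) (fun t _ => HA.hol_pr13 A t)
      (fun t ht => ⟨mem_univ _, h3 ht⟩)
    obtain ⟨h6, h7⟩ := h4.irr isOpen_univ (D.an c)
    exact ⟨Y, ⟨h7, fun x => h5 _ ⟨mem_univ _, hd x⟩, c, h6⟩, fun t ht => h5 t ⟨mem_univ _, ht⟩⟩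

/-- from the class form to the family form -/
def EqvK.toD [ConnectedSpace M] {D : RelD A} (Q : EqvK D.toK) : EqvD D where
  p := Q.p
  r := Q.r
  hpr := Q.hpr
  Y := Q.Y
  irr := Q.irr
  sub := Q.mem.2.2
  diag := Q.diag
  symm := Q.symm
  max := fun Y' d c h1 h2 h3 => Q.max Y' ⟨⟨d, h1⟩, h2, c, h3⟩
  an_bad := Q.an_bad
  ne_good := Q.ne_good
  fol := Q.fol
  an_loc := fun c => (HA.loc_along (D.an c) Q.irr.1 (fun x => HA.hol_diag A x) fun C hC hd =>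
    Q.max C ⟨(hC.irr isOpen_univ (D.an c)).2, hd, c, (hC.irr isOpen_univ (D.an c)).1⟩).1
  ne_loc := fun c => (HA.loc_along (D.an c) Q.irr.1 (fun x => HA.hol_diag A x) fun C hC hd =>
    Q.max C ⟨(hC.irr isOpen_univ (D.an c)).2, hd, c, (hC.irr isOpen_univ (D.an c)).1⟩).2
  forms := Q.forms

theorem eqv_of_eqvK (h : EqvKStmt) [ConnectedSpace M] [Countable A.ι] (D : RelD A) :
    Nonempty (EqvD D) :=
  (h E M A D.toK).map EqvK.toD

end Crest.Agent.X261.Ans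
namespace Crest.Agent.X261.Ans.HA.Irr
end Crest.Agent.X261.Ans.HA.Irr
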