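import Crest.Agent.X261.Ans.Man0
import Crest.Agent.X261.Ans.Cut
import Crest.Agent.X261.Ans.Cov

/-!
# X261/Ans/Man1 (helper72): `HA.AnAt`, `HA.An`, `HA.Cov`
-/

set_option autoImplicit false
set_option linter.unusedSectionVars false

open Set Filter Topology Module

namespace Crest.Agent.X261.Ans

variable {E F G : Type} [NormedAddCommGroup E] [NormedSpace ℂ E] [FiniteDimensional ℂ E]
  [NormedAddCommGroup F] [NormedSpace ℂ F] [FiniteDimensional ℂ F]
  [NormedAddCommGroup G] [NormedSpace ℂ G] [FiniteDimensional ℂ G]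
  {M N P : Type} [TopologicalSpace M] [TopologicalSpace N] [TopologicalSpace P]
  {A : HA E M} {B : HA F N} {C : HA G P}

namespace HA

/-! ### analytic sets -/

theorem AnAt.preimage {Z : Set N} {f : M → N} {x : M} (hf : A.Hol B f x) (h : B.AnAt Z (f x)) :
    A.AnAt (f ⁻¹' Z) x := by
  obtain ⟨j, hj, h⟩ := h
  obtain ⟨i, hi⟩ := A.cover x
  have e2 : B.e j (f ((A.e i).symm (A.e i x))) = B.e j (f x) := by rw [(A.e i).left_inv hi]
  rw [← e2] at h
  refine ⟨i, hi, (Ans.AnAt.preimage (hf.2 i j hi hj) h).congr ?_⟩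
  filter_upwards [(ev_chart hi).1 (hf.1.eventually (ev_source hj))] with z hz
  simp only [mem_preimage]
  rw [(B.e j).left_inv hz]

theorem anAt_iff {Z : Set M} {x : M} {i : A.ι} (hx : x ∈ (A.e i).source) :
    A.AnAt Z x ↔ Ans.AnAt ((A.e i).symm ⁻¹' Z) (A.e i x) := by
  refine ⟨fun h => ?_, fun h => ⟨i, hx, h⟩⟩
  rw [← (A.e i).left_inv hx] at h
  obtain ⟨_, _, h1⟩ := h.preimage (hol_symm ((A.e i).map_source hx))
  exact h1

theorem self_anAt {Z : Set E} {x : E} : (self E).AnAt Z x ↔ Ans.AnAt Z x :=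
  anAt_iff (A := self E) (i := ()) (mem_univ _)

theorem self_an {U Z : Set E} : (self E).An U Z ↔ Ans.An U Z :=
  forall₂_congr fun _ _ => self_anAt

/-- analytic sets read in a chart -/
theorem AnAt.chart {Z : Set M} {i : A.ι} {z : E} (hz : z ∈ (A.e i).target)
    (h : A.AnAt Z ((A.e i).symm z)) : Ans.AnAt ((A.e i).symm ⁻¹' Z) z :=
  self_anAt.1 (h.preimage (hol_symm hz))

theorem An.chart {U Z : Set M} (h : A.An U Z) (i : A.ι) :
    Ans.An ((A.e i).target ∩ (A.e i).symm ⁻¹' U) ((A.e i).symm ⁻¹' Z) :=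
  fun _ hz => (h _ hz.2).chart hz.1

/-- analytic sets defined in a chart -/
theorem anAt_of_chart {Z : Set E} {x : M} {i : A.ι} (hx : x ∈ (A.e i).source)
    (h : Ans.AnAt Z (A.e i x)) : A.AnAt (A.e i ⁻¹' Z) x :=
  AnAt.preimage (hol_chart hx) (self_anAt.2 h)

theorem AnAt.congr {Z Z' : Set M} {x : M} (h : A.AnAt Z x) (hZ : ∀ᶠ y in 𝓝 x, y ∈ Z ↔ y ∈ Z') :
    A.AnAt Z' x := by
  obtain ⟨i, hi, h⟩ := h
  exact ⟨i, hi, h.congr ((ev_chart hi).1 hZ)⟩

theorem AnAt.eventually {Z : Set M} {x : M} (h : A.AnAt Z x) : ∀ᶠ y in 𝓝 x, A.AnAt Z y := by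
  obtain ⟨i, hi, h⟩ := h
  filter_upwards [(ev_chart' hi).1 h.eventually, ev_source hi] with y h1 h2 using ⟨i, h2, h1⟩


theorem AnAt.inter {Z Y : Set M} {x : M} (h : A.AnAt Z x) (h' : A.AnAt Y x) :
    A.AnAt (Z ∩ Y) x := by
  obtain ⟨i, hi, h⟩ := h
  exact ⟨i, hi, h.inter ((anAt_iff hi).1 h')⟩

theorem AnAt.union {Z Y : Set M} {x : M} (h : A.AnAt Z x) (h' : A.AnAt Y x) :
    A.AnAt (Z ∪ Y) x := by
  obtain ⟨i, hi, h⟩ := h
  exact ⟨i, hi, h.union ((anAt_iff hi).1 h')⟩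

theorem anAt_empty (A : HA E M) (x : M) : A.AnAt ∅ x := by
  obtain ⟨i, hi⟩ := A.cover x
  exact ⟨i, hi, Ans.anAt_empty _⟩

theorem anAt_univ (A : HA E M) (x : M) : A.AnAt univ x := by
  obtain ⟨i, hi⟩ := A.cover x
  exact ⟨i, hi, Ans.anAt_univ _⟩

theorem anAt_of_notMem {Z : Set M} {x : M} (h : ∀ᶠ y in 𝓝 x, y ∉ Z) : A.AnAt Z x :=
  (A.anAt_empty x).congr (h.mono fun _ hy => iff_of_false (notMem_empty _) hy)

theorem anAt_of_notMem_closure {Z : Set M} {x : M} (h : x ∉ closure Z) : A.AnAt Z x :=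
  anAt_of_notMem ((isClosed_closure.isOpen_compl.eventually_mem h).mono
    fun _ hy hz => hy (subset_closure hz))

theorem anAt_of_mem {Z : Set M} {x : M} (h : Z ∈ 𝓝 x) : A.AnAt Z x :=
  (A.anAt_univ x).congr (Filter.Eventually.mono h fun _ hy => iff_of_true (mem_univ _) hy)

theorem anAt_biUnion {ι : Type*} {t : Set ι} (ht : t.Finite) {Z : ι → Set M} {x : M}
    (h : ∀ i ∈ t, A.AnAt (Z i) x) : A.AnAt (⋃ i ∈ t, Z i) x := by
  induction t, ht using Set.Finite.induction_on with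
  | empty => simpa using A.anAt_empty x
  | @insert a s _ _ ih =>
    rw [biUnion_insert]
    exact (h a (mem_insert _ _)).union (ih fun i hi => h i (mem_insert_of_mem _ hi))

theorem anAt_biInter {ι : Type*} {t : Set ι} (ht : t.Finite) {Z : ι → Set M} {x : M}
    (h : ∀ i ∈ t, A.AnAt (Z i) x) : A.AnAt (⋂ i ∈ t, Z i) x := by
  induction t, ht using Set.Finite.induction_on with
  | empty => simpa using A.anAt_univ x
  | @insert a s _ _ ih =>
    rw [biInter_insert]
    exact (h a (mem_insert _ _)).inter (ih fun i hi => h i (mem_insert_of_mem _ hi))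

theorem AnAt.mem_of_closure {Z : Set M} {x : M} (h : A.AnAt Z x) (hx : x ∈ closure Z) :
    x ∈ Z := by
  obtain ⟨i, hi, h⟩ := h
  have h1 := h.mem_of_closure (mem_closure_iff_frequently.2
    ((fr_chart hi).1 (mem_closure_iff_frequently.1 hx)))
  rwa [mem_preimage, (A.e i).left_inv hi] at h1

theorem AnAt.eventually_notMem {Z : Set M} {x : M} (h : A.AnAt Z x) (hx : x ∉ Z) :
    ∀ᶠ y in 𝓝 x, y ∉ Z := by
  by_contra h1
  exact hx (h.mem_of_closure (mem_closure_iff_frequently.2 (by simpa using h1)))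

theorem AnAt.prod {Z : Set M} {Y : Set N} {x : M × N} (h : A.AnAt Z x.1) (h' : B.AnAt Y x.2) :
    (A.prod B).AnAt (Z ×ˢ Y) x :=
  (h.preimage (hol_fst A B x)).inter (h'.preimage (hol_snd A B x))

/-- zero sets -/
theorem anAt_eq_self {f g : M → F} {x : M} (hf : A.Hol (self F) f x) (hg : A.Hol (self F) g x) :
    A.AnAt {y | f y = g y} x := by
  obtain ⟨i, hi⟩ := A.cover x
  exact ⟨i, hi, Ans.anAt_eq ((hol_self_iff hi).1 hf) ((hol_self_iff hi).1 hg)⟩

theorem anAt_zero {f : M → F} {x : M} (hf : A.Hol (self F) f x) : A.AnAt {y | f y = 0} x :=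
  anAt_eq_self hf (hol_const _ _ _ _)

/-- coincidence sets -/
theorem anAt_eq [T2Space N] {f g : M → N} {x : M} (hf : A.Hol B f x) (hg : A.Hol B g x) :
    A.AnAt {y | f y = g y} x := by
  by_cases h : f x = g x
  · obtain ⟨j, hj⟩ := B.cover (f x)
    have hj' : g x ∈ (B.e j).source := h ▸ hj
    refine (anAt_eq_self ((hol_chart hj).comp hf) ((hol_chart hj').comp hg)).congr ?_
    filter_upwards [hf.1.eventually (ev_source hj), hg.1.eventually (ev_source hj')] with y h1 h2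
    exact ⟨fun h3 => (B.e j).injOn h1 h2 h3, fun h3 => congrArg (B.e j) h3⟩
  · refine anAt_of_notMem ?_
    have h1 : ContinuousAt (fun y => (f y, g y)) x := hf.1.prodMk hg.1
    exact h1.eventually (isClosed_diagonal.isOpen_compl.eventually_mem h)

theorem anAt_singleton [T2Space M] (A : HA E M) (a x : M) : A.AnAt {a} x :=
  anAt_eq (hol_id A x) (hol_const A A a x)

theorem anAt_diag [T2Space M] (A : HA E M) (x : M × M) : (A.prod A).AnAt {q | q.1 = q.2} x :=
  anAt_eq (hol_fst A A x) (hol_snd A A x)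

/-- graphs -/
theorem anAt_graph [T2Space N] {f : M → N} {x : M × N} (hf : A.Hol B f x.1) :
    (A.prod B).AnAt {q | f q.1 = q.2} x :=
  anAt_eq (hf.comp (hol_fst A B x)) (hol_snd A B x)

theorem An.mono {U U' Z : Set M} (h : A.An U Z) (hU : U' ⊆ U) : A.An U' Z :=
  fun x hx => h x (hU hx)

theorem An.inter {U Z Y : Set M} (h : A.An U Z) (h' : A.An U Y) : A.An U (Z ∩ Y) :=
  fun x hx => (h x hx).inter (h' x hx)

theorem An.union {U Z Y : Set M} (h : A.An U Z) (h' : A.An U Y) : A.An U (Z ∪ Y) :=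
  fun x hx => (h x hx).union (h' x hx)

theorem An.preimage {U : Set M} {V Z : Set N} {f : M → N} (h : B.An V Z)
    (hf : ∀ x ∈ U, A.Hol B f x) (hm : MapsTo f U V) : A.An U (f ⁻¹' Z) :=
  fun x hx => (h _ (hm hx)).preimage (hf x hx)

theorem An.prod {U Z : Set M} {V Y : Set N} (h : A.An U Z) (h' : B.An V Y) :
    (A.prod B).An (U ×ˢ V) (Z ×ˢ Y) := fun _ hx => (h _ hx.1).prod (h' _ hx.2)

theorem An.congr {U Z Z' : Set M} (h : A.An U Z) (hU : IsOpen U) (hZ : ∀ y ∈ U, y ∈ Z ↔ y ∈ Z') :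
    A.An U Z' := fun x hx => (h x hx).congr ((hU.eventually_mem hx).mono hZ)


theorem An.isOpen_diff {U Z : Set M} (h : A.An U Z) (hU : IsOpen U) : IsOpen (U \ Z) :=
  isOpen_iff_mem_nhds.2 fun x hx =>
    (hU.eventually_mem hx.1).and ((h x hx.1).eventually_notMem hx.2)

theorem An.isClosed {Z : Set M} (h : A.An univ Z) : IsClosed Z :=
  closure_subset_iff_isClosed.1 fun x hx => (h x (mem_univ x)).mem_of_closure hx

theorem An.closure_sub {U Z : Set M} (h : A.An U Z) : U ∩ closure Z ⊆ Z :=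
  fun x hx => (h x hx.1).mem_of_closure hx.2

/-- a closed set which is analytic at its points is analytic -/
theorem an_of_closed {U Z : Set M} (hc : ∀ x ∈ U, x ∈ closure Z → x ∈ Z)
    (h : ∀ x ∈ U, x ∈ Z → A.AnAt Z x) : A.An U Z := by
  intro x hx
  by_cases h1 : x ∈ closure Z
  · exact h x hx (hc x hx h1)
  · exact anAt_of_notMem_closure h1


/-! ### covering dimension -/

theorem Cov.sub {k : ℕ} {S T : Set M} (h : A.Cov k T) (hST : S ⊆ T) : A.Cov k S :=
  fun i => (h i).sub (inter_subset_inter_right _ (preimage_mono hST))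

theorem Cov.mono {k l : ℕ} {S : Set M} (h : A.Cov k S) (hkl : k ≤ l) : A.Cov l S :=
  fun i => (h i).mono hkl

theorem cov_empty (A : HA E M) (k : ℕ) : A.Cov k ∅ := fun i => by
  simpa using Ans.cov_empty (E := E) k

theorem cov_zero {S : Set M} : A.Cov 0 S ↔ S = ∅ := by
  refine ⟨fun h => eq_empty_of_forall_notMem fun x hx => ?_, fun h => h ▸ A.cov_empty 0⟩
  obtain ⟨i, hi⟩ := A.cover x
  have h1 : A.e i x ∈ (A.e i).target ∩ (A.e i).symm ⁻¹' S :=
    ⟨(A.e i).map_source hi, by rw [mem_preimage, (A.e i).left_inv hi]; exact hx⟩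
  rw [Ans.cov_zero.1 (h i)] at h1
  exact h1

theorem cov_iUnion {ι : Sort*} [Countable ι] {k : ℕ} {S : ι → Set M} (h : ∀ i, A.Cov k (S i)) :
    A.Cov k (⋃ i, S i) := fun j => by
  rw [preimage_iUnion, inter_iUnion]
  exact Ans.cov_iUnion fun i => h i j

theorem cov_biUnion {α : Type*} {t : Set α} (ht : t.Countable) {k : ℕ} {S : α → Set M}
    (h : ∀ i ∈ t, A.Cov k (S i)) : A.Cov k (⋃ i ∈ t, S i) := by
  have := ht.to_subtype
  rw [biUnion_eq_iUnion]
  exact cov_iUnion fun i => h i.1 i.2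

theorem Cov.union {k : ℕ} {S T : Set M} (hS : A.Cov k S) (hT : A.Cov k T) : A.Cov k (S ∪ T) :=
  fun i => by
    rw [preimage_union, inter_union_distrib_left]
    exact (hS i).union (hT i)

theorem cov_top (A : HA E M) (S : Set M) : A.Cov (finrank ℂ E + 1) S := fun _ => Ans.cov_top _


theorem cov_of_local {k : ℕ} {S : Set M} (h : ∀ x ∈ S, ∃ N ∈ 𝓝 x, A.Cov k (S ∩ N)) :
    A.Cov k S := by
  intro i
  refine Ans.cov_of_local fun z hz => ?_
  obtain ⟨W, hW, hc⟩ := h _ hz.2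
  exact ⟨(A.e i).symm ⁻¹' W, (A.e i).continuousAt_symm hz.1 hW,
    (hc i).sub fun w hw => ⟨hw.1.1, hw.1.2, hw.2⟩⟩

/-- images of sets inside one chart -/
theorem cov_image_chart {k : ℕ} {S : Set E} (h : Ans.Cov k S) {f : E → N}
    (hf : ∀ z ∈ S, (self E).Hol B f z) : B.Cov k (f '' S) := by
  intro j
  refine ((h.sub (inter_subset_left (t := f ⁻¹' (B.e j).source))).image
    (f := fun z => B.e j (f z)) fun z hz => ((self_hol_iff' hz.2).1 (hf z hz.1)).2).sub ?_
  rintro w ⟨hw, z, hz, hzw⟩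
  refine ⟨z, ⟨hz, ?_⟩, ?_⟩
  · rw [mem_preimage, hzw]
    exact (B.e j).map_target hw
  · change B.e j (f z) = w
    rw [hzw, (B.e j).right_inv hw]

theorem cov_chart {k : ℕ} {S : Set M} {i : A.ι} (hS : S ⊆ (A.e i).source) :
    A.Cov k S ↔ Ans.Cov k (A.e i '' S) := by
  refine ⟨fun h => (image_eq hS).symm ▸ h i, fun h => ?_⟩
  refine (cov_image_chart (B := A) h (f := (A.e i).symm) ?_).sub fun x hx => ?_
  · rintro _ ⟨x, hx, rfl⟩
    exact hol_symm ((A.e i).map_source (hS hx))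
  · exact ⟨A.e i x, mem_image_of_mem _ hx, (A.e i).left_inv (hS hx)⟩

theorem cov_symm {k : ℕ} {S : Set E} {i : A.ι} (hS : S ⊆ (A.e i).target) (h : Ans.Cov k S) :
    A.Cov k ((A.e i).symm '' S) := cov_image_chart h fun _ hz => hol_symm (hS hz)

theorem Cov.image [Countable A.ι] {k : ℕ} {S : Set M} (h : A.Cov k S) {f : M → N}
    (hf : ∀ x ∈ S, A.Hol B f x) : B.Cov k (f '' S) := by
  refine (cov_iUnion fun i => cov_image_chart (B := B) (h i) (f := fun z => f ((A.e i).symm z))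
    fun z hz => (hf _ hz.2).comp (hol_symm hz.1)).sub ?_
  rintro _ ⟨x, hx, rfl⟩
  obtain ⟨i, hi⟩ := A.cover x
  refine mem_iUnion.2 ⟨i, A.e i x, ⟨(A.e i).map_source hi, ?_⟩, ?_⟩
  · rw [mem_preimage, (A.e i).left_inv hi]
    exact hx
  · change f ((A.e i).symm (A.e i x)) = f x
    rw [(A.e i).left_inv hi]


theorem cov_of_countable {S : Set M} (h : S.Countable) : A.Cov 1 S := fun i =>
  Ans.cov_one.2 ((h.image (A.e i)).mono fun z hz =>
    (mem_image _ _ _).2 ⟨(A.e i).symm z, hz.2, (A.e i).right_inv hz.1⟩)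


theorem Cov.prod {a b : ℕ} {S : Set M} {T : Set N} (hS : A.Cov a S) (hT : B.Cov (b + 1) T) :
    (A.prod B).Cov (a + b) (S ×ˢ T) := fun p =>
  ((hS p.1).prod (hT p.2)).sub fun _ hz => ⟨⟨hz.1.1, hz.2.1⟩, hz.1.2, hz.2.2⟩


theorem Cov.prod_univ {a : ℕ} {S : Set M} (hS : A.Cov a S) (B : HA F N) :
    (A.prod B).Cov (a + finrank ℂ F) (S ×ˢ univ) := hS.prod (B.cov_top univ)


theorem Cov.frequently_notMem {S : Set M} (h : A.Cov (finrank ℂ E) S) (x : M) :
    ∃ᶠ y in 𝓝 x, y ∉ S := by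
  obtain ⟨i, hi⟩ := A.cover x
  rw [fr_chart hi]
  refine ((mem_closure_iff_frequently.1 ((h i).dense_compl (A.e i x))).and_eventually
    (ev_target hi)).mono fun z hz hS => hz.1 ⟨hz.2, hS⟩

theorem Cov.dense_compl {S : Set M} (h : A.Cov (finrank ℂ E) S) : Dense Sᶜ :=
  fun x => mem_closure_iff_frequently.2 (h.frequently_notMem x)

theorem Cov.not_mem_nhds {S : Set M} (h : A.Cov (finrank ℂ E) S) (x : M) : S ∉ 𝓝 x :=
  fun hS => h.frequently_notMem x (Filter.Eventually.mono hS fun _ hy h' => h' hy)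

theorem Cov.ne_univ [Nonempty M] {S : Set M} (h : A.Cov (finrank ℂ E) S) : S ≠ univ := by
  rintro rfl
  exact h.not_mem_nhds (Classical.arbitrary M) univ_mem

theorem Cov.sub_closure {S U : Set M} (h : A.Cov (finrank ℂ E) S) (hU : IsOpen U) :
    U ⊆ closure (U \ S) := fun x hx => mem_closure_iff_frequently.2
  (((h.frequently_notMem x).and_eventually (hU.eventually_mem hx)).mono fun _ hy => ⟨hy.2, hy.1⟩)

/-- the preimage of a set under a chart -/
theorem symm_image_eq {i : A.ι} {S : Set E} (hS : S ⊆ (A.e i).target) :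
    (A.e i).symm '' S = (A.e i).source ∩ A.e i ⁻¹' S :=
  (A.e i).symm_image_eq_source_inter_preimage hS

theorem isOpen_symm_image {i : A.ι} {S : Set E} (hS : S ⊆ (A.e i).target) (ho : IsOpen S) :
    IsOpen ((A.e i).symm '' S) := (A.e i).isOpen_image_symm_of_subset_target ho hS

theorem preconnected_symm_image {i : A.ι} {S : Set E} (hS : S ⊆ (A.e i).target)
    (h : IsPreconnected S) : IsPreconnected ((A.e i).symm '' S) :=
  h.image _ ((A.e i).continuousOn_symm.mono hS)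

/-- a closed thin set does not disconnect -/
theorem preconnected_diff {U S : Set M} (hU : IsOpen U) (hc : IsPreconnected U)
    (hS : A.Cov (finrank ℂ E) S) (hUS : IsOpen (U \ S)) : IsPreconnected (U \ S) := by
  refine Man.preconnected_of_local hc sdiff_subset fun x hx => ?_
  obtain ⟨i, hi⟩ := A.cover x
  obtain ⟨r, hr, hb⟩ := exists_ball hi (hU.mem_nhds hx)
  have hbt : Metric.ball (A.e i x) r ⊆ (A.e i).target := hb.trans inter_subset_left
  have hNo := isOpen_symm_image hbt Metric.isOpen_ball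
  have e1 : (U \ S) ∩ (A.e i).symm '' Metric.ball (A.e i x) r =
      (A.e i).symm '' (Metric.ball (A.e i x) r \ ((A.e i).target ∩ (A.e i).symm ⁻¹' S)) := by
    ext y
    constructor
    · rintro ⟨hy, z, hz, rfl⟩
      exact ⟨z, ⟨hz, fun h => hy.2 h.2⟩, rfl⟩
    · rintro ⟨z, hz, rfl⟩
      exact ⟨⟨(hb hz.1).2, fun h => hz.2 ⟨hbt hz.1, h⟩⟩, z, hz.1, rfl⟩
  refine ⟨_, hNo, ⟨A.e i x, Metric.mem_ball_self hr, (A.e i).left_inv hi⟩, ?_, ?_⟩
  · rw [e1]
    refine preconnected_symm_image (sdiff_subset.trans hbt)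
      (Ans.preconnected_diff Metric.isOpen_ball (convex_ball _ _).isPreconnected (hS i) ?_)
    have e2 : Metric.ball (A.e i x) r \ ((A.e i).target ∩ (A.e i).symm ⁻¹' S) =
        Metric.ball (A.e i x) r ∩ ((A.e i).target ∩ (A.e i).symm ⁻¹' (U \ S)) := by
      ext z
      exact ⟨fun hz => ⟨hz.1, hbt hz.1, (hb hz.1).2, fun h => hz.2 ⟨hbt hz.1, h⟩⟩,
        fun hz => ⟨hz.1, fun h => hz.2.2.2 h.2⟩⟩
    rw [e2]
    exact Metric.isOpen_ball.inter ((A.e i).isOpen_inter_preimage_symm hUS)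
  · refine (hS.sub_closure (hU.inter hNo)).trans (closure_mono ?_)
    exact fun y hy => ⟨⟨hy.1.1, hy.2⟩, hy.1.2⟩

theorem exists_preconnected (A : HA E M) {x : M} {W : Set M} (hW : W ∈ 𝓝 x) :
    ∃ V : Set M, IsOpen V ∧ x ∈ V ∧ V ⊆ W ∧ IsPreconnected V := by
  obtain ⟨i, hi⟩ := A.cover x
  obtain ⟨r, hr, hb⟩ := exists_ball hi hW
  have hbt : Metric.ball (A.e i x) r ⊆ (A.e i).target := hb.trans inter_subset_left
  refine ⟨_, isOpen_symm_image hbt Metric.isOpen_ball,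
    ⟨A.e i x, Metric.mem_ball_self hr, (A.e i).left_inv hi⟩, ?_,
    preconnected_symm_image hbt (convex_ball _ _).isPreconnected⟩
  rintro _ ⟨z, hz, rfl⟩
  exact (hb hz).2

theorem locallyConnected (A : HA E M) : LocallyConnectedSpace M :=
  locallyConnectedSpace_iff_subsets_isOpen_isConnected.2 fun x W hW => by
    obtain ⟨V, h1, h2, h3, h4⟩ := A.exists_preconnected hW
    exact ⟨V, h3, h1, h2, ⟨x, h2⟩, h4⟩

end HA

end Crest.Agent.X261.Ans
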