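import Crest.Agent.X261.Ans.Cut
import Crest.Agent.R281.Tc1_941
import Crest.Agent.R266.SCV
import Crest.Agent.R275.Loc2A_879

-- ▼ part X261/Ans/HF
section

/-!
# X261/Ans/HF (helper8): holomorphic families of multisets

`HF α z`: traces of holomorphic functions over the multisets `α y` are holomorphic at `z`.
Stable under filtering by clopen conditions, maps, towers; symmetric functions are holomorphic;
the roots of a monic polynomial with holomorphic coefficients form such a family.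
-/

set_option autoImplicit false
set_option linter.unusedSectionVars false

open Set Filter Topology Metric Polynomial
open scoped Real

namespace Crest.Agent.X261.Ans

noncomputable section

variable {F G H : Type} [NormedAddCommGroup F] [NormedSpace ℂ F]
  [NormedAddCommGroup G] [NormedSpace ℂ G] [NormedAddCommGroup H] [NormedSpace ℂ H]

/-- holomorphic family of multisets at `z` -/
def HF (α : F → Multiset G) (z : F) : Prop :=
  ∀ f : F × G → ℂ, (∀ w ∈ α z, AnalyticAt ℂ f (z, w)) →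
    AnalyticAt ℂ (fun y => ((α y).map fun w => f (y, w)).sum) z

theorem nat_eventually_eq {X : Type*} [TopologicalSpace X] {g : X → ℕ} {z : X}
    (h : ContinuousAt (fun y => (g y : ℂ)) z) : ∀ᶠ y in 𝓝 z, g y = g z := by
  filter_upwards [Metric.tendsto_nhds.1 h 1 one_pos] with y hy
  rw [dist_eq_norm] at hy
  have h1 : ‖(((g y : ℤ) - (g z : ℤ) : ℤ) : ℂ)‖ < 1 := by simpa using hy
  rw [Complex.norm_intCast] at h1
  have h2 : |(g y : ℤ) - (g z : ℤ)| < 1 := by exact_mod_cast h1
  have h3 := Int.abs_lt_one_iff.1 h2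
  omega

variable {α : F → Multiset G} {z : F}

theorem HF.congr (h : HF α z) {β : F → Multiset G} (hβ : ∀ᶠ y in 𝓝 z, α y = β y) : HF β z := by
  intro f hf
  rw [← hβ.self_of_nhds] at hf
  refine (h f hf).congr ?_
  filter_upwards [hβ] with y hy
  rw [hy]


theorem HF.card (h : HF α z) : ∀ᶠ y in 𝓝 z, (α y).card = (α z).card := by
  refine nat_eventually_eq (g := fun y => (α y).card) ?_
  have h1 := (h (fun _ => 1) (fun _ _ => analyticAt_const)).continuousAt
  simpa using h1

theorem HF.filter (h : HF α z) (S : F × G → Prop) [DecidablePred S]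
    (hS : ∀ w ∈ α z, (∀ᶠ p in 𝓝 (z, w), S p) ∨ ∀ᶠ p in 𝓝 (z, w), ¬ S p) :
    HF (fun y => (α y).filter fun w => S (y, w)) z := by
  intro f hf
  have h1 := h (fun p => if S p then f p else 0) (fun w hw => by
    rcases hS w hw with h2 | h2
    · refine (hf w (Multiset.mem_filter.2 ⟨hw, h2.self_of_nhds⟩)).congr ?_
      filter_upwards [h2] with p hp
      rw [if_pos hp]
    · refine (analyticAt_const (v := (0 : ℂ))).congr ?_
      filter_upwards [h2] with p hp
      rw [if_neg hp])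
  refine h1.congr (Eventually.of_forall fun y => ?_)
  beta_reduce
  generalize α y = s
  induction s using Multiset.induction_on with
  | empty => simp
  | cons a s ih =>
    by_cases ha : S (y, a)
    · rw [Multiset.filter_cons_of_pos (p := fun w => S (y, w)) _ ha]
      simp only [Multiset.map_cons, Multiset.sum_cons, if_pos ha, ih]
    · rw [Multiset.filter_cons_of_neg (p := fun w => S (y, w)) _ ha]
      simp only [Multiset.map_cons, Multiset.sum_cons, if_neg ha, ih, zero_add]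

/-- upper semicontinuity -/
theorem HF.usc (h : HF α z) {N : Set (F × G)} (hN : ∀ w ∈ α z, N ∈ 𝓝 (z, w)) :
    ∀ᶠ y in 𝓝 z, ∀ w ∈ α y, (y, w) ∈ N := by
  classical
  have h1 := (h.filter (fun p => p ∉ N) (fun w hw => Or.inr (by
    filter_upwards [hN w hw] with p hp hp' using hp' hp))).card
  filter_upwards [h1] with y hy w hw
  rw [(Multiset.filter_eq_nil (s := α z)).2 (fun a ha ha' => ha' (mem_of_mem_nhds (hN a ha))),
    Multiset.card_zero, Multiset.card_eq_zero, Multiset.filter_eq_nil] at hy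
  by_contra hn
  exact hy w hw hn

theorem HF.usc' (h : HF α z) {N : Set G} (hN : ∀ w ∈ α z, N ∈ 𝓝 w) :
    ∀ᶠ y in 𝓝 z, ∀ w ∈ α y, w ∈ N :=
  h.usc (N := Prod.snd ⁻¹' N) fun w hw => continuous_snd.continuousAt.preimage_mem_nhds (hN w hw)

theorem HF.map (h : HF α z) {φ : F × G → H} (hφ : ∀ w ∈ α z, AnalyticAt ℂ φ (z, w)) :
    HF (fun y => (α y).map fun w => φ (y, w)) z := by
  intro f hf
  have h1 := h (fun p => f (p.1, φ p)) (fun w hw => by
    have h2 : AnalyticAt ℂ (fun p : F × G => (p.1, φ p)) (z, w) := analyticAt_fst.prod (hφ w hw)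
    exact AnalyticAt.comp (g := f) (f := fun p : F × G => (p.1, φ p))
      (hf _ (Multiset.mem_map_of_mem _ hw)) h2)
  simpa [Multiset.map_map] using h1

theorem HF.bind (h : HF α z) {β : F × G → Multiset H} (hβ : ∀ w ∈ α z, HF β (z, w)) :
    HF (fun y => (α y).bind fun w => (β (y, w)).map fun u => (w, u)) z := by
  intro f hf
  have h1 := h (fun p => ((β p).map fun u => f (p.1, (p.2, u))).sum) (fun w hw => by
    refine hβ w hw (fun q => f (q.1.1, (q.1.2, q.2))) (fun u hu => ?_)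
    have h2 : AnalyticAt ℂ (fun q : (F × G) × H => (q.1.1, (q.1.2, q.2))) ((z, w), u) :=
      (analyticAt_fst.comp analyticAt_fst).prod
        ((analyticAt_snd.comp analyticAt_fst).prod analyticAt_snd)
    exact AnalyticAt.comp (g := f) (f := fun q : (F × G) × H => (q.1.1, (q.1.2, q.2)))
      (hf _ (Multiset.mem_bind.2 ⟨w, hw, Multiset.mem_map_of_mem _ hu⟩)) h2)
  refine h1.congr (Eventually.of_forall fun y => ?_)
  simp [Multiset.map_bind, Multiset.sum_bind, Multiset.map_map]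

/-- constant multiset of holomorphic sections -/
theorem hf_sections {ι : Type} (T : Multiset ι) {S : ι → F → G}
    (hS : ∀ i ∈ T, AnalyticAt ℂ (S i) z) : HF (fun y => T.map fun i => S i y) z := by
  intro f hf
  simp only [Multiset.map_map, Function.comp_def]
  have h1 : ∀ i ∈ T, AnalyticAt ℂ (fun y => f (y, S i y)) z := fun i hi =>
    AnalyticAt.comp (g := f) (f := fun y => (y, S i y)) (hf _ (Multiset.mem_map_of_mem _ hi))
      (analyticAt_id.prod (hS i hi))
  clear hf hS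
  induction T using Multiset.induction_on with
  | empty => simpa using analyticAt_const
  | cons a s ih =>
    simp only [Multiset.map_cons, Multiset.sum_cons]
    exact (h1 a (Multiset.mem_cons_self _ _)).add
      (ih fun i hi => h1 i (Multiset.mem_cons_of_mem hi))

/-- vector valued traces -/
theorem HF.tr_vec [FiniteDimensional ℂ H] (h : HF α z) {f : F × G → H}
    (hf : ∀ w ∈ α z, AnalyticAt ℂ f (z, w)) :
    AnalyticAt ℂ (fun y => ((α y).map fun w => f (y, w)).sum) z := by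
  let e : H ≃L[ℂ] (Fin (Module.finrank ℂ H) → ℂ) := ContinuousLinearEquiv.ofFinrankEq (by simp)
  have h1 : AnalyticAt ℂ (fun y => e ((α y).map fun w => f (y, w)).sum) z := by
    rw [analyticAt_pi_iff]
    intro i
    let L : H →L[ℂ] ℂ := (ContinuousLinearMap.proj (R := ℂ) (φ := fun _ => ℂ) i).comp
      (e : H →L[ℂ] (Fin (Module.finrank ℂ H) → ℂ))
    have h2 := h (fun p => L (f p)) (fun w hw => (L.analyticAt _).comp (hf w hw))
    refine h2.congr (Eventually.of_forall fun y => ?_)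
    show _ = L _
    rw [map_multiset_sum, Multiset.map_map]
    rfl
  have h2 := ((e.symm : _ →L[ℂ] H).analyticAt _).comp h1
  refine h2.congr (Eventually.of_forall fun y => ?_)
  simp

theorem an_eval {T : ℕ → F → ℂ} (hT : ∀ j, AnalyticAt ℂ (T j) z) (P : MvPolynomial ℕ ℂ) :
    AnalyticAt ℂ (fun y => MvPolynomial.eval (fun j => T j y) P) z := by
  induction P using MvPolynomial.induction_on with
  | C a =>
    simp only [MvPolynomial.eval_C]
    exact analyticAt_const
  | add p q hp hq =>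
    simp only [map_add]
    exact hp.add hq
  | mul_X p n hp =>
    simp only [map_mul, MvPolynomial.eval_X]
    exact hp.mul (hT n)

theorem newton_ms (k : ℕ) : ∃ P : MvPolynomial ℕ ℂ, ∀ s : Multiset ℂ,
    MvPolynomial.eval (fun j => (s.map fun a => a ^ j).sum) P = s.esymm k := by
  classical
  obtain ⟨P, hP⟩ := R281.Tc_941.newton_univ.{0} k
  refine ⟨P, fun s => ?_⟩
  have h1 := hP s (fun x => (x : ℂ))
  rw [Multiset.map_univ_coe] at h1
  rw [← h1]
  congr 2
  funext j
  conv_lhs => rw [← Multiset.map_univ_coe s]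
  rw [Multiset.map_map]
  rfl

theorem HF.esymm (h : HF α z) {f : F × G → ℂ} (hf : ∀ w ∈ α z, AnalyticAt ℂ f (z, w)) (k : ℕ) :
    AnalyticAt ℂ (fun y => ((α y).map fun w => f (y, w)).esymm k) z := by
  obtain ⟨P, hP⟩ := newton_ms k
  have h1 := an_eval (z := z) (T := fun j y => ((α y).map fun w => f (y, w) ^ j).sum)
    (fun j => h (fun p => f p ^ j) fun w hw => (hf w hw).pow j) P
  refine h1.congr (Eventually.of_forall fun y => ?_)
  beta_reduce
  rw [← hP]
  simp only [Multiset.map_map, Function.comp_def]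

/-- the monic polynomial with roots `s` -/
def chi (s : Multiset ℂ) : ℂ[X] := (s.map fun r => X - C r).prod

theorem chi_monic (s : Multiset ℂ) : (chi s).Monic :=
  monic_multiset_prod_of_monic _ _ fun r _ => monic_X_sub_C r

theorem chi_natDegree (s : Multiset ℂ) : (chi s).natDegree = s.card :=
  natDegree_multiset_prod_X_sub_C_eq_card s

theorem chi_roots (s : Multiset ℂ) : (chi s).roots = s := roots_multiset_prod_X_sub_C s

theorem chi_eval (s : Multiset ℂ) (t : ℂ) : (chi s).eval t = (s.map fun r => t - r).prod := by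
  rw [chi, eval_multiset_prod, Multiset.map_map]
  simp

theorem count_eq_trailing (s : Multiset ℂ) : s.count 0 = (chi s).natTrailingDegree := by
  classical
  conv_lhs => rw [← chi_roots s]
  rw [count_roots, rootMultiplicity_eq_natTrailingDegree']

theorem chi_coeff_count (s : Multiset ℂ) : (chi s).coeff (s.count 0) ≠ 0 := by
  rw [count_eq_trailing]
  exact trailingCoeff_nonzero_iff_nonzero.2 (chi_monic s).ne_zero

theorem count_le_of_coeff {s : Multiset ℂ} {k : ℕ} (h : (chi s).coeff k ≠ 0) : s.count 0 ≤ k := by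
  rw [count_eq_trailing]
  exact natTrailingDegree_le_of_ne_zero h

theorem HF.coeff (h : HF α z) {f : F × G → ℂ} (hf : ∀ w ∈ α z, AnalyticAt ℂ f (z, w)) (k : ℕ) :
    AnalyticAt ℂ (fun y => (chi ((α y).map fun w => f (y, w))).coeff k) z := by
  by_cases hk : k ≤ (α z).card
  · have h1 := (analyticAt_const (v := (-1 : ℂ) ^ ((α z).card - k))).mul
      (h.esymm hf ((α z).card - k))
    refine h1.congr ?_
    filter_upwards [h.card] with y hy
    have h2 : k ≤ ((α y).map fun w => f (y, w)).card := by rw [Multiset.card_map, hy]; exact hk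
    show _ = (chi _).coeff k
    rw [chi, Multiset.prod_X_sub_C_coeff _ h2, Multiset.card_map, hy]
    rfl
  · refine (analyticAt_const (v := (0 : ℂ))).congr ?_
    filter_upwards [h.card] with y hy
    refine (coeff_eq_zero_of_natDegree_lt ?_).symm
    rw [chi_natDegree, Multiset.card_map, hy]
    omega

/-- the norm is holomorphic -/
theorem HF.prod (h : HF α z) {f : F × G → ℂ} (hf : ∀ w ∈ α z, AnalyticAt ℂ f (z, w)) :
    AnalyticAt ℂ (fun y => ((α y).map fun w => f (y, w)).prod) z := by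
  have h1 := h.coeff (f := fun p => - f p) (fun w hw => (hf w hw).neg) 0
  refine h1.congr (Eventually.of_forall fun y => ?_)
  beta_reduce
  rw [coeff_zero_eq_eval_zero, chi_eval, Multiset.map_map]
  simp

/-! ### roots of polynomials -/

theorem circle_sum {T : Finset ℂ} {ρ : ℝ} (hρ : 0 < ρ)
    (hT : ∀ w ∈ T, ∀ w' ∈ T, w ≠ w' → 2 * ρ ≤ dist w w') {g : ℂ → ℂ}
    (hg : ∀ w ∈ T, DifferentiableOn ℂ g (closedBall w ρ)) (s : Multiset ℂ)
    (hs : ∀ u ∈ s, ∃ w ∈ T, u ∈ ball w ρ) :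
    ∑ w ∈ T, (∮ ζ in C(w, ρ), (s.map fun u => 1 / (ζ - u)).sum * g ζ) =
      2 * π * Complex.I * (s.map g).sum := by
  have hout : ∀ u, ∀ w ∈ T, ∀ w' ∈ T, u ∈ ball w' ρ → w ≠ w' → u ∉ closedBall w ρ := by
    intro u w hw w' hw' hu hne hu'
    have h1 := hT w hw w' hw' hne
    have h2 := dist_triangle_left w w' u
    rw [mem_ball] at hu
    rw [mem_closedBall] at hu'
    linarith
  have hsp : ∀ u, (∃ w ∈ T, u ∈ ball w ρ) → ∀ w ∈ T, ∀ ζ ∈ sphere w ρ, ζ - u ≠ 0 := by
    rintro u ⟨w', hw', hu⟩ w hw ζ hζ h0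
    rw [sub_eq_zero] at h0
    subst h0
    by_cases hne : w = w'
    · subst hne
      exact (mem_ball.1 hu).ne (mem_sphere.1 hζ)
    · exact hout ζ w hw w' hw' hu hne (sphere_subset_closedBall hζ)
  have hc1 : ∀ u, (∃ w ∈ T, u ∈ ball w ρ) → ∀ w ∈ T,
      ContinuousOn (fun ζ => 1 / (ζ - u)) (sphere w ρ) := fun u hu w hw =>
    continuousOn_const.div (continuousOn_id.sub continuousOn_const) (hsp u hu w hw)
  have hc2 : ∀ s : Multiset ℂ, (∀ u ∈ s, ∃ w ∈ T, u ∈ ball w ρ) → ∀ w ∈ T,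
      ContinuousOn (fun ζ => (s.map fun u => 1 / (ζ - u)).sum) (sphere w ρ) := by
    intro s hs w hw
    induction s using Multiset.induction_on with
    | empty => simpa using continuousOn_const
    | cons a s ih =>
      simp only [Multiset.map_cons, Multiset.sum_cons]
      exact (hc1 a (hs a (Multiset.mem_cons_self _ _)) w hw).add
        (ih fun u hu => hs u (Multiset.mem_cons_of_mem hu))
  have hgc : ∀ w ∈ T, ContinuousOn g (sphere w ρ) := fun w hw =>
    (hg w hw).continuousOn.mono sphere_subset_closedBall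
  induction s using Multiset.induction_on with
  | empty => simp [circleIntegral]
  | cons a s ih =>
    have ha := hs a (Multiset.mem_cons_self _ _)
    have hs' : ∀ u ∈ s, ∃ w ∈ T, u ∈ ball w ρ := fun u hu => hs u (Multiset.mem_cons_of_mem hu)
    simp only [Multiset.map_cons, Multiset.sum_cons, add_mul, mul_add]
    rw [← ih hs']
    have h1 : ∀ w ∈ T, (∮ ζ in C(w, ρ), (1 / (ζ - a) * g ζ +
        (s.map fun u => 1 / (ζ - u)).sum * g ζ)) = (∮ ζ in C(w, ρ), 1 / (ζ - a) * g ζ) +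
          ∮ ζ in C(w, ρ), (s.map fun u => 1 / (ζ - u)).sum * g ζ := fun w hw =>
      circleIntegral.integral_add
        (((hc1 a ha w hw).mul (hgc w hw)).circleIntegrable hρ.le)
        (((hc2 s hs' w hw).mul (hgc w hw)).circleIntegrable hρ.le)
    rw [Finset.sum_congr rfl h1, Finset.sum_add_distrib]
    congr 1
    obtain ⟨w', hw', hu⟩ := ha
    rw [Finset.sum_eq_single_of_mem w' hw']
    · have h2 := (hg w' hw').circleIntegral_sub_inv_smul hu
      simpa only [one_div, smul_eq_mul] using h2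
    · intro w hw hne
      have h3 := hout a w hw w' hw' hu hne
      have h4 : DifferentiableOn ℂ (fun ζ => 1 / (ζ - a) * g ζ) (closedBall w ρ) := by
        refine DifferentiableOn.mul ?_ (hg w hw)
        refine (differentiableOn_const _).div (differentiableOn_id.sub (differentiableOn_const _)) ?_
        intro ζ hζ h0
        rw [sub_eq_zero] at h0
        exact h3 (h0 ▸ hζ)
      exact Complex.circleIntegral_eq_zero_of_differentiable_on_off_countable hρ.le
        countable_empty h4.continuousOn fun ζ hζ =>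
          h4.differentiableAt (mem_of_superset (isOpen_ball.mem_nhds hζ.1) ball_subset_closedBall)

theorem roots_near {X : Type*} [TopologicalSpace X] {P : X → ℂ[X]} {n : ℕ} {x : X}
    (hP : ∀ᶠ y in 𝓝 x, (P y).Monic ∧ (P y).natDegree = n)
    (hc : ∀ j, ContinuousAt (fun y => (P y).coeff j) x) {ρ : ℝ} (hρ : 0 < ρ) :
    ∀ᶠ y in 𝓝 x, ∀ u ∈ (P y).roots, ∃ w ∈ (P x).roots, u ∈ ball w ρ := by
  obtain ⟨hm, hn⟩ := hP.self_of_nhds
  rcases Nat.eq_zero_or_pos n with rfl | hpos
  · filter_upwards [hP] with y hy u hu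
    rw [hy.1.natDegree_eq_zero.1 hy.2] at hu
    simp at hu
  obtain ⟨B, hB0, hB⟩ : ∃ B : ℝ, 0 ≤ B ∧ ∀ w ∈ (P x).roots, ‖w‖ ≤ B := by
    obtain ⟨B, hB⟩ := ((P x).roots.finite_toSet.image fun w => ‖w‖).bddAbove
    exact ⟨max B 0, le_max_right _ _, fun w hw => (hB ⟨w, hw, rfl⟩).trans (le_max_left _ _)⟩
  set δ : ℝ := min (1 / 2) (ρ / (2 * B + 1)) with hδ
  have hδ0 : 0 < δ := lt_min (by norm_num) (by positivity)
  set ε : ℝ := δ ^ n / (n + 1) with hε
  have hε0 : 0 < ε := by positivity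
  have h1 : ∀ᶠ y in 𝓝 x, ∀ j ∈ Finset.range (n + 1), ‖(P x).coeff j - (P y).coeff j‖ < ε := by
    rw [eventually_all_finset]
    intro j _
    filter_upwards [Metric.tendsto_nhds.1 (hc j) ε hε0] with y hy
    rwa [dist_comm, dist_eq_norm] at hy
  filter_upwards [hP, h1] with y hy hy1 u hu
  have hu0 : (P y).eval u = 0 := (mem_roots hy.1.ne_zero).1 hu
  obtain ⟨b, hb, hub⟩ := exists_roots_norm_sub_lt_of_norm_coeff_sub_lt hε0 hu0 hy.1 hm
    (by rw [hn, hy.2]) (fun j => by
      by_cases hj : j < n + 1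
      · exact hy1 j (Finset.mem_range.2 hj)
      · rw [coeff_eq_zero_of_natDegree_lt (by omega), coeff_eq_zero_of_natDegree_lt (by omega)]
        simpa using hε0) (IsAlgClosed.splits _)
  refine ⟨b, hb, ?_⟩
  have h2 : ((n : ℝ) + 1) * ε = δ ^ n := by rw [hε]; field_simp
  rw [hy.2, h2, Real.pow_rpow_inv_natCast hδ0.le hpos.ne'] at hub
  have h3 : ‖u‖ ≤ ‖u - b‖ + B := by
    have := norm_add_le (u - b) b
    rw [sub_add_cancel] at this
    linarith [hB b hb]
  have h4 : δ ≤ 1 / 2 := min_le_left _ _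
  have h5 : δ ≤ ρ / (2 * B + 1) := min_le_right _ _
  have h6 : max ‖u‖ 1 ≤ 2 * B + 1 := by
    rcases le_total ‖u‖ 1 with h | h
    · rw [max_eq_right h]; linarith
    · rw [max_eq_left h] at hub ⊢
      nlinarith
  rw [mem_ball, dist_eq_norm]
  calc ‖u - b‖ < δ * max ‖u‖ 1 := hub
    _ ≤ ρ / (2 * B + 1) * (2 * B + 1) := by gcongr
    _ = ρ := by field_simp

theorem an_eval_poly {P : F → ℂ[X]} {n : ℕ} {y : F} (hP : ∀ᶠ t in 𝓝 y, (P t).natDegree ≤ n)
    (hc : ∀ j, AnalyticAt ℂ (fun t => (P t).coeff j) y) (ζ : ℂ) :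
    AnalyticAt ℂ (fun p : F × ℂ => (P p.1).eval p.2) (y, ζ) := by
  have h1 : AnalyticAt ℂ (fun p : F × ℂ => ∑ j ∈ Finset.range (n + 1), (P p.1).coeff j * p.2 ^ j)
      (y, ζ) := by
    refine Finset.analyticAt_fun_sum _ fun j _ => AnalyticAt.mul ?_ (analyticAt_snd.pow j)
    exact AnalyticAt.comp (g := fun t => (P t).coeff j) (f := Prod.fst) (hc j) analyticAt_fst
  refine h1.congr ?_
  filter_upwards [continuous_fst.continuousAt.eventually (show ∀ᶠ t in 𝓝 (y, ζ).1,
    (P t).natDegree ≤ n from hP)] with p hp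
  rw [eval_eq_sum_range' (Nat.lt_succ_of_le hp)]

/-- the roots of a monic polynomial with holomorphic coefficients -/
theorem hf_roots [FiniteDimensional ℂ F] {P : F → ℂ[X]} {n : ℕ} {U : Set F} (hU : IsOpen U)
    (hP : ∀ y ∈ U, (P y).Monic ∧ (P y).natDegree = n)
    (hc : ∀ j, AnalyticOnNhd ℂ (fun y => (P y).coeff j) U) (hz : z ∈ U) :
    HF (fun y => (P y).roots) z := by
  classical
  intro f hf
  set T : Finset ℂ := (P z).roots.toFinset with hT
  obtain ⟨ρ, hρ, hsep, hfa⟩ : ∃ ρ : ℝ, 0 < ρ ∧ (∀ w ∈ T, ∀ w' ∈ T, w ≠ w' → 2 * ρ ≤ dist w w') ∧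
      ∀ w ∈ T, AnalyticOnNhd ℂ f (ball (z, w) (2 * ρ)) := by
    have h1 : ∀ᶠ ρ : ℝ in 𝓝[>] 0, ∀ w ∈ T, ∀ w' ∈ T, w ≠ w' → 2 * ρ ≤ dist w w' := by
      simp only [eventually_all_finset]
      intro w _ w' _
      by_cases hne : w = w'
      · exact Eventually.of_forall fun _ h => (h hne).elim
      · have h2 : 0 < dist w w' / 2 := half_pos (dist_pos.2 hne)
        filter_upwards [mem_nhdsWithin_of_mem_nhds (Iio_mem_nhds h2)] with ρ hρ _
        rw [mem_Iio] at hρ
        linarith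
    have h2 : ∀ᶠ ρ : ℝ in 𝓝[>] 0, ∀ w ∈ T, AnalyticOnNhd ℂ f (ball (z, w) (2 * ρ)) := by
      simp only [eventually_all_finset]
      intro w hw
      obtain ⟨ε, hε, hb⟩ := Metric.eventually_nhds_iff_ball.1
        (hf w (Multiset.mem_toFinset.1 hw)).eventually_analyticAt
      filter_upwards [mem_nhdsWithin_of_mem_nhds (Iio_mem_nhds (half_pos hε))] with ρ hρ p hp
      rw [mem_Iio] at hρ
      exact hb p (ball_subset_ball (by linarith) hp)
    obtain ⟨ρ, ⟨h3, h4⟩, h5⟩ := ((h1.and h2).and self_mem_nhdsWithin).exists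
    exact ⟨ρ, h5, h3, h4⟩
  have hnear := roots_near (P := P) (n := n) (x := z)
    (mem_of_superset (hU.mem_nhds hz) hP) (fun j => (hc j z hz).continuousAt) hρ
  obtain ⟨V, hVs, hV, hzV⟩ := _root_.mem_nhds_iff.1
    (hnear.and (inter_mem (hU.mem_nhds hz) (ball_mem_nhds z hρ)))
  have hnV : ∀ y ∈ V, ∀ u ∈ (P y).roots, ∃ w ∈ T, u ∈ ball w ρ := fun y hy u hu => by
    obtain ⟨w, hw, h⟩ := (hVs hy).1 u hu
    exact ⟨w, Multiset.mem_toFinset.2 hw, h⟩
  have hne : ∀ y ∈ V, ∀ w ∈ T, ∀ ζ ∈ sphere w ρ, (P y).eval ζ ≠ 0 := by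
    intro y hy w hw ζ hζ h0
    obtain ⟨w', hw', hu⟩ := hnV y hy ζ ((mem_roots (hP y (hVs hy).2.1).1.ne_zero).2 h0)
    by_cases hww : w = w'
    · subst hww
      exact (mem_ball.1 hu).ne (mem_sphere.1 hζ)
    · have h1 := hsep w hw w' hw' hww
      have h2 := dist_triangle_left w w' ζ
      rw [mem_ball] at hu
      rw [mem_sphere] at hζ
      linarith
  have hfV : ∀ y ∈ V, ∀ w ∈ T, ∀ ζ ∈ closedBall w ρ, AnalyticAt ℂ f (y, ζ) := by
    intro y hy w hw ζ hζ
    refine hfa w hw _ ?_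
    rw [← ball_prod_same]
    exact ⟨ball_subset_ball (by linarith) (hVs hy).2.2, closedBall_subset_ball (by linarith) hζ⟩
  set Q : F × ℂ → ℂ := fun p => (P p.1).derivative.eval p.2 / (P p.1).eval p.2 * f p with hQ
  have hQa : ∀ y ∈ V, ∀ w ∈ T, ∀ ζ ∈ sphere w ρ, AnalyticAt ℂ Q (y, ζ) := by
    intro y hy w hw ζ hζ
    have hyU := (hVs hy).2.1
    have hdeg : ∀ᶠ t in 𝓝 y, (P t).natDegree ≤ n :=
      mem_of_superset (hU.mem_nhds hyU) fun t ht => (hP t ht).2.le
    refine AnalyticAt.mul (AnalyticAt.div ?_ (an_eval_poly hdeg (fun j => hc j y hyU) ζ)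
      (hne y hy w hw ζ hζ)) (hfV y hy w hw ζ (sphere_subset_closedBall hζ))
    refine an_eval_poly (P := fun t => (P t).derivative) (n := n)
      (hdeg.mono fun t ht => (natDegree_derivative_le _).trans (by omega)) (fun j => ?_) ζ
    simp only [coeff_derivative]
    exact (hc (j + 1) y hyU).mul analyticAt_const
  have hI : ∀ w ∈ T, AnalyticOnNhd ℂ (fun y => ∮ ζ in C(w, ρ), Q (y, ζ)) V := by
    intro w hw
    have hm : ∀ θ : ℝ, circleMap w ρ θ ∈ sphere w ρ := fun θ => circleMap_mem_sphere w hρ.le θ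
    refine R266.SCV.analyticOnNhd_intervalIntegral
      (f := fun p : F × ℝ => deriv (circleMap w ρ) p.2 • Q (p.1, circleMap w ρ p.2)) hV ?_ ?_
    · intro p hp
      refine ContinuousAt.continuousWithinAt (ContinuousAt.fun_smul ?_ ?_)
      · simp only [deriv_circleMap]
        fun_prop
      · exact ContinuousAt.comp (g := Q) (f := fun p : F × ℝ => (p.1, circleMap w ρ p.2))
          (hQa _ hp.1 w hw _ (hm _)).continuousAt (by fun_prop)
    · intro θ _ y hy
      refine DifferentiableAt.differentiableWithinAt 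
        (DifferentiableAt.fun_const_smul (f := fun x : F => Q (x, circleMap w ρ θ)) ?_
          (deriv (circleMap w ρ) θ))
      exact DifferentiableAt.comp (g := Q) (f := fun y : F => (y, circleMap w ρ θ)) y
        (hQa _ hy w hw _ (hm _)).differentiableAt (by fun_prop)
  have h1 : AnalyticAt ℂ (fun y => (2 * π * Complex.I : ℂ)⁻¹ *
      ∑ w ∈ T, ∮ ζ in C(w, ρ), Q (y, ζ)) z :=
    analyticAt_const.mul (Finset.analyticAt_fun_sum _ fun w hw => hI w hw z hzV)
  refine h1.congr ?_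
  filter_upwards [hV.mem_nhds hzV] with y hy
  have h2 := circle_sum hρ hsep (g := fun ζ => f (y, ζ)) (fun w hw ζ hζ =>
    (DifferentiableAt.comp (g := f) (f := fun ζ : ℂ => (y, ζ)) ζ
      (hfV y hy w hw ζ hζ).differentiableAt (by fun_prop)).differentiableWithinAt)
    (P y).roots (hnV y hy)
  have h3 : ∀ w ∈ T, (∮ ζ in C(w, ρ), Q (y, ζ)) =
      ∮ ζ in C(w, ρ), ((P y).roots.map fun u => 1 / (ζ - u)).sum * f (y, ζ) := by
    intro w hw
    refine circleIntegral.integral_congr hρ.le fun ζ hζ => ?_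
    simp only [hQ]
    rw [(IsAlgClosed.splits _).eval_derivative_div_eval_of_ne_zero (hne y hy w hw ζ hζ)]
  rw [Finset.sum_congr rfl h3, h2, inv_mul_cancel_left₀ Complex.two_pi_I_ne_zero]

end

end Crest.Agent.X261.Ans
end

-- ▼ part X261/Ans/Box
section

/-!
# X261/Ans/Box (helper8): finite projections

`locfin`: at a point which is isolated in its fibre, an analytic set of `F × G` lies in the support
of a holomorphic family of multisets.  `PBox`: the same data on a product of balls.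
-/

set_option autoImplicit false
set_option linter.unusedSectionVars false

open Set Filter Topology Metric Polynomial Module

namespace Crest.Agent.X261.Ans

noncomputable section

variable {F G : Type} [NormedAddCommGroup F] [NormedSpace ℂ F] [FiniteDimensional ℂ F]
  [NormedAddCommGroup G] [NormedSpace ℂ G] [FiniteDimensional ℂ G]

/-- finite projection data on `V × B` -/
structure PBox (Z : Set (F × G)) (V : Set F) (B : Set G) (α : F → Multiset G) : Prop where
  hf : ∀ z ∈ V, HF α z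
  sub : ∀ z ∈ V, ∀ w ∈ α z, w ∈ B
  cut : Cut (V ×ˢ B) Z
  cov : ∀ z ∈ V, ∀ w ∈ B, (z, w) ∈ Z → w ∈ α z

/-- the projection of a box is analytic -/
theorem PBox.proj {Z : Set (F × G)} {V : Set F} {B : Set G} {α : F → Multiset G}
    (h : PBox Z V B α) : Cut V {z | ∃ w ∈ B, (z, w) ∈ Z} := by
  intro y hy hyZ
  obtain ⟨f, hf, hf0⟩ := h.cut.exists_ne (T := (fun w => (y, w)) '' {w | w ∈ α y})
    ((α y).finite_toSet.image _) (by
      rintro _ ⟨w, hw, rfl⟩
      exact ⟨⟨hy, h.sub y hy w hw⟩, fun hZ => hyZ ⟨w, h.sub y hy w hw, hZ⟩⟩)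
  refine ⟨fun z => ((α z).map fun w => f (z, w)).prod, ⟨fun z hz => ?_, ?_⟩, ?_⟩
  · exact (h.hf z hz).prod fun w hw => hf.1 _ ⟨hz, h.sub z hz w hw⟩
  · rintro z hz ⟨w, hw, hZ⟩
    exact Multiset.prod_eq_zero (Multiset.mem_map.2 ⟨w, h.cov z hz w hw hZ, hf.2 _ ⟨hz, hw⟩ hZ⟩)
  · intro h0
    obtain ⟨w, hw, h1⟩ := Multiset.mem_map.1 (Multiset.prod_eq_zero_iff.1 h0)
    exact hf0 _ ⟨w, hw, rfl⟩ h1

theorem PBox.sub_set {Z Z' : Set (F × G)} {V : Set F} {B : Set G} {α : F → Multiset G}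
    (h : PBox Z V B α) (hc : Cut (V ×ˢ B) Z') (hZ : ∀ p ∈ V ×ˢ B, p ∈ Z' → p ∈ Z) :
    PBox Z' V B α :=
  ⟨h.hf, h.sub, hc, fun z hz w hw hp => h.cov z hz w hw (hZ _ ⟨hz, hw⟩ hp)⟩

/-- boxes from germs -/
theorem exists_pbox {Z : Set (F × G)} {a : F} {b : G} (hZ : AnAt Z (a, b))
    {α : F → Multiset G} (h1 : ∀ᶠ z in 𝓝 a, HF α z) (h2 : ∀ w ∈ α a, w = b)
    (h3 : ∀ᶠ p in 𝓝 (a, b), p ∈ Z → p.2 ∈ α p.1) {N : Set (F × G)} (hN : N ∈ 𝓝 (a, b)) :
    ∃ s r : ℝ, 0 < s ∧ 0 < r ∧ s ≤ r ∧ ball a r ×ˢ ball b r ⊆ N ∧ PBox Z (ball a s) (ball b r) α ∧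
      ∀ z ∈ ball a s, ∀ w ∈ α z, w ∈ ball b (r / 2) := by
  obtain ⟨r, hr, hrN, hc⟩ := hZ.exists_ball (inter_mem hN h3)
  rw [← ball_prod_same] at hrN hc
  have h4 := h1.self_of_nhds.usc' (N := ball b (r / 2)) fun w hw => by
    rw [h2 w hw]
    exact ball_mem_nhds b (half_pos hr)
  obtain ⟨s, hs, hb⟩ := Metric.eventually_nhds_iff_ball.1 (h1.and h4)
  have hsub : ball a (min s r) ×ˢ ball b r ⊆ ball a r ×ˢ ball b r :=
    prod_mono (ball_subset_ball (min_le_right _ _)) Subset.rfl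
  have hb' : ∀ z ∈ ball a (min s r), HF α z ∧ ∀ w ∈ α z, w ∈ ball b (r / 2) := fun z hz =>
    hb z (ball_subset_ball (min_le_left _ _) hz)
  refine ⟨min s r, r, lt_min hs hr, hr, min_le_right _ _, fun p hp => (hrN hp).1,
    ⟨fun z hz => (hb' z hz).1, fun z hz w hw => ball_subset_ball (by linarith) ((hb' z hz).2 w hw),
      hc.mono hsub, fun z hz w hw hp => (hrN (hsub ⟨hz, hw⟩)).2 hp⟩, fun z hz => (hb' z hz).2⟩

/-- one-dimensional fibre -/
theorem locfin_one {Z : Set (F × ℂ)} {a : F} (hZ : AnAt Z (a, 0))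
    (hiso : ∀ᶠ w in 𝓝[≠] (0 : ℂ), (a, w) ∉ Z) :
    ∃ β : F → Multiset ℂ, (∀ᶠ z in 𝓝 a, HF β z) ∧ (∀ w ∈ β a, w = 0) ∧
      ∀ᶠ p in 𝓝 (a, (0 : ℂ)), p ∈ Z → p.2 ∈ β p.1 := by
  obtain ⟨r, hr, -, hc⟩ := hZ.exists_ball univ_mem
  obtain ⟨t, ht, htr⟩ := (hiso.and (mem_nhdsWithin_of_mem_nhds (ball_mem_nhds (0 : ℂ) hr))).exists
  have hmem : ∀ w ∈ ball (0 : ℂ) r, (a, w) ∈ ball (a, (0 : ℂ)) r := fun w hw => by
    rw [← ball_prod_same]
    exact ⟨mem_ball_self hr, hw⟩
  obtain ⟨f, hf, hf0⟩ := hc (a, t) (hmem t htr) ht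
  have hfa : AnalyticOnNhd ℂ (fun w => f (a, w)) (ball 0 r) := fun w hw =>
    AnalyticAt.comp (g := f) (f := fun w : ℂ => (a, w)) (hf.1 _ (hmem w hw))
      (analyticAt_const.prod analyticAt_id)
  have htop : analyticOrderAt (fun w => f (a, w)) 0 ≠ ⊤ := by
    intro h
    rw [analyticOrderAt_eq_top] at h
    exact hf0 (hfa.eqOn_zero_of_preconnected_of_eventuallyEq_zero (convex_ball 0 r).isPreconnected
      (mem_ball_self hr) h htr)
  obtain ⟨n, hn⟩ := ENat.ne_top_iff_exists.1 htop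
  have hf1 : AnalyticAt ℂ f (a, 0) := hf.1 _ (mem_ball_self hr)
  obtain ⟨q, c, hq, hca, hdiv⟩ := R275.Loc2879.wdiv (g := fun p => p.2 ^ n) hf1 hn.symm
    (analyticAt_snd.pow n)
  set Rm : F → ℂ[X] := fun y => ∑ j : Fin n, C (c j y) * X ^ (j : ℕ) with hRm
  have hdeg : ∀ y, (Rm y).degree < n := fun y => degree_sum_fin_lt _
  have hev : ∀ y w, (Rm y).eval w = ∑ j : Fin n, c j y * w ^ (j : ℕ) := fun y w => by
    simp [hRm, eval_finsetSum]
  set P : F → ℂ[X] := fun y => X ^ n - Rm y with hP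
  have hPm : ∀ y, (P y).Monic ∧ (P y).natDegree = n := fun y => by
    have h1 : (P y).Monic := monic_X_pow_sub (hdeg y)
    refine ⟨h1, natDegree_eq_of_degree_eq_some ?_⟩
    rw [hP, degree_sub_eq_left_of_degree_lt (by rw [degree_X_pow]; exact hdeg y), degree_X_pow]
  have hR0 : Rm a = 0 := by
    obtain ⟨U, hU, -, hUe⟩ := ((hfa 0 (mem_ball_self hr)).analyticOrderAt_eq_natCast).1 hn.symm
    have hqa : ContinuousAt (fun w : ℂ => q (a, w)) 0 :=
      ContinuousAt.comp (g := q) (f := fun w : ℂ => (a, w)) hq.continuousAt (by fun_prop)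
    refine R275.Loc2879.poly_eq_zero (h := fun w => 1 - q (a, w) * U w) (hdeg a)
      (continuousAt_const.sub (hqa.mul hU.continuousAt)) ?_
    have h2 : Tendsto (fun w : ℂ => (a, w)) (𝓝 0) (𝓝 (a, 0)) :=
      (by fun_prop : Continuous fun w : ℂ => (a, w)).continuousAt
    filter_upwards [mem_nhdsWithin_of_mem_nhds (h2.eventually hdiv),
      mem_nhdsWithin_of_mem_nhds hUe] with w h3 h4
    simp only [sub_zero, smul_eq_mul] at h3 h4
    rw [h4] at h3
    rw [hev]
    linear_combination -h3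
  have hU : IsOpen {y | ∀ j, AnalyticAt ℂ (c j) y} := by
    rw [ofPred_forall]
    exact isOpen_iInter_of_finite fun j => isOpen_analyticAt ℂ (c j)
  refine ⟨fun y => (P y).roots, ?_, ?_, ?_⟩
  · filter_upwards [hU.mem_nhds hca] with z hz
    refine hf_roots hU (fun y _ => hPm y) (fun j y hy => ?_) hz
    simp only [hP, hRm, coeff_sub, finsetSum_coeff, coeff_C_mul]
    exact analyticAt_const.sub
      (Finset.analyticAt_fun_sum _ fun i _ => (hy i).mul analyticAt_const)
  · intro w hw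
    simp only [hP, hR0, sub_zero, roots_X_pow] at hw
    exact Multiset.mem_singleton.1 (Multiset.mem_of_mem_nsmul hw)
  · filter_upwards [hdiv, ball_mem_nhds _ hr] with p hp hpr hpZ
    rw [mem_roots (hPm _).1.ne_zero, IsRoot.def, hP]
    simp only [eval_sub, eval_pow, eval_X, hev]
    rw [hf.2 p hpr hpZ] at hp
    linear_combination hp

theorem locfin_aux (k : ℕ) : ∀ (F G : Type) [NormedAddCommGroup F] [NormedSpace ℂ F]
    [FiniteDimensional ℂ F] [NormedAddCommGroup G] [NormedSpace ℂ G] [FiniteDimensional ℂ G],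
    finrank ℂ G = k → ∀ (Z : Set (F × G)) (a : F) (b : G), AnAt Z (a, b) →
    (∀ᶠ w in 𝓝[≠] b, (a, w) ∉ Z) →
    ∃ α : F → Multiset G, (∀ᶠ z in 𝓝 a, HF α z) ∧ (∀ w ∈ α a, w = b) ∧
      ∀ᶠ p in 𝓝 (a, b), p ∈ Z → p.2 ∈ α p.1 := by
  induction k with
  | zero =>
    intro F G _ _ _ _ _ _ hk Z a b _ _
    have : Subsingleton G := finrank_zero_iff.1 hk
    refine ⟨fun _ => ({()} : Multiset Unit).map fun _ => b, Eventually.of_forall fun z => ?_,
      fun w _ => Subsingleton.elim _ _, Eventually.of_forall fun p _ => ?_⟩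
    · exact hf_sections (S := fun _ _ => b) _ fun _ _ => analyticAt_const
    · simp [Subsingleton.elim p.2 b]
  | succ k ih =>
    intro F G _ _ _ _ _ _ hk Z a b hZ hiso
    let e : G ≃L[ℂ] ((Fin k → ℂ) × ℂ) := ContinuousLinearEquiv.ofFinrankEq (by simp [hk])
    set b' := (e b).1 with hb'
    set c := (e b).2 with hc
    let φ : (Fin k → ℂ) × ℂ → G := fun p => e.symm (p.1, p.2 + c)
    have hφa : ∀ p, AnalyticAt ℂ φ p := fun p =>
      AnalyticAt.comp (g := e.symm) (f := fun p : (Fin k → ℂ) × ℂ => (p.1, p.2 + c))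
        (e.symm.analyticAt _) (analyticAt_fst.prod (analyticAt_snd.add analyticAt_const))
    have hφ0 : φ (b', 0) = b := by simp [φ, hb', hc]
    have hφi : ∀ p, φ p = b → p = (b', 0) := by
      intro p hp
      have h1 : (p.1, p.2 + c) = e b := by rw [← hp]; simp [φ]
      have h2 := congrArg Prod.fst h1
      have h3 := congrArg Prod.snd h1
      simp only at h2 h3
      exact Prod.ext h2 (by rw [← hc] at h3; linear_combination h3)
    let ψ : (F × (Fin k → ℂ)) × ℂ → F × G := fun q => (q.1.1, φ (q.1.2, q.2))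
    have hψa : ∀ q, AnalyticAt ℂ ψ q := fun q =>
      (analyticAt_fst.comp analyticAt_fst).prod
        (AnalyticAt.comp (g := φ) (f := fun q : (F × (Fin k → ℂ)) × ℂ => (q.1.2, q.2)) (hφa _)
          ((analyticAt_snd.comp analyticAt_fst).prod analyticAt_snd))
    have hψ0 : ψ ((a, b'), 0) = (a, b) := by simp only [ψ, hφ0]
    have hZ1 : AnAt (ψ ⁻¹' Z) ((a, b'), 0) := AnAt.preimage (hψa _) (by rw [hψ0]; exact hZ)
    have hN : ∀ᶠ q in 𝓝 (((a, b'), 0) : (F × (Fin k → ℂ)) × ℂ),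
        φ (q.1.2, q.2) ≠ b → (a, φ (q.1.2, q.2)) ∉ Z := by
      have h1 : Tendsto (fun q : (F × (Fin k → ℂ)) × ℂ => φ (q.1.2, q.2)) (𝓝 ((a, b'), 0))
          (𝓝 b) := by
        have := (hψa ((a, b'), 0)).continuousAt.snd
        rw [ContinuousAt, hψ0] at this
        exact this
      exact h1.eventually (eventually_nhdsWithin_iff.1 hiso)
    obtain ⟨β, hβ1, hβ2, hβ3⟩ := locfin_one hZ1 (by
      have h1 : Tendsto (fun w : ℂ => (((a, b'), w) : (F × (Fin k → ℂ)) × ℂ)) (𝓝 0)
          (𝓝 ((a, b'), 0)) := (by fun_prop : Continuous fun w : ℂ =>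
            (((a, b'), w) : (F × (Fin k → ℂ)) × ℂ)).continuousAt
      rw [eventually_nhdsWithin_iff]
      filter_upwards [h1.eventually hN] with w hw hw0
      refine hw fun h => hw0 ?_
      exact congrArg Prod.snd (hφi _ h))
    obtain ⟨s, r, hs, hr, hsr, hsub, hbox, -⟩ := exists_pbox hZ1 hβ1 hβ2 hβ3 hN
    have hZ2 := hbox.proj.anAt (ball_mem_nhds (a, b') hs)
    obtain ⟨α, hα1, hα2, hα3⟩ := ih F (Fin k → ℂ) (by simp) _ a b' hZ2 (by
      rw [eventually_nhdsWithin_iff]
      filter_upwards [ball_mem_nhds b' hr] with w' hw' hne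
      rintro ⟨w, hw, hp⟩
      have h1 : ((a, w'), w) ∈ ball (a, b') r ×ˢ ball (0 : ℂ) r := by
        refine ⟨?_, hw⟩
        rw [← ball_prod_same]
        exact ⟨mem_ball_self hr, hw'⟩
      refine hsub h1 (fun h => hne ?_) hp
      exact congrArg Prod.fst (hφi _ h))
    refine ⟨fun y => ((α y).bind fun w => (β (y, w)).map fun u => (w, u)).map φ, ?_, ?_, ?_⟩
    · have h1 := hα1.self_of_nhds.usc (N := ball (a, b') s) fun w hw => by
        rw [hα2 w hw]
        exact ball_mem_nhds _ hs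
      filter_upwards [hα1, h1] with z hz hz'
      exact (hz.bind fun w hw => hbox.hf _ (hz' w hw)).map (φ := fun p => φ p.2)
        fun w _ => (hφa _).comp analyticAt_snd
    · intro w hw
      obtain ⟨p, hp, rfl⟩ := Multiset.mem_map.1 hw
      obtain ⟨w', hw', hp⟩ := Multiset.mem_bind.1 hp
      obtain ⟨u, hu, rfl⟩ := Multiset.mem_map.1 hp
      obtain rfl := hα2 w' hw'
      rw [hβ2 u hu, hφ0]
    · let χ : F × G → (F × (Fin k → ℂ)) × ℂ := fun p => ((p.1, (e p.2).1), (e p.2).2 - c)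
      have hχ : Tendsto χ (𝓝 (a, b)) (𝓝 ((a, b'), 0)) := by
        have h1 : Continuous χ := by fun_prop
        have h2 := h1.continuousAt (x := (a, b))
        simpa [ContinuousAt, χ, ← hb', ← hc] using h2
      have hχφ : ∀ p, φ ((χ p).1.2, (χ p).2) = p.2 := fun p => by simp [φ, χ]
      have h3 : ball (a, b') s ×ˢ ball (0 : ℂ) r ∈ 𝓝 (((a, b'), 0) : (F × (Fin k → ℂ)) × ℂ) :=
        prod_mem_nhds (ball_mem_nhds _ hs) (ball_mem_nhds _ hr)
      filter_upwards [hχ.eventually h3, ((continuous_fst.tendsto _).comp hχ).eventually hα3]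
        with p hp1 hp2 hpZ
      have h4 : χ p ∈ ψ ⁻¹' Z := by
        show ((χ p).1.1, φ ((χ p).1.2, (χ p).2)) ∈ Z
        rw [hχφ]
        exact hpZ
      refine Multiset.mem_map.2 ⟨((χ p).1.2, (χ p).2), Multiset.mem_bind.2 ⟨(χ p).1.2,
        hp2 ⟨(χ p).2, hp1.2, h4⟩, Multiset.mem_map.2 ⟨(χ p).2, ?_, rfl⟩⟩, hχφ p⟩
      exact hbox.cov _ hp1.1 _ hp1.2 h4

/-- **finite projection**, germ form -/
theorem locfin {Z : Set (F × G)} {a : F} {b : G} (hZ : AnAt Z (a, b))
    (hiso : ∀ᶠ w in 𝓝[≠] b, (a, w) ∉ Z) :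
    ∃ α : F → Multiset G, (∀ᶠ z in 𝓝 a, HF α z) ∧ (∀ w ∈ α a, w = b) ∧
      ∀ᶠ p in 𝓝 (a, b), p ∈ Z → p.2 ∈ α p.1 :=
  locfin_aux _ F G rfl Z a b hZ hiso

/-- **finite projection**, box form -/
theorem locbox {Z : Set (F × G)} {a : F} {b : G} (hZ : AnAt Z (a, b))
    (hiso : ∀ᶠ w in 𝓝[≠] b, (a, w) ∉ Z) {N : Set (F × G)} (hN : N ∈ 𝓝 (a, b)) :
    ∃ (s r : ℝ) (α : F → Multiset G), 0 < s ∧ 0 < r ∧ s ≤ r ∧ ball a r ×ˢ ball b r ⊆ N ∧
      PBox Z (ball a s) (ball b r) α ∧ (∀ z ∈ ball a s, ∀ w ∈ α z, w ∈ ball b (r / 2)) ∧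
      ∀ w ∈ α a, w = b := by
  obtain ⟨α, h1, h2, h3⟩ := locfin hZ hiso
  obtain ⟨s, r, k1, k2, k3, k4, k5, k6⟩ := exists_pbox hZ h1 h2 h3 hN
  exact ⟨s, r, α, k1, k2, k3, k4, k5, k6, h2⟩

end

end Crest.Agent.X261.Ans
end

-- ▼ part X261/Ans/Str

/-!
# X261/Ans/Str (helper8): sheets

Off the zero set of one holomorphic function of the base, an analytic set in a box is a finite
union of disjoint holomorphic sheets.
-/

set_option autoImplicit false
set_option linter.unusedSectionVars false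

open Set Filter Topology Metric Polynomial Module

namespace Crest.Agent.X261.Ans

noncomputable section

variable {F G : Type} [NormedAddCommGroup F] [NormedSpace ℂ F] [FiniteDimensional ℂ F]
  [NormedAddCommGroup G] [NormedSpace ℂ G] [FiniteDimensional ℂ G]

/-- unramified point of a family -/
def Unr (α : F → Multiset G) (z : F) : Prop :=
  ∃ S : G → F → G, (∀ w ∈ α z, AnalyticAt ℂ (S w) z ∧ S w z = w) ∧
    ∀ᶠ y in 𝓝 z, α y = (α z).map fun w => S w y

/-- over a neighbourhood of `z`, the part of `Z` in `B` is a finite union of holomorphic sheets -/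
def Sheets (Z : Set (F × G)) (B : Set G) (z : F) : Prop :=
  ∃ (T : Finset G) (S : G → F → G), (∀ w ∈ T, AnalyticAt ℂ (S w) z ∧ S w z = w) ∧
    ∀ᶠ y in 𝓝 z, ∀ u, (u ∈ B ∧ (y, u) ∈ Z) ↔ ∃ w ∈ T, S w y = u

/-- a linear form which vanishes at no point of a finite set of nonzero vectors -/
theorem exists_dual_ne {T : Set G} (hT : T.Finite) (h0 : ∀ v ∈ T, v ≠ 0) :
    ∃ μ : G →L[ℂ] ℂ, ∀ v ∈ T, μ v ≠ 0 := by
  induction T, hT using Set.Finite.induction_on with
  | empty => exact ⟨0, fun _ h => h.elim⟩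
  | @insert a s _ hs ih =>
    obtain ⟨f, hf0⟩ := ih fun y hy => h0 y (mem_insert_of_mem _ hy)
    obtain ⟨g, -, hg⟩ := exists_dual_vector ℂ a (norm_ne_zero_iff.2 (h0 a (mem_insert _ _)))
    have hg0 : g a ≠ 0 := by
      rw [hg]
      exact RCLike.ofReal_ne_zero.2 (norm_ne_zero_iff.2 (h0 a (mem_insert _ _)))
    have hfin : ((fun y => - f y / g y) '' insert a s).Finite := (hs.insert a).image _
    obtain ⟨t, ht⟩ := hfin.infinite_compl.nonempty
    refine ⟨f + t • g, ?_⟩
    intro y hy h0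
    simp only [add_apply, smul_apply, smul_eq_mul] at h0
    by_cases hgy : g y = 0
    · rcases hy with rfl | hy
      · exact hg0 hgy
      · apply hf0 y hy
        simpa [hgy] using h0
    · apply ht
      refine ⟨y, hy, ?_⟩
      field_simp
      linear_combination -h0

theorem exists_dual_inj {T : Set G} (hT : T.Finite) : ∃ μ : G →L[ℂ] ℂ, InjOn μ T := by
  obtain ⟨μ, hμ⟩ := exists_dual_ne (T := {v | v ∈ image2 (· - ·) T T ∧ v ≠ 0})
    ((hT.image2 _ hT).subset fun v hv => hv.1) fun v hv => hv.2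
  refine ⟨μ, fun a ha b hb hab => ?_⟩
  by_contra hne
  exact hμ (a - b) ⟨mem_image2_of_mem ha hb, sub_ne_zero.2 hne⟩ (by rw [map_sub, hab, sub_self])

theorem exists_sep {X : Type*} [MetricSpace X] {T : Set X} (hT : T.Finite) :
    ∃ ρ : ℝ, 0 < ρ ∧ ∀ w ∈ T, ∀ w' ∈ T, w ≠ w' → 2 * ρ < dist w w' := by
  have h1 : ∀ᶠ ρ : ℝ in 𝓝[>] 0, ∀ w ∈ T, ∀ w' ∈ T, w ≠ w' → 2 * ρ < dist w w' := by
    rw [eventually_all_finite hT]
    intro w _
    rw [eventually_all_finite hT]
    intro w' _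
    by_cases hne : w = w'
    · exact Eventually.of_forall fun _ h => (h hne).elim
    · have h2 : 0 < dist w w' / 2 := half_pos (dist_pos.2 hne)
      filter_upwards [mem_nhdsWithin_of_mem_nhds (Iio_mem_nhds h2)] with ρ hρ _
      rw [mem_Iio] at hρ
      linarith
  obtain ⟨ρ, h3, h5⟩ := (h1.and self_mem_nhdsWithin).exists
  exact ⟨ρ, h5, h3⟩

theorem coeff_of_psum {s : F → Multiset ℂ} {z : F}
    (hp : ∀ j, AnalyticAt ℂ (fun y => ((s y).map fun a => a ^ j).sum) z) (k : ℕ) :
    AnalyticAt ℂ (fun y => (chi (s y)).coeff k) z := by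
  have hcard : ∀ᶠ y in 𝓝 z, (s y).card = (s z).card := by
    refine nat_eventually_eq (g := fun y => (s y).card) ?_
    simpa using (hp 0).continuousAt
  by_cases hk : k ≤ (s z).card
  · obtain ⟨P, hP⟩ := newton_ms ((s z).card - k)
    have h1 := (analyticAt_const (v := (-1 : ℂ) ^ ((s z).card - k))).mul (an_eval hp P)
    refine h1.congr ?_
    filter_upwards [hcard] with y hy
    show _ = (chi _).coeff k
    rw [chi, Multiset.prod_X_sub_C_coeff _ (hy ▸ hk), hy, ← hP]
    rfl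
  · refine (analyticAt_const (v := (0 : ℂ))).congr ?_
    filter_upwards [hcard] with y hy
    refine (coeff_eq_zero_of_natDegree_lt ?_).symm
    rw [chi_natDegree, hy]
    omega

theorem sum_add_pow (s : Multiset ℂ) (a : ℂ) (k : ℕ) : (s.map fun b => (a + b) ^ k).sum =
    ∑ m ∈ Finset.range (k + 1), a ^ m * (s.map fun b => b ^ (k - m)).sum * (k.choose m : ℂ) := by
  induction s using Multiset.induction_on with
  | empty => simp
  | cons b s ih =>
    rw [Multiset.map_cons, Multiset.sum_cons, ih, add_pow]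
    simp only [Multiset.map_cons, Multiset.sum_cons, mul_add, add_mul, Finset.sum_add_distrib]

/-- the multiset of differences -/
def difs (μ : G →L[ℂ] ℂ) (s : Multiset G) : Multiset ℂ :=
  s.bind fun w => s.map fun w' => μ w - μ w'

theorem HF.difs_coeff {α : F → Multiset G} {z : F} (h : HF α z) (μ : G →L[ℂ] ℂ) (k : ℕ) :
    AnalyticAt ℂ (fun y => (chi (difs μ (α y))).coeff k) z := by
  refine coeff_of_psum (fun j => ?_) k
  have hμ : ∀ p : F × G, AnalyticAt ℂ (fun p : F × G => μ p.2) p := fun p =>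
    (μ.analyticAt _).comp analyticAt_snd
  have h1 := h (fun p => ∑ m ∈ Finset.range (j + 1), μ p.2 ^ m *
      (((α p.1).map fun w => (- μ w) ^ (j - m)).sum) * (j.choose m : ℂ)) (fun w _ => by
    refine Finset.analyticAt_fun_sum _ fun m _ => (((hμ _).pow m).mul ?_).mul analyticAt_const
    exact AnalyticAt.comp (g := fun y => ((α y).map fun w => (- μ w) ^ (j - m)).sum)
      (f := Prod.fst) (h (fun p => (- μ p.2) ^ (j - m)) fun w _ => (hμ _).neg.pow _)
      analyticAt_fst)
  refine h1.congr (Eventually.of_forall fun y => ?_)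
  beta_reduce
  rw [difs, Multiset.map_bind, Multiset.sum_bind]
  congr 1
  refine Multiset.map_congr rfl fun w _ => ?_
  have h2 := sum_add_pow ((α y).map fun w => - μ w) (μ w) j
  simp only [Multiset.map_map, Function.comp_def] at h2 ⊢
  rw [← h2]
  simp only [sub_eq_add_neg]

open Classical in
/-- the number of coincidences -/
def nco (s : Multiset G) : ℕ := (s.map fun w => s.count w).sum

open Classical in
theorem count_difs (μ : G →L[ℂ] ℂ) (s : Multiset G) :
    (difs μ s).count 0 = (s.map fun w => (s.filter fun w' => μ w = μ w').card).sum := by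
  rw [difs, Multiset.count_bind]
  congr 1
  refine Multiset.map_congr rfl fun w _ => ?_
  rw [Multiset.count_map]
  congr 1
  exact Multiset.filter_congr fun w' _ => by rw [eq_comm, sub_eq_zero]

theorem nco_le (μ : G →L[ℂ] ℂ) (s : Multiset G) : nco s ≤ (difs μ s).count 0 := by
  classical
  rw [count_difs, nco]
  refine Multiset.sum_map_le_sum_map _ _ fun w _ => ?_
  rw [Multiset.count_eq_card_filter_eq]
  exact Multiset.card_le_card (Multiset.monotone_filter_right _ fun w' hw' => by rw [hw'])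

theorem nco_eq {μ : G →L[ℂ] ℂ} {s : Multiset G} (h : InjOn μ {w | w ∈ s}) :
    (difs μ s).count 0 = nco s := by
  classical
  rw [count_difs, nco]
  congr 1
  refine Multiset.map_congr rfl fun w hw => ?_
  rw [Multiset.count_eq_card_filter_eq]
  congr 1
  exact Multiset.filter_congr fun w' hw' => ⟨fun h' => h hw hw' h', fun h' => by rw [h']⟩

/-- a local minimum of the number of coincidences is an unramified point -/
theorem HF.unr {α : F → Multiset G} {z : F} (h : HF α z)
    (hmin : ∀ᶠ y in 𝓝 z, nco (α z) ≤ nco (α y)) : Unr α z := by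
  classical
  obtain ⟨ρ, hρ, hsep⟩ := exists_sep (α z).finite_toSet
  have huniq : ∀ w ∈ α z, ∀ w' ∈ α z, ∀ u, u ∈ ball w ρ → u ∈ closedBall w' ρ → w = w' := by
    intro w hw w' hw' u hu hu'
    by_contra hne
    have h1 := hsep w hw w' hw' hne
    have h2 := dist_triangle_left w w' u
    rw [mem_ball] at hu
    rw [mem_closedBall] at hu'
    linarith
  let β : G → F → Multiset G := fun w y => (α y).filter fun u => u ∈ ball w ρ
  have hβ : ∀ w ∈ α z, HF (β w) z := fun w hw =>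
    h.filter (fun p => p.2 ∈ ball w ρ) fun w' hw' => by
      by_cases hww : w' = w
      · subst hww
        exact Or.inl (continuous_snd.continuousAt.preimage_mem_nhds (ball_mem_nhds _ hρ))
      · refine Or.inr (continuous_snd.continuousAt.eventually
          (p := fun u => u ∉ ball w ρ) ?_)
        filter_upwards [ball_mem_nhds w' hρ] with u hu hu'
        exact hww (huniq w' hw' w hw u hu (ball_subset_closedBall hu'))
  have hβz : ∀ w ∈ α z, β w z = Multiset.replicate ((α z).count w) w := by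
    intro w hw
    rw [← Multiset.filter_eq']
    exact Multiset.filter_congr fun u hu => ⟨fun h' =>
      (huniq w hw u hu u h' (mem_closedBall_self hρ.le)).symm, fun h' => h' ▸ mem_ball_self hρ⟩
  let c : G → G := fun u => if h : ∃ w ∈ α z, u ∈ ball w ρ then h.choose else u
  have hc : ∀ w ∈ α z, ∀ u ∈ ball w ρ, c u = w := by
    intro w hw u hu
    have h1 : ∃ w ∈ α z, u ∈ ball w ρ := ⟨w, hw, hu⟩
    simp only [c, dif_pos h1]
    exact huniq _ h1.choose_spec.1 w hw u h1.choose_spec.2 (ball_subset_closedBall hu)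
  have hpos : ∀ w ∈ α z, (((α z).count w : ℕ) : ℂ) ≠ 0 := fun w hw =>
    Nat.cast_ne_zero.2 (Multiset.count_pos.2 hw).ne'
  refine ⟨fun w y => ((((α z).count w : ℕ) : ℂ))⁻¹ • ((β w y).map fun u => u).sum,
    fun w hw => ⟨?_, ?_⟩, ?_⟩
  · exact ((hβ w hw).tr_vec (f := fun p => p.2) fun _ _ => analyticAt_snd).fun_const_smul
  · beta_reduce
    rw [hβz w hw, Multiset.map_id', Multiset.sum_replicate, ← Nat.cast_smul_eq_nsmul ℂ,
      inv_smul_smul₀ (hpos w hw)]
  · have h1 : ∀ᶠ y in 𝓝 z, ∀ w ∈ {w | w ∈ α z}, (β w y).card = (α z).count w := by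
      rw [eventually_all_finite (α z).finite_toSet]
      intro w hw
      filter_upwards [(hβ w hw).card] with y hy
      rw [hy, hβz w hw, Multiset.card_replicate]
    have h2 := h.usc' (N := {u | ∃ w ∈ α z, u ∈ ball w ρ}) fun w hw =>
      mem_of_superset (ball_mem_nhds w hρ) fun u hu => ⟨w, hw, hu⟩
    filter_upwards [h1, h2, hmin] with y hy1 hy2 hy3
    have hcu : ∀ u ∈ α y, c u ∈ α z ∧ u ∈ ball (c u) ρ := fun u hu => by
      obtain ⟨w, hw, huw⟩ := hy2 u hu
      rw [hc w hw u huw]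
      exact ⟨hw, huw⟩
    have h3 : (α y).map c = α z := by
      ext w
      rw [Multiset.count_map]
      by_cases hw : w ∈ α z
      · rw [← hy1 w hw]
        congr 1
        exact Multiset.filter_congr fun u hu => ⟨fun h' => h' ▸ (hcu u hu).2,
          fun h' => (hc w hw u h').symm⟩
      · rw [Multiset.count_eq_zero_of_notMem hw, Multiset.card_eq_zero, Multiset.filter_eq_nil]
        intro u hu h'
        exact hw (h' ▸ (hcu u hu).1)
    have h4 : ∀ u ∈ α y, Multiset.replicate ((α y).count u) u ≤ β (c u) y := fun u hu => by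
      rw [← Multiset.filter_eq']
      exact Multiset.monotone_filter_right _ fun u' hu' => hu' ▸ (hcu u hu).2
    have h5 : ∀ u ∈ α y, (α y).count u ≤ (α z).count (c u) := fun u hu => by
      rw [← hy1 _ (hcu u hu).1]
      simpa using Multiset.card_le_card (h4 u hu)
    have h6 : ∀ u ∈ α y, (α y).count u = (α z).count (c u) := by
      intro u hu
      by_contra hne
      have h7 := Multiset.sum_lt_sum h5 ⟨u, hu, lt_of_le_of_ne (h5 u hu) hne⟩
      have h8 : ((α y).map fun u => (α z).count (c u)).sum = nco (α z) := by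
        rw [nco]
        conv_rhs => rw [← h3, Multiset.map_map, h3]
        rfl
      rw [h8] at h7
      exact absurd hy3 (not_le.2 h7)
    conv_rhs => rw [← h3, Multiset.map_map, h3]
    conv_lhs => rw [← Multiset.map_id' (α y)]
    refine Multiset.map_congr rfl fun u hu => ?_
    have h9 : β (c u) y = Multiset.replicate ((α z).count (c u)) u := by
      rw [← h6 u hu]
      refine (Multiset.eq_of_le_of_card_le (h4 u hu) ?_).symm
      rw [Multiset.card_replicate, hy1 _ (hcu u hu).1, h6 u hu]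
    simp only [Function.comp_def]
    rw [h9, Multiset.map_id', Multiset.sum_replicate, ← Nat.cast_smul_eq_nsmul ℂ,
      inv_smul_smul₀ (hpos _ (hcu u hu).1)]

theorem exists_unr {α : F → Multiset G} {V : Set F} (hV : IsOpen V) (hne : V.Nonempty)
    (h : ∀ z ∈ V, HF α z) :
    ∃ δ : F → ℂ, AnalyticOnNhd ℂ δ V ∧ (∃ z ∈ V, δ z ≠ 0) ∧ ∀ z ∈ V, δ z ≠ 0 → Unr α z := by
  obtain ⟨z₀, hz₀, hmin⟩ := (measure fun z => nco (α z)).wf.has_min V hne
  have hmin' : ∀ z ∈ V, nco (α z₀) ≤ nco (α z) := fun z hz => not_lt.1 (hmin z hz)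
  obtain ⟨μ, hμ⟩ := exists_dual_inj (α z₀).finite_toSet
  refine ⟨fun y => (chi (difs μ (α y))).coeff (nco (α z₀)), fun z hz => (h z hz).difs_coeff μ _,
    ⟨z₀, hz₀, ?_⟩, fun z hz h0 => (h z hz).unr ?_⟩
  · beta_reduce
    rw [← nco_eq hμ]
    exact chi_coeff_count _
  · filter_upwards [hV.mem_nhds hz] with y hy
    exact ((nco_le μ _).trans (count_le_of_coeff h0)).trans (hmin' y hy)

/-- **structure of a box** -/
theorem PBox.struct {Z : Set (F × G)} {V : Set F} {B : Set G} {α : F → Multiset G}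
    (h : PBox Z V B α) (hV : IsOpen V) (hc : IsPreconnected V) (hne : V.Nonempty)
    (hB : IsOpen B) :
    ∃ δ : F → ℂ, AnalyticOnNhd ℂ δ V ∧ (∃ z ∈ V, δ z ≠ 0) ∧ ∀ z ∈ V, δ z ≠ 0 → Sheets Z B z := by
  classical
  obtain ⟨δ, hδ, hδ0, hδu⟩ := exists_unr hV hne h.hf
  let n : F → ℕ := fun y => ((α y).filter fun w => (y, w) ∈ Z).card
  obtain ⟨z₀, hz₀, hmin⟩ := (measure n).wf.has_min V hne
  have hmin' : ∀ z ∈ V, n z₀ ≤ n z := fun z hz => not_lt.1 (hmin z hz)
  obtain ⟨f, hf, hf0⟩ := h.cut.exists_ne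
    (T := (fun w => (z₀, w)) '' {w | w ∈ α z₀ ∧ (z₀, w) ∉ Z})
    (((α z₀).finite_toSet.subset fun w hw => hw.1).image _) (by
      rintro _ ⟨w, hw, rfl⟩
      exact ⟨⟨hz₀, h.sub _ hz₀ w hw.1⟩, hw.2⟩)
  have hle : ∀ y ∈ V, n y ≤ ((α y).map fun w => f (y, w)).count 0 := fun y hy => by
    rw [Multiset.count_map]
    refine Multiset.card_le_card (Multiset.le_filter.2 ⟨Multiset.filter_le _ _, fun w hw => ?_⟩)
    rw [Multiset.mem_filter] at hw
    exact (hf.2 _ ⟨hy, h.sub y hy w hw.1⟩ hw.2).symm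
  have heq : ((α z₀).map fun w => f (z₀, w)).count 0 = n z₀ := by
    refine le_antisymm ?_ (hle z₀ hz₀)
    rw [Multiset.count_map]
    refine Multiset.card_le_card (Multiset.le_filter.2 ⟨Multiset.filter_le _ _, fun w hw => ?_⟩)
    rw [Multiset.mem_filter] at hw
    by_contra hn
    exact hf0 _ ⟨w, ⟨hw.1, hn⟩, rfl⟩ hw.2.symm
  let c : F → ℂ := fun y => (chi ((α y).map fun w => f (y, w))).coeff (n z₀)
  have hca : AnalyticOnNhd ℂ c V := fun z hz =>
    (h.hf z hz).coeff (fun w hw => hf.1 _ ⟨hz, h.sub z hz w hw⟩) _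
  have hc0 : c z₀ ≠ 0 := by
    simp only [c]
    rw [← heq]
    exact chi_coeff_count _
  have hn : ∀ y ∈ V, c y ≠ 0 → n y = n z₀ := fun y hy h0 =>
    le_antisymm ((hle y hy).trans (count_le_of_coeff h0)) (hmin' y hy)
  refine ⟨fun y => δ y * c y, fun z hz => (hδ z hz).mul (hca z hz),
    R266.SCV.exists_mul_ne_zero hV hc hδ hca hδ0 ⟨z₀, hz₀, hc0⟩, fun z hz h0 => ?_⟩
  obtain ⟨S, hS, hSe⟩ := hδu z hz (left_ne_zero_of_mul h0)
  have hcz := right_ne_zero_of_mul h0
  refine ⟨((α z).filter fun w => (z, w) ∈ Z).toFinset, S, fun w hw => hS w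
    (Multiset.mem_filter.1 (Multiset.mem_toFinset.1 hw)).1, ?_⟩
  have h1 : ∀ᶠ y in 𝓝 z, ∀ w ∈ {w | w ∈ α z}, (y, S w y) ∈ Z → (z, w) ∈ Z := by
    rw [eventually_all_finite (α z).finite_toSet]
    intro w hw
    by_cases hwZ : (z, w) ∈ Z
    · exact Eventually.of_forall fun _ _ => hwZ
    · have h2 : AnAt Z (z, w) := h.cut.anAt ((hV.prod hB).mem_nhds ⟨hz, h.sub z hz w hw⟩)
      have h3 : Tendsto (fun y => (y, S w y)) (𝓝 z) (𝓝 (z, w)) := by
        have h4 := continuousAt_id.prodMk (hS w hw).1.continuousAt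
        rwa [ContinuousAt, id, (hS w hw).2] at h4
      filter_upwards [h3.eventually (h2.eventually_notMem hwZ)] with y hy hy'
      exact (hy hy').elim
  filter_upwards [hSe, h1, hV.mem_nhds hz, (hca z hz).continuousAt.eventually_ne hcz]
    with y hy1 hy2 hy3 hy4 u
  have h5 : ((α z).filter fun w => (y, S w y) ∈ Z) = (α z).filter fun w => (z, w) ∈ Z := by
    refine Multiset.eq_of_le_of_card_le (Multiset.le_filter.2 ⟨Multiset.filter_le _ _,
      fun w hw => ?_⟩) ?_
    · rw [Multiset.mem_filter] at hw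
      exact hy2 w hw.1 hw.2
    · have h6 : n z = n y := (hn z hz hcz).trans (hn y hy3 hy4).symm
      simp only [n] at h6
      rw [h6, hy1, Multiset.filter_map, Multiset.card_map]
      exact le_rfl
  constructor
  · rintro ⟨hu, huZ⟩
    have h7 := h.cov y hy3 u hu huZ
    rw [hy1] at h7
    obtain ⟨w, hw, rfl⟩ := Multiset.mem_map.1 h7
    exact ⟨w, Multiset.mem_toFinset.2 (Multiset.mem_filter.2 ⟨hw, hy2 w hw huZ⟩), rfl⟩
  · rintro ⟨w, hw, rfl⟩
    rw [Multiset.mem_toFinset, ← h5, Multiset.mem_filter] at hw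
    refine ⟨h.sub y hy3 _ ?_, hw.2⟩
    rw [hy1]
    exact Multiset.mem_map_of_mem _ hw.1

end

end Crest.Agent.X261.Ans
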