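import Crest.Agent.X261.Ans.HkB
import Crest.Agent.X261.Ans.Man1
import Crest.Agent.X261.Ans.Str
import Crest.Agent.X261.Ans.Reg
import Crest.Agent.X261.Ans.Cov2

-- ▼ part X261/Ans/HkC
section

/-!
# Row 261, package ANS (helper14), file `HkC`

Global propagation (`prp_all`, `prp_compact`) and the Harnack inequality (`harnack_loc`, `harnack`)
on a space `Z` with local branched cover models and a dense connected set of one-sheeted points.
-/

set_option autoImplicit false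
set_option linter.dupNamespace false
set_option linter.unusedSectionVars false

open Set Filter Topology Metric

noncomputable section

namespace Crest.Agent.X261.Ans.Hk

open Crest.Agent.X261.Psh

/-- local model of `Z` at `z`, adapted to the family `ψ` with errors `A` -/
structure Model (E F : Type*) [NormedAddCommGroup E] [NormedSpace ℂ E]
    [NormedAddCommGroup F] [NormedSpace ℂ F] {X ι : Type*} [TopologicalSpace X]
    (Z : Set X) (ψ : ι → X → EReal) (A : ι → ℝ) (z : X) where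
  B : BC E F
  e : X → E
  e' : E → X
  V : Set X
  U : Set E
  c : ℝ
  V_open : IsOpen V
  mem : z ∈ V
  maps : ∀ x ∈ Z, x ∈ V → e x ∈ B.Y ∧ e' (e x) = x
  maps' : ∀ y ∈ B.Y, e' y ∈ Z ∧ e' y ∈ V ∧ e (e' y) = y
  cont : ContinuousOn e V
  cont' : ContinuousOn e' B.Y
  ctr : B.π (e z) = B.c
  c_nonneg : 0 ≤ c
  U_open : IsOpen U
  sub : B.Y ⊆ U
  psh : ∀ i, ∃ u, IsPsh U u ∧ ∀ y ∈ B.Y, ψ i (e' y) ≤ u y + ((c * A i : ℝ) : EReal) ∧
    u y ≤ ψ i (e' y) + ((c * A i : ℝ) : EReal)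

variable {E F : Type*} [NormedAddCommGroup E] [NormedSpace ℂ E] [FiniteDimensional ℂ E]
  [NormedAddCommGroup F] [NormedSpace ℂ F] [FiniteDimensional ℂ F]
  {X ι : Type*} [TopologicalSpace X] {Z : Set X} {ψ : ι → X → EReal} {A : ι → ℝ} {z : X}

namespace Model

variable (M : Model E F Z ψ A z)

/-- the inner neighbourhood -/
def inner : Set X := {x | x ∈ M.V ∧ (x ∈ Z → M.B.π (M.e x) ∈ ball M.B.c (M.B.R / 4))}

theorem tendsto_e {x : X} (hx : x ∈ M.V) : Tendsto M.e (𝓝[Z] x) (𝓝[M.B.Y] (M.e x)) := by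
  refine tendsto_nhdsWithin_iff.2 ⟨(M.cont.continuousAt (M.V_open.mem_nhds hx)).tendsto.mono_left
    nhdsWithin_le_nhds, ?_⟩
  filter_upwards [self_mem_nhdsWithin, nhdsWithin_le_nhds (M.V_open.mem_nhds hx)] with y h1 h2
  exact (M.maps y h1 h2).1

theorem inner_mem (hz : z ∈ Z) : M.inner ∈ 𝓝 z := by
  have h1 := (M.B.tendsto_pi (M.maps z hz M.mem).1).comp (M.tendsto_e M.mem)
  rw [M.ctr] at h1
  have h2 := eventually_nhdsWithin_iff.1 (h1.eventually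
    (ball_mem_nhds M.B.c (by linarith [M.B.R_pos] : 0 < M.B.R / 4)))
  filter_upwards [h2, M.V_open.mem_nhds M.mem] with x h3 h4 using ⟨h4, h3⟩

theorem prp_inner {O : Set F} (hO : IsOpen O) (hne : (O ∩ ball M.B.c M.B.R).Nonempty) {S : Set X}
    (hS : ∀ y ∈ M.B.Y, M.B.π y ∈ O → M.e' y ∈ S) : Prp Z ψ A S M.inner := by
  obtain ⟨θ, h1, h2, h3⟩ := M.B.prp hO hne (R' := M.B.R / 4) (by linarith [M.B.R_pos])
  refine ⟨θ, 2 * M.c, h1, h2, by linarith [M.c_nonneg], fun i a b hab hb ha x hx hx' => ?_⟩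
  obtain ⟨u, hu, h4⟩ := M.psh i
  obtain ⟨h5, h6⟩ := M.maps x hx hx'.1
  have h7 := h3 M.U u (a + M.c * A i) (b + M.c * A i) M.U_open M.sub hu (by linarith)
    (fun y hy => (h4 y hy).2.trans (add_le_coe (hb _ (M.maps' y hy).1) le_rfl))
    (fun y hy hy' => (h4 y hy).2.trans (add_le_coe (ha _ (M.maps' y hy).1 (hS y hy hy')) le_rfl))
    _ h5 (ball_subset_closedBall (hx'.2 hx))
  have h8 := (h4 _ h5).1
  rw [h6] at h8
  refine h8.trans ((add_le_coe h7 le_rfl).trans (le_of_eq ?_))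
  congr 1; ring

theorem tendsto_sheet {W : Set F} {s : Fin M.B.k → F → E} (hs : M.B.Triv W s) {w : F}
    (hW : W ∈ 𝓝 w) (j : Fin M.B.k) :
    Tendsto (fun w' => M.e' (s j w')) (𝓝 w) (𝓝 (M.e' (s j w))) := by
  refine (M.cont' _ (hs.mem (mem_of_mem_nhds hW) j).1).tendsto.comp
    (tendsto_nhdsWithin_iff.2 ⟨((hs.hol j).continuousOn.continuousAt hW).tendsto, ?_⟩)
  filter_upwards [hW] with w' hw' using (hs.mem hw' j).1

theorem prp_one (hk : M.B.k ≤ 1) {O : Set X} (hO : IsOpen O) (hne : (O ∩ M.V ∩ Z).Nonempty) :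
    Prp Z ψ A O M.inner := by
  obtain ⟨x, ⟨hxO, hxV⟩, hxZ⟩ := hne
  obtain ⟨h1, h2⟩ := M.maps x hxZ hxV
  have h3 : ∀ᶠ y in 𝓝[M.B.Y] (M.e x), M.e' y ∈ O :=
    (M.cont' _ h1).eventually (hO.mem_nhds (by rw [h2]; exact hxO))
  obtain ⟨w, h4, y, h5, h6⟩ := (M.B.freq_base h1 h3).exists
  have hw : w ∈ ball M.B.c M.B.R := h5.2 ▸ M.B.maps h5.1
  obtain ⟨ρ, hρ, s, hs⟩ := M.B.exists_triv hw h4
  rw [hs.fib w (mem_ball_self hρ)] at h5
  obtain ⟨j, hj⟩ := h5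
  simp only at hj
  have h7 := (M.tendsto_sheet hs (ball_mem_nhds w hρ) j).eventually
    (hO.mem_nhds (by rw [hj]; exact h6))
  obtain ⟨O', h8, h9, h10⟩ := _root_.eventually_nhds_iff.1 (h7.and (ball_mem_nhds w hρ))
  refine M.prp_inner h9 ⟨w, h10, hw⟩ fun y' hy' hy'' => ?_
  have h11 : y' ∈ M.B.fib (M.B.π y') := ⟨hy', rfl⟩
  rw [hs.fib _ (h8 _ hy'').2] at h11
  obtain ⟨i, hi⟩ := h11
  have : i = j := Fin.ext (by have := i.2; have := j.2; omega)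
  simp only at hi
  rw [← hi, this]
  exact (h8 _ hy'').1

theorem sheet_nhds {W : Set F} {s : Fin M.B.k → F → E} (hs : M.B.Triv W s) {w : F}
    (hW : W ∈ 𝓝 w) (j : Fin M.B.k) :
    ∀ᶠ x in 𝓝 (M.e' (s j w)), x ∈ Z → ∃ w' ∈ W, M.e' (s j w') = x := by
  obtain ⟨h1, h2, h3⟩ := M.maps' _ (hs.mem (mem_of_mem_nhds hW) j).1
  have h4 := M.tendsto_e h2
  rw [h3] at h4
  have h5 := h4.eventually (eventually_nhdsWithin_iff.2 (hs.ev_sheet hW j))
  rw [← eventually_nhdsWithin_iff]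
  filter_upwards [h5, self_mem_nhdsWithin, nhdsWithin_le_nhds (M.V_open.mem_nhds h2)]
    with x h6 h7 h8
  exact ⟨_, h6.1, by rw [h6.2, (M.maps x h7 h8).2]⟩

theorem prp_sheet {w₁ : F} {ρ ρ' : ℝ} (hρ : ρ' < ρ) {s : Fin M.B.k → F → E}
    (hs : M.B.Triv (ball w₁ ρ) s) (j : Fin M.B.k) {O : Set X} (hO : IsOpen O) {w : F}
    (hw : w ∈ ball w₁ ρ) (hwO : M.e' (s j w) ∈ O) :
    Prp Z ψ A O ((fun w' => M.e' (s j w')) '' closedBall w₁ ρ') := by
  have : ProperSpace F := FiniteDimensional.proper ℂ F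
  obtain ⟨O', h1, h2, h3⟩ := _root_.eventually_nhds_iff.1
    ((M.tendsto_sheet hs (isOpen_ball.mem_nhds hw) j).eventually (hO.mem_nhds hwO))
  obtain ⟨θ, h4, h5, h6⟩ := conn_prp isOpen_ball (convex_ball w₁ ρ).isPreconnected h2 ⟨w, h3, hw⟩
    (isCompact_closedBall w₁ ρ') (closedBall_subset_ball hρ)
  refine ⟨θ, 2 * M.c, h4, h5, by linarith [M.c_nonneg], fun i a b hab hb ha x _ hx' => ?_⟩
  obtain ⟨u, hu, h7⟩ := M.psh i
  obtain ⟨w', hw', rfl⟩ := hx'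
  have h8 := h6 _ (a + M.c * A i) (b + M.c * A i)
    (hs.isPsh_comp M.U_open hu (fun _ _ _ hy => M.sub hy.1) j) (by linarith)
    (fun v hv => (h7 _ (hs.mem hv j).1).2.trans
      (add_le_coe (hb _ (M.maps' _ (hs.mem hv j).1).1) le_rfl))
    (fun v hv hv' => (h7 _ (hs.mem hv j).1).2.trans
      (add_le_coe (ha _ (M.maps' _ (hs.mem hv j).1).1 (h1 v hv')) le_rfl)) w' hw'
  refine (h7 _ (hs.mem (closedBall_subset_ball hρ hw') j).1).1.trans
    ((add_le_coe h8 le_rfl).trans (le_of_eq ?_))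
  congr 1; ring

end Model

/-- the standing hypotheses: local models everywhere, one-sheeted on a dense connected subset -/
structure Good (E F : Type*) [NormedAddCommGroup E] [NormedSpace ℂ E]
    [NormedAddCommGroup F] [NormedSpace ℂ F] {X ι : Type*} [TopologicalSpace X]
    (Z : Set X) (ψ : ι → X → EReal) (A : ι → ℝ) : Prop where
  nonneg : ∀ i, 0 ≤ A i
  model : ∀ z ∈ Z, Nonempty (Model E F Z ψ A z)
  reg : ∃ Z₀ ⊆ Z, IsPreconnected Z₀ ∧ Z ⊆ closure Z₀ ∧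
    ∀ z ∈ Z₀, ∃ M : Model E F Z ψ A z, M.B.k ≤ 1

namespace Good

/-- **global propagation** -/
theorem prp_all (h : Good E F Z ψ A) {O : Set X} (hO : IsOpen O) (hne : (O ∩ Z).Nonempty) :
    ∀ z ∈ Z, ∃ N ∈ 𝓝 z, Prp Z ψ A O N := by
  obtain ⟨Z₀, h0, hc, hd, h1⟩ := h.reg
  have h2 : ∀ z ∈ Z₀, ∃ N ∈ 𝓝 z, Prp Z ψ A O N := by
    refine prp_conn hc (fun z hz => ?_) hO ?_
    · obtain ⟨M, hM⟩ := h1 z hz
      exact ⟨M.inner, M.inner_mem (h0 hz), fun O' hO' ⟨x, hx⟩ =>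
        M.prp_one hM hO' ⟨x, ⟨hx.1.1, hx.1.2.1⟩, h0 hx.2⟩⟩
    · obtain ⟨x, hx⟩ := hne
      exact mem_closure_iff.1 (hd hx.2) O hO hx.1
  intro z hz
  obtain ⟨M⟩ := h.model z hz
  obtain ⟨w₁, δ, s, hδ, hw₁, hs⟩ := M.B.exists_triv_near
  have hm : w₁ ∈ ball w₁ (4 * δ) := mem_ball_self (by linarith)
  have h3 : ∀ j, Prp Z ψ A O ((fun w' => M.e' (s j w')) '' closedBall w₁ δ) := by
    intro j
    obtain ⟨x, h4, h5⟩ := mem_closure_iff_nhds.1 (hd (M.maps' _ (hs.mem hm j).1).1) _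
      (M.sheet_nhds hs (isOpen_ball.mem_nhds hm) j)
    obtain ⟨w, hw, hwx⟩ := h4 (h0 h5)
    obtain ⟨N, hN, h6⟩ := h2 x h5
    exact (h6.trans (Prp.of_subset fun _ _ hy => interior_subset hy)).trans
      (M.prp_sheet (by linarith) hs j isOpen_interior hw
        (by rw [hwx]; exact mem_interior_iff_mem_nhds.2 hN))
  refine ⟨M.inner, M.inner_mem hz, (Prp.iUnion h.nonneg h3).trans
    (M.prp_inner (O := ball w₁ δ) isOpen_ball ⟨w₁, mem_ball_self hδ, hs.sub hm⟩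
      fun y hy hy' => ?_)⟩
  have h7 : y ∈ M.B.fib (M.B.π y) := ⟨hy, rfl⟩
  rw [hs.fib _ (ball_subset_ball (by linarith) hy')] at h7
  obtain ⟨j, hj⟩ := h7
  exact mem_iUnion.2 ⟨j, _, ball_subset_closedBall hy', congrArg M.e' hj⟩

theorem prp_compact (h : Good E F Z ψ A) {O : Set X} (hO : IsOpen O) (hne : (O ∩ Z).Nonempty)
    {K : Set X} (hK : IsCompact K) (hKZ : K ⊆ Z) : Prp Z ψ A O K :=
  Prp.of_compact h.nonneg hK fun z hz => h.prp_all hO hne z (hKZ hz)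

/-- a lower bound at one point of `K` gives a lower bound somewhere in `O` -/
theorem exists_ge (h : Good E F Z ψ A) {O : Set X} (hO : IsOpen O) (hne : (O ∩ Z).Nonempty)
    {K : Set X} (hK : IsCompact K) (hKZ : K ⊆ Z) :
    ∃ C : ℝ, 0 ≤ C ∧ ∀ (i : ι) (a b σ : ℝ), 0 ≤ σ → (∀ y ∈ Z, ψ i y ≤ b) →
      (∃ p ∈ K, ((b - σ : ℝ) : EReal) ≤ ψ i p) → (∀ y ∈ Z, y ∈ O → ψ i y ≤ a) →
      b - a ≤ C * (σ + A i) := by
  obtain ⟨θ, C, h1, h2, h3, h4⟩ := h.prp_compact hO hne hK hKZ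
  refine ⟨(1 + C) / θ, by positivity, fun i a b σ hσ hb ⟨p, hp, hp'⟩ ha => ?_⟩
  have hA := h.nonneg i
  by_cases hab : a ≤ b
  · have h5 := EReal.coe_le_coe_iff.1 (hp'.trans (h4 i a b hab hb ha p (hKZ hp) hp))
    rw [div_mul_eq_mul_div, le_div_iff₀ h1]
    nlinarith [mul_nonneg h3 hσ]
  · have : 0 ≤ (1 + C) / θ * (σ + A i) := by positivity
    linarith

/-- **Harnack inequality**, local form -/
theorem harnack_loc (h : Good E F Z ψ A) {K : Set X} (hK : IsCompact K) (hKZ : K ⊆ Z)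
    (M : Model E F Z ψ A z) :
    ∃ C : ℝ, 0 ≤ C ∧ ∀ x ∈ Z, x ∈ M.inner → ∀ (i : ι) (a b σ r : ℝ), 0 ≤ σ →
      (∀ y ∈ Z, ψ i y ≤ b) → (∃ p ∈ K, ((b - σ : ℝ) : EReal) ≤ ψ i p) → 0 < r → r ≤ 1 →
      (∀ y ∈ Z, y ∈ M.V → dist (M.e y) (M.e x) < r → ψ i y ≤ a) →
      b - a ≤ C * (σ + A i) * (1 - Real.log r) := by
  obtain ⟨w₁, δ, s, hδ, hw₁, hs⟩ := M.B.exists_triv_near
  obtain ⟨C, hC, h1⟩ := M.B.harnack hδ hw₁ hs
  have hsub : ball w₁ δ ⊆ ball w₁ (4 * δ) := ball_subset_ball (by linarith)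
  have h2 : ∀ j, ∃ C : ℝ, 0 ≤ C ∧ ∀ (i : ι) (a b σ : ℝ), 0 ≤ σ → (∀ y ∈ Z, ψ i y ≤ b) →
      (∃ p ∈ K, ((b - σ : ℝ) : EReal) ≤ ψ i p) → (∀ w ∈ ball w₁ δ, ψ i (M.e' (s j w)) ≤ a) →
      b - a ≤ C * (σ + A i) := by
    intro j
    obtain ⟨O, h3, h4, h5⟩ := _root_.eventually_nhds_iff.1
      (M.sheet_nhds (hs.mono hsub) (ball_mem_nhds w₁ hδ) j)
    obtain ⟨C, hC, h6⟩ := h.exists_ge h4
      ⟨_, h5, (M.maps' _ (hs.mem (hsub (mem_ball_self hδ)) j).1).1⟩ hK hKZ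
    refine ⟨C, hC, fun i a b σ hσ hb hp ha => h6 i a b σ hσ hb hp fun y hy hy' => ?_⟩
    obtain ⟨w, hw, rfl⟩ := h3 y hy' hy
    exact ha w hw
  choose C' hC' h3 using h2
  have hc := M.c_nonneg
  set C₀ : ℝ := 2 * M.c + ∑ j, C' j with hC₀
  have hs0 : 0 ≤ ∑ j, C' j := Finset.sum_nonneg fun j _ => hC' j
  refine ⟨C * C₀, by positivity, fun x hx hx' i a b σ r hσ hb hp hr hr1 ha => ?_⟩
  obtain ⟨u, hu, h4⟩ := M.psh i
  have hA := h.nonneg i
  have hl : 0 < 1 - Real.log r := by linarith [Real.log_nonpos hr.le hr1]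
  refine le_of_forall_pos_le_add fun ε hε => ?_
  set η : ℝ := ε / (C * (1 - Real.log r) + 1) with hη
  have hη0 : 0 < η := by positivity
  have h5 := h1 M.U u (a + M.c * A i) (b + M.c * A i) (C₀ * (σ + A i) + η) r M.U_open M.sub hu
    (by positivity) (fun y hy => (h4 y hy).2.trans (add_le_coe (hb _ (M.maps' y hy).1) le_rfl))
    (fun j => ?_) hr hr1 _ (M.maps x hx hx'.1).1 (hx'.2 hx) fun y hy hy' =>
      (h4 y hy).2.trans (add_le_coe (ha _ (M.maps' y hy).1 (M.maps' y hy).2.1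
        (by rwa [(M.maps' y hy).2.2])) le_rfl)
  · have h6 : η * (C * (1 - Real.log r) + 1) = ε := by rw [hη]; field_simp
    nlinarith
  · by_contra hcon
    push Not at hcon
    have h6 := h3 j i _ b σ hσ hb hp fun w hw =>
      (h4 _ (hs.mem (hsub hw) j).1).1.trans (add_le_coe (hcon w hw).le le_rfl)
    have h7 : C' j ≤ ∑ j, C' j := Finset.single_le_sum (fun j _ => hC' j) (Finset.mem_univ j)
    have h8 := mul_le_mul_of_nonneg_right h7 (add_nonneg hσ hA)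
    have h9 := mul_nonneg hc hσ
    simp only [hC₀] at h6
    nlinarith


end Good

end Crest.Agent.X261.Ans.Hk
end
end

-- ▼ part X261/Ans/HkD
section

/-!
# Row 261, package ANS (helper14), file `HkD`

The Harnack inequality on irreducible analytic subsets of manifolds (`HA` language), assuming the
existence of local branched covers (`CoverStmt`, proved in `HkE`).
-/

set_option autoImplicit false
set_option linter.dupNamespace false
set_option linter.unusedSectionVars false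

open Set Filter Topology Metric

noncomputable section

namespace Crest.Agent.X261.Ans.Hk

open Crest.Agent.X261.Psh

variable {E : Type} [NormedAddCommGroup E] [NormedSpace ℂ E] [FiniteDimensional ℂ E]

/-- arbitrarily small centred branched cover models of `Z` at `x`, with at most `k` sheets -/
def HasBC (Z : Set E) (d : ℕ) (x : E) (P : ℕ → Prop) : Prop :=
  ∀ N ∈ 𝓝 x, ∃ (B : BC E (Fin d → ℂ)) (W : Set E), IsOpen W ∧ x ∈ W ∧ W ⊆ N ∧ B.Y = Z ∩ W ∧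
    B.π x = B.c ∧ P B.k

/-- existence of branched cover models for pure dimensional germs -/
def CoverStmt (E : Type) [NormedAddCommGroup E] [NormedSpace ℂ E] : Prop :=
  ∀ (Z : Set E) (d : ℕ) (x : E), x ∈ Z → AnAt Z x →
    (∀ᶠ y in 𝓝 x, y ∈ Z → y ∈ closure {z | Reg Z d z}) → HasBC Z d x fun _ => True

theorem hasBC_of_reg {Z : Set E} {d : ℕ} {x : E} (h : Reg Z d x) : HasBC Z d x (· ≤ 1) := by
  obtain ⟨hx, φ, ρ, hφ, hρ, h1, h2⟩ := h
  intro N hN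
  obtain ⟨N', h3, h4, h5⟩ := _root_.eventually_nhds_iff.1
    (h2.and (hρ.eventually_analyticAt.and hN))
  have hx' : φ (ρ x) = x := (h3 x h5).1 hx
  have h6 : ∀ᶠ t in 𝓝 (ρ x), φ t ∈ N' :=
    hφ.continuousAt.eventually (h4.mem_nhds (by rw [hx']; exact h5))
  obtain ⟨R, hR, h7⟩ := Metric.eventually_nhds_iff_ball.1 (h1.and (hφ.eventually_analyticAt.and h6))
  have hρc : ContinuousOn ρ N' := fun y hy => (h3 y hy).2.1.continuousAt.continuousWithinAt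
  have hφd : DifferentiableOn ℂ φ (ball (ρ x) R) := fun t ht =>
    (h7 t ht).2.1.differentiableAt.differentiableWithinAt
  have hmem : ∀ t ∈ ball (ρ x) R, φ t ∈ Z ∩ (N' ∩ ρ ⁻¹' ball (ρ x) R) := fun t ht =>
    ⟨(h7 t ht).1.1, (h7 t ht).2.2, by rw [mem_preimage, (h7 t ht).1.2]; exact ht⟩
  refine ⟨⟨Z ∩ (N' ∩ ρ ⁻¹' ball (ρ x) R), ρ, ρ x, R, fun _ => 1, 1, hR,
    hρc.mono fun y hy => hy.2.1, fun y hy => hy.2.2, fun K hK hKc => ?_,
    differentiableOn_const _, ⟨_, mem_ball_self hR, one_ne_zero⟩, fun w hw _ => ?_,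
    fun y hy => ?_⟩, N' ∩ ρ ⁻¹' ball (ρ x) R, hρc.isOpen_inter_preimage h4 isOpen_ball,
    ⟨h5, mem_ball_self hR⟩, fun y hy => (h3 y hy.1).2.2, rfl, rfl, le_rfl⟩
  · have : Z ∩ (N' ∩ ρ ⁻¹' ball (ρ x) R) ∩ ρ ⁻¹' K = φ '' K := by
      ext y
      refine ⟨fun hy => ⟨ρ y, hy.2, (h3 y hy.1.2.1).1 hy.1.1⟩, ?_⟩
      rintro ⟨t, ht, rfl⟩
      exact ⟨hmem t (hK ht), by rw [mem_preimage, (h7 t (hK ht)).1.2]; exact ht⟩
    rw [this]
    exact hKc.image_of_continuousOn (hφd.continuousOn.mono hK)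
  · refine ⟨ball (ρ x) R, isOpen_ball.mem_nhds hw, fun _ => φ, fun _ => hφd,
      fun _ _ => Function.injective_of_subsingleton _, fun w' hw' y => ⟨fun hy => ⟨0, ?_⟩, ?_⟩⟩
    · rw [← hy.2]; exact (h3 y hy.1.2.1).1 hy.1.1
    · rintro ⟨_, rfl⟩
      exact ⟨hmem w' hw', (h7 w' hw').1.2⟩
  · exact Frequently.filter_mono (frequently_pure.2 ⟨hy, one_ne_zero⟩) (pure_le_nhds y)

variable {M : Type} [TopologicalSpace M] {ι : Type*}

/-- the family `ψ` is psh up to the errors `c * a i` along `Z` near `z`, in the chart `j` -/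
def QL (A : HA E M) (Z : Set M) (ψ : ι → M → EReal) (a : ι → ℝ) (z : M) (j : A.ι) : Prop :=
  z ∈ (A.e j).source ∧ ∃ W : Set E, IsOpen W ∧ A.e j z ∈ W ∧ ∃ c : ℝ, 0 ≤ c ∧ ∀ i, ∃ u,
    IsPsh W u ∧ ∀ y ∈ Z, y ∈ (A.e j).source → A.e j y ∈ W →
      ψ i y ≤ u (A.e j y) + ((c * a i : ℝ) : EReal) ∧ u (A.e j y) ≤ ψ i y + ((c * a i : ℝ) : EReal)

variable {A : HA E M} {Z U Y : Set M} {ψ : ι → M → EReal} {a : ι → ℝ} {z : M} {d : ℕ}

/-- `QL` does not depend on the chart -/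
theorem QL.chart {j j' : A.ι} (h : QL A Z ψ a z j) (hz : z ∈ (A.e j').source) :
    QL A Z ψ a z j' := by
  obtain ⟨h1, W, hW, h2, c, hc, h3⟩ := h
  have h4 := A.holo j' j
  have h5 := h4.continuousOn.isOpen_inter_preimage (A.isOpen_ov j' j) hW
  refine ⟨hz, _, h5, ⟨⟨(A.e j').map_source hz, by rwa [(A.e j').left_inv hz]⟩, by
    simpa [(A.e j').left_inv hz] using h2⟩, c, hc, fun i => ?_⟩
  obtain ⟨u, hu, h6⟩ := h3 i
  refine ⟨_, Hol.comp_hol hW hu (h4.mono inter_subset_left) fun y hy => hy.2,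
    fun y hy hy' hy'' => ?_⟩
  have h7 := hy''.1.2
  have h8 := hy''.2
  simp only [mem_preimage, (A.e j').left_inv hy'] at h7 h8 ⊢
  exact h6 y hy h7 h8

theorem QL.mono {j : A.ι} (h : QL A Z ψ a z j) {Z' : Set M} (hZ : Z' ⊆ Z) : QL A Z' ψ a z j := by
  obtain ⟨h1, W, hW, h2, c, hc, h3⟩ := h
  exact ⟨h1, W, hW, h2, c, hc, fun i => (h3 i).imp fun u hu =>
    ⟨hu.1, fun y hy => hu.2 y (hZ hy)⟩⟩


theorem exists_model {j : A.ι} (h : QL A Z ψ a z j) {Z' : Set M} {P : ℕ → Prop}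
    (hB : HasBC ((A.e j).symm ⁻¹' Z') d (A.e j z) P) (hZ : ∀ᶠ y in 𝓝 z, y ∈ Z ↔ y ∈ Z')
    {N : Set M} (hN : N ∈ 𝓝 z) :
    ∃ m : Model E (Fin d → ℂ) Z ψ a z, P m.B.k ∧ m.e = A.e j ∧ m.V ⊆ N ∩ (A.e j).source := by
  obtain ⟨h1, W, hW, h2, c, hc, h3⟩ := h
  obtain ⟨B, W', h4, h5, h6, h7, h8, h9⟩ := hB _ (((HA.ev_chart h1).1 (hZ.and hN)).and
    (((A.e j).open_target.eventually_mem ((A.e j).map_source h1)).and (hW.eventually_mem h2)))
  have hY : ∀ y ∈ B.Y, y ∈ W' := fun y hy => (h7 ▸ hy : y ∈ _ ∩ W').2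
  have hYZ : ∀ y ∈ B.Y, (A.e j).symm y ∈ Z := fun y hy =>
    (h6 (hY y hy)).1.1.2 (h7 ▸ hy : y ∈ _ ∩ W').1
  refine ⟨⟨B, A.e j, (A.e j).symm, (A.e j).source ∩ A.e j ⁻¹' W', W, c,
    (A.e j).isOpen_inter_preimage h4, ⟨h1, h5⟩, fun x hx hx' => ⟨?_, (A.e j).left_inv hx'.1⟩,
    fun y hy => ⟨hYZ y hy, ⟨(A.e j).map_target (h6 (hY y hy)).2.1, ?_⟩,
      (A.e j).right_inv (h6 (hY y hy)).2.1⟩, (A.e j).continuousOn.mono inter_subset_left,
    (A.e j).continuousOn_symm.mono fun y hy => (h6 (hY y hy)).2.1, h8, hc, hW,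
    fun y hy => (h6 (hY y hy)).2.2, fun i => ?_⟩, h9, rfl, fun x hx => ⟨?_, hx.1⟩⟩
  · rw [h7]
    refine ⟨(h6 hx'.2).1.1.1 ?_, hx'.2⟩
    rwa [(A.e j).left_inv hx'.1]
  · rw [mem_preimage, (A.e j).right_inv (h6 (hY y hy)).2.1]; exact hY y hy
  · obtain ⟨u, hu, h10⟩ := h3 i
    refine ⟨u, hu, fun y hy => ?_⟩
    have h11 := (A.e j).right_inv (h6 (hY y hy)).2.1
    have := h10 _ (hYZ y hy) ((A.e j).map_target (h6 (hY y hy)).2.1)
      (by rw [h11]; exact (h6 (hY y hy)).2.2)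
    rwa [h11] at this
  · have := (h6 hx.2).1.2
    rwa [(A.e j).left_inv hx.1] at this

/-- a regular point read in another chart (special case of `HA.reg_iff`) -/
theorem reg_chart {x : M} (h : A.Reg Y d x) {j : A.ι} (hx : x ∈ (A.e j).source) :
    Reg ((A.e j).symm ⁻¹' Y) d (A.e j x) := by
  obtain ⟨i, hi, hx', φ, ρ, hφ, hρ, h1, h2⟩ := h
  have hφx : φ (ρ (A.e i x)) = A.e i x := h2.self_of_nhds hx'
  have e1 : (A.e i).symm (A.e i x) = x := (A.e i).left_inv hi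
  have e2 : (A.e j).symm (A.e j x) = x := (A.e j).left_inv hx
  have t1 := HA.tr_an (A := A) hi hx
  have t2 := HA.tr_an (A := A) hx hi
  have hT : Tendsto φ (𝓝 (ρ (A.e i x))) (𝓝 (A.e i x)) := by
    have := hφ.continuousAt.tendsto
    rwa [hφx] at this
  refine ⟨by simpa [e1, e2] using hx', fun t => A.e j ((A.e i).symm (φ t)),
    fun y => ρ (A.e i ((A.e j).symm y)), ?_, ?_, ?_, ?_⟩
  · simp only [e2]
    exact AnalyticAt.comp_of_eq (g := fun z => A.e j ((A.e i).symm z)) (f := φ) t1 hφ hφx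
  · exact AnalyticAt.comp_of_eq hρ t2 (by simp only [e2])
  · simp only [e2]
    filter_upwards [h1, hT.eventually ((HA.ev_chart hi).1 ((A.e j).open_source.eventually_mem hx)),
      hT.eventually ((A.e i).open_target.eventually_mem ((A.e i).map_source hi))] with t h3 h4 h5
    simp only [mem_preimage, (A.e j).left_inv h4, (A.e i).right_inv h5]
    exact h3
  · filter_upwards [(HA.ev_chart hx).1 ((HA.ev_chart' hi).1 h2),
      (HA.ev_chart hx).1 ((A.e i).open_source.eventually_mem hi),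
      (A.e j).open_target.eventually_mem ((A.e j).map_source hx)] with y h3 h4 h5 h6
    rw [h3 (by rwa [mem_preimage, (A.e i).left_inv h4]), (A.e i).left_inv h4, (A.e j).right_inv h5]

theorem hasBC_irr (hc : CoverStmt E) (hU : IsOpen U) (hY : A.Irr U Y d) (hz : z ∈ U ∩ Y) {j : A.ι}
    (hj : z ∈ (A.e j).source) : HasBC ((A.e j).symm ⁻¹' Y) d (A.e j z) fun _ => True := by
  refine hc _ d _ (by rw [mem_preimage, (A.e j).left_inv hj]; exact hz.2)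
    ((HA.anAt_iff hj).1 (hY.1 z hz.1)) ?_
  filter_upwards [(HA.ev_chart hj).1 (hU.eventually_mem hz.1),
    (A.e j).open_target.eventually_mem ((A.e j).map_source hj)] with y h1 h2 h3
  have h4 := (A.e j).map_target h2
  have h5 := (HA.fr_chart h4).1 ((mem_closure_iff_frequently.1 (hY.2.2.2 ⟨h1, h3⟩)).and_eventually
    ((A.e j).open_source.eventually_mem h4))
  rw [(A.e j).right_inv h2] at h5
  refine mem_closure_iff_frequently.2
    ((h5.and_eventually ((A.e j).open_target.eventually_mem h2)).mono fun w hw => ?_)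
  have := reg_chart hw.1.1.2 hw.1.2
  rwa [(A.e j).right_inv hw.2] at this

/-- models in any chart, inside any neighbourhood -/
theorem exists_model_irr (hc : CoverStmt E) (hU : IsOpen U) (hY : A.Irr U Y d)
    (hψ : ∀ z ∈ U ∩ Y, ∃ j, QL A (U ∩ Y) ψ a z j) (hz : z ∈ U ∩ Y) {j : A.ι}
    (hj : z ∈ (A.e j).source) {N : Set M} (hN : N ∈ 𝓝 z) :
    ∃ m : Model E (Fin d → ℂ) (U ∩ Y) ψ a z, m.e = A.e j ∧ m.V ⊆ N ∩ (A.e j).source := by
  obtain ⟨j', h1⟩ := hψ z hz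
  obtain ⟨m, -, h2⟩ := exists_model (h1.chart hj) (hasBC_irr hc hU hY hz hj)
    ((hU.eventually_mem hz.1).mono fun y hy => ⟨fun h => h.2, fun h => ⟨hy, h⟩⟩) hN
  exact ⟨m, h2⟩

theorem good_of_irr (hc : CoverStmt E) (hU : IsOpen U) (hY : A.Irr U Y d) (ha : ∀ i, 0 ≤ a i)
    (hψ : ∀ z ∈ U ∩ Y, ∃ j, QL A (U ∩ Y) ψ a z j) : Good E (Fin d → ℂ) (U ∩ Y) ψ a := by
  have hsub : {y | y ∈ U ∧ A.Reg Y d y} ⊆ U ∩ Y := fun y hy => by
    obtain ⟨i, hi, h1, -⟩ := hy.2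
    exact ⟨hy.1, by rwa [mem_preimage, (A.e i).left_inv hi] at h1⟩
  refine ⟨ha, fun z hz => ?_, _, hsub, hY.2.2.1, hY.2.2.2, fun z hz => ?_⟩
  · obtain ⟨j, h1⟩ := hψ z hz
    obtain ⟨m, -⟩ := exists_model_irr hc hU hY hψ hz h1.1 univ_mem
    exact ⟨m⟩
  · obtain ⟨j, h1⟩ := hψ z (hsub hz)
    obtain ⟨m, h2, -⟩ := exists_model h1 (hasBC_of_reg (reg_chart hz.2 h1.1))
      ((hU.eventually_mem hz.1).mono fun y hy => ⟨fun h => h.2, fun h => ⟨hy, h⟩⟩) univ_mem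
    exact ⟨m, h2⟩

section main

variable (hc : CoverStmt E) (hU : IsOpen U) (hY : A.Irr U Y d) (ha : ∀ i, 0 ≤ a i)
  (hψ : ∀ z ∈ U ∩ Y, ∃ j, QL A (U ∩ Y) ψ a z j) {K : Set M} (hK : IsCompact K) (hKY : K ⊆ U ∩ Y)

include hc hU hY ha hψ hK hKY


/-- **Harnack inequality** near a point `z`, with balls of any chart `j` and inside any
neighbourhood `N` -/
theorem irr_loc (hz : z ∈ U ∩ Y) {j : A.ι} (hj : z ∈ (A.e j).source) {N : Set M} (hN : N ∈ 𝓝 z) :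
    ∃ C : ℝ, 0 ≤ C ∧ ∀ᶠ x in 𝓝 z, x ∈ U ∩ Y → ∀ (i : ι) (α β σ r : ℝ), 0 ≤ σ →
      (∀ y ∈ U ∩ Y, ψ i y ≤ β) → (∃ p ∈ K, ((β - σ : ℝ) : EReal) ≤ ψ i p) → 0 < r → r ≤ 1 →
      (∀ y ∈ U ∩ Y, y ∈ N → y ∈ (A.e j).source → dist (A.e j y) (A.e j x) < r → ψ i y ≤ α) →
      β - α ≤ C * (σ + a i) * (1 - Real.log r) := by
  obtain ⟨m, h1, h2⟩ := exists_model_irr hc hU hY hψ hz hj hN
  obtain ⟨C, hC, h3⟩ := (good_of_irr hc hU hY ha hψ).harnack_loc hK hKY m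
  refine ⟨C, hC, ?_⟩
  filter_upwards [m.inner_mem hz] with x hx hxY i α β σ r hσ hβ hp hr hr1 hα
  exact h3 x hxY hx i α β σ r hσ hβ hp hr hr1 fun y hy hy' hd =>
    hα y hy (h2 hy').1 (h2 hy').2 (by rwa [h1] at hd)


/-- **PROP**: logarithmic poles along `Y` have bounded order, locally uniformly in the pole -/
theorem irr_pole (hz : z ∈ U ∩ Y) {j : A.ι} (hj : z ∈ (A.e j).source) :
    ∃ C : ℝ, 0 ≤ C ∧ ∀ᶠ x in 𝓝 z, x ∈ U ∩ Y → ∀ (i : ι) (β σ t C' : ℝ), 0 ≤ σ →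
      (∀ y ∈ U ∩ Y, ψ i y ≤ β) → (∃ p ∈ K, ((β - σ : ℝ) : EReal) ≤ ψ i p) →
      (∃ᶠ r : ℝ in 𝓝[>] 0, ∀ y ∈ U ∩ Y, y ∈ (A.e j).source → dist (A.e j y) (A.e j x) < r →
        ψ i y ≤ ((t * Real.log r + C' : ℝ) : EReal)) → t ≤ C * (σ + a i) := by
  obtain ⟨C, hC, h1⟩ := irr_loc hc hU hY ha hψ hK hKY hz hj univ_mem
  refine ⟨C, hC, h1.mono fun x hx hxY i β σ t C' hσ hβ hp ht => ?_⟩
  by_contra hcon
  push Not at hcon
  have h2 : Tendsto (fun r : ℝ => (t - C * (σ + a i)) * Real.log r) (𝓝[>] 0) atBot :=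
    Real.tendsto_log_nhdsGT_zero.const_mul_atBot (sub_pos.2 hcon)
  have h8 : ∀ᶠ r : ℝ in 𝓝[>] 0, 0 < r := self_mem_nhdsWithin
  have h9 : ∀ᶠ r : ℝ in 𝓝[>] 0, r ≤ 1 := nhdsWithin_le_nhds (ge_mem_nhds one_pos)
  obtain ⟨r, h3, h4, h5, h6⟩ := (ht.and_eventually ((h2.eventually_lt_atBot
    (β - C' - C * (σ + a i))).and (h8.and h9))).exists
  have h7 := hx hxY i _ β σ r hσ hβ hp h5 h6 fun y hy _ => h3 y hy
  nlinarith

end main

end Crest.Agent.X261.Ans.Hk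
end
end

-- ▼ part X261/Ans/HkE

/-!
# Row 261, package ANS (helper14), file `HkE`

Existence of branched cover models for pure dimensional germs (`coverStmt`), and the Harnack
inequality in the form `hk`.
-/

set_option autoImplicit false
set_option linter.dupNamespace false
set_option linter.unusedSectionVars false

open Set Filter Topology Metric Module

noncomputable section

namespace Crest.Agent.X261.Ans.Hk

open Crest.Agent.X261.Psh

variable {E F : Type} [NormedAddCommGroup E] [NormedSpace ℂ E] [FiniteDimensional ℂ E]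
  [NormedAddCommGroup F] [NormedSpace ℂ F] [FiniteDimensional ℂ F]

/-- box data for a holomorphic map `l` with an isolated fibre point -/
structure LBox (Z : Set E) (l : E → F) (x : E) (s r : ℝ) (δ : F → ℂ) : Prop where
  s_pos : 0 < s
  r_pos : 0 < r
  an : AnalyticOnNhd ℂ l (ball x r)
  closed : ∀ y ∈ ball x r, l y ∈ ball (l x) s → y ∈ closure Z → y ∈ Z
  small : ∀ y ∈ Z, y ∈ ball x r → l y ∈ ball (l x) s → y ∈ ball x (r / 2)
  fin : ∀ t ∈ ball (l x) s, {y | y ∈ ball x r ∧ y ∈ Z ∧ l y = t}.Finite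
  ctr : ∀ y ∈ Z, y ∈ ball x r → l y = l x → y = x
  hol : AnalyticOnNhd ℂ δ (ball (l x) s)
  ne : ∃ t ∈ ball (l x) s, δ t ≠ 0
  sheets : ∀ t ∈ ball (l x) s, δ t ≠ 0 → ∃ (T : Finset E) (S : E → F → E),
    (∀ w ∈ T, AnalyticAt ℂ (S w) t ∧ S w t = w) ∧
      ∀ᶠ t' in 𝓝 t, ∀ u, (u ∈ ball x r ∧ u ∈ Z ∧ l u = t') ↔ ∃ w ∈ T, S w t' = u

theorem exists_lbox {Z : Set E} {x : E} (hZ : AnAt Z x) {l : E → F} (hl : AnalyticAt ℂ l x)
    (hiso : ∀ᶠ y in 𝓝[≠] x, y ∈ Z → l y ≠ l x) {N : Set E} (hN : N ∈ 𝓝 x) :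
    ∃ s r δ, ball x r ⊆ N ∧ LBox Z l x s r δ := by
  have : CompleteSpace E := FiniteDimensional.complete ℂ E
  have : CompleteSpace F := FiniteDimensional.complete ℂ F
  set Z' : Set (F × E) := {p | p.2 ∈ Z ∧ l p.2 = p.1} with hZ'
  have h1 : AnAt Z' (l x, x) :=
    (AnAt.preimage (f := Prod.snd) analyticAt_snd hZ).inter
      (anAt_eq (AnalyticAt.comp (g := l) (f := Prod.snd) hl analyticAt_snd) analyticAt_fst)
  obtain ⟨s, r, α, hs, hr, -, h2, h3, h4, h5⟩ := locbox h1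
    (hiso.mono fun y hy h => hy h.1 h.2) (N := univ ×ˢ (N ∩ {y | AnalyticAt ℂ l y}))
    (prod_mem_nhds univ_mem (inter_mem hN hl.eventually_analyticAt))
  have h6 : ∀ y ∈ ball x r, y ∈ N ∧ AnalyticAt ℂ l y := fun y hy =>
    (h2 (show (l x, y) ∈ ball (l x) r ×ˢ ball x r from ⟨mem_ball_self hr, hy⟩)).2
  obtain ⟨δ, h7, h8, h9⟩ := h3.struct isOpen_ball (convex_ball _ _).isPreconnected
    ⟨_, mem_ball_self hs⟩ isOpen_ball
  refine ⟨s, r, δ, fun y hy => (h6 y hy).1, hs, hr, fun y hy => (h6 y hy).2,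
    fun y hy hy' hc => ?_, fun y hy hy' hy'' => h4 _ hy'' _ (h3.cov _ hy'' _ hy' ⟨hy, rfl⟩),
    fun t ht => (α t).finite_toSet.subset fun y hy => h3.cov _ ht _ hy.1 hy.2,
    fun y hy hy' hy'' => h5 _ (h3.cov _ (mem_ball_self hs) _ hy' ⟨hy, hy''⟩), h7, h8, h9⟩
  have h10 : (l y, y) ∈ closure Z' := by
    have hc' : ContinuousAt (fun y => (l y, y)) y := (h6 y hy).2.continuousAt.prodMk continuousAt_id
    exact hc'.continuousWithinAt.mem_closure hc fun y' hy' => ⟨hy', rfl⟩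
  exact (h3.cut.mem_of_closure ((isOpen_ball.prod isOpen_ball).mem_nhds ⟨hy', hy⟩) h10).1

namespace LBox

variable {Z : Set E} {l : E → F} {x : E} {s r : ℝ} {δ : F → ℂ}

/-- sheets with injectivity -/
theorem sheets' (h : LBox Z l x s r δ) {t : F} (ht : t ∈ ball (l x) s) (h0 : δ t ≠ 0) :
    ∃ (T : Finset E) (S : E → F → E), (∀ w ∈ T, S w t = w) ∧ ∀ᶠ t' in 𝓝 t,
      (∀ w ∈ T, AnalyticAt ℂ (S w) t') ∧ InjOn (fun w => S w t') T ∧
      ∀ u, (u ∈ ball x r ∧ u ∈ Z ∧ l u = t') ↔ ∃ w ∈ T, S w t' = u := by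
  have : CompleteSpace E := FiniteDimensional.complete ℂ E
  obtain ⟨T, S, h1, h2⟩ := h.sheets t ht h0
  refine ⟨T, S, fun w hw => (h1 w hw).2, ?_⟩
  have h3 : ∀ᶠ t' in 𝓝 t, ∀ w ∈ T, AnalyticAt ℂ (S w) t' :=
    (eventually_all_finset T).2 fun w hw => (h1 w hw).1.eventually_analyticAt
  have h4 : ∀ᶠ t' in 𝓝 t, ∀ w ∈ T, ∀ w' ∈ T, w ≠ w' → S w t' ≠ S w' t' := by
    refine (eventually_all_finset T).2 fun w hw => (eventually_all_finset T).2 fun w' hw' =>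
      eventually_imp_distrib_left.2 fun hne => ?_
    have h5 := ((h1 w hw).1.continuousAt.sub (h1 w' hw').1.continuousAt).eventually_ne
      (y := 0) (by simpa [(h1 w hw).2, (h1 w' hw').2, sub_eq_zero] using hne)
    exact h5.mono fun t' h6 => sub_ne_zero.1 h6
  filter_upwards [h2, h3, h4] with t' h5 h6 h7
  exact ⟨h6, fun w hw w' hw' he => by_contra fun hne => h7 w hw w' hw' hne he, h5⟩

/-- points over `δ ≠ 0` are regular -/
theorem reg (h : LBox Z l x s r δ) {y : E} (hy : y ∈ Z) (hy' : y ∈ ball x r)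
    (ht : l y ∈ ball (l x) s) (h0 : δ (l y) ≠ 0) : Reg Z (finrank ℂ F) y := by
  obtain ⟨T, S, h1, h2⟩ := h.sheets' ht h0
  obtain ⟨w, hw, hwy⟩ := (h2.self_of_nhds.2.2 y).1 ⟨hy', hy, rfl⟩
  have hwy' : w = y := by rw [← hwy, h1 w hw]
  subst hwy'
  have hl := h.an w hy'
  refine Reg.of_param (φ := S w) (ρ := l) hy (h2.self_of_nhds.1 w hw) hl
    (h2.mono fun t' h3 => ((h3.2.2 _).2 ⟨w, hw, rfl⟩).2) ?_
  have h3 : ∀ᶠ y in 𝓝 w, ∀ w' ∈ T, w' ≠ w → S w' (l y) ≠ y := by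
    refine (eventually_all_finset T).2 fun w' hw' => eventually_imp_distrib_left.2 fun hne => ?_
    have h4 : ContinuousAt (fun y => S w' (l y) - y) w :=
      (ContinuousAt.comp (g := S w') (h2.self_of_nhds.1 w' hw').continuousAt
        hl.continuousAt).sub continuousAt_id
    exact (h4.eventually_ne (y := 0) (by simpa [h1 w' hw', sub_eq_zero] using hne)).mono
      fun y h5 => sub_ne_zero.1 h5
  filter_upwards [h3, hl.continuousAt.eventually h2, isOpen_ball.mem_nhds hy'] with y h4 h5 h6 h7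
  obtain ⟨w', hw', h8⟩ := (h5.2.2 y).1 ⟨h6, h7, rfl⟩
  by_cases h9 : w' = w
  · exact h9 ▸ h8
  · exact absurd h8 (h4 w' hw' h9)

theorem isOpen_box (h : LBox Z l x s r δ) : IsOpen (ball x r ∩ l ⁻¹' ball (l x) s) :=
  h.an.continuousOn.isOpen_inter_preimage isOpen_ball isOpen_ball

theorem cov_zero (h : LBox Z l x s r δ) :
    Cov (finrank ℂ F) {t | t ∈ ball (l x) s ∧ δ t = 0} := by
  obtain ⟨t, ht, h0⟩ := h.ne
  exact cov_zeros' isOpen_ball (convex_ball _ _).isPreconnected h.hol ht h0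

/-- regular points of the right dimension are limits of unbranched points -/
theorem freq (h : LBox Z l x s r δ) {y : E} (hy : Reg Z (finrank ℂ F) y) (hy' : y ∈ ball x r)
    (ht : l y ∈ ball (l x) s) : ∃ᶠ y' in 𝓝 y, y' ∈ Z ∧ δ (l y') ≠ 0 := by
  intro hcon
  obtain ⟨φ, ρ, ε, N, hε, h1, h2, h3, h4, -, h6, h7⟩ := hy.chart
    (inter_mem hcon (h.isOpen_box.mem_nhds ⟨hy', ht⟩))
  have h8 : AnalyticOnNhd ℂ (fun t => l (φ t)) (ball (ρ y) ε) := fun t ht =>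
    AnalyticAt.comp (g := l) (h.an _ (h3 (h6 t ht).2.1).2.1) (h4 t ht)
  obtain ⟨t, h9, h10⟩ := exists_inj_of_countable isOpen_ball ⟨_, mem_ball_self hε⟩ h8 fun v => by
    by_cases hv : v ∈ ball (l x) s
    · refine (((h.fin v hv).image ρ).subset fun t ht => ?_).countable
      exact ⟨φ t, ⟨(h3 (h6 t ht.1).2.1).2.1, (h6 t ht.1).1, ht.2⟩, (h6 t ht.1).2.2⟩
    · refine Set.Subsingleton.countable fun t ht => absurd ?_ hv
      exact (show l (φ t) = v from ht.2) ▸ (h3 (h6 t ht.1).2.1).2.2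
  refine not_cov_of_inj (h8 t h9) h10 (isOpen_ball.mem_nhds h9) ?_
  have e : finrank ℂ (Fin (finrank ℂ F) → ℂ) = finrank ℂ F := by simp
  rw [e]
  refine h.cov_zero.sub ?_
  rintro _ ⟨t', ht', rfl⟩
  refine ⟨(h3 (h6 t' ht').2.1).2.2, by_contra fun hne => (h3 (h6 t' ht').2.1).1 ⟨(h6 t' ht').1, hne⟩⟩

/-- the branched cover of a box -/
theorem exists_bc (h : LBox Z l x s r δ)
    (hp : ∀ y ∈ Z, y ∈ ball x r → y ∈ closure {z | Reg Z (finrank ℂ F) z}) :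
    ∃ B : BC E F, B.Y = Z ∩ (ball x r ∩ l ⁻¹' ball (l x) s) ∧ B.π = l ∧ B.c = l x ∧ B.R = s ∧
      B.Δ = δ := by
  classical
  have : ProperSpace E := FiniteDimensional.proper ℂ E
  set nf : F → ℕ := fun t => {u | u ∈ ball x r ∧ u ∈ Z ∧ l u = t}.ncard with hnf
  have h1 : ∀ t ∈ ball (l x) s, δ t ≠ 0 → ∃ (T : Finset E) (S : E → F → E), ∀ᶠ t' in 𝓝 t,
      (∀ w ∈ T, AnalyticAt ℂ (S w) t') ∧ InjOn (fun w => S w t') T ∧
      (∀ u, (u ∈ ball x r ∧ u ∈ Z ∧ l u = t') ↔ ∃ w ∈ T, S w t' = u) ∧ nf t' = T.card := by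
    intro t ht h0
    obtain ⟨T, S, -, h2⟩ := h.sheets' ht h0
    refine ⟨T, S, h2.mono fun t' h3 => ⟨h3.1, h3.2.1, h3.2.2, ?_⟩⟩
    have : {u | u ∈ ball x r ∧ u ∈ Z ∧ l u = t'} = (fun w => S w t') '' (T : Set E) :=
      Set.ext fun u => h3.2.2 u
    simp only [hnf]
    rw [this, h3.2.1.ncard_image, ncard_coe_finset]
  have ho : IsOpen (ball (l x) s \ {t | t ∈ ball (l x) s ∧ δ t = 0}) := by
    have : ball (l x) s \ {t | t ∈ ball (l x) s ∧ δ t = 0} = ball (l x) s ∩ {t | δ t ≠ 0} := by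
      ext t; simp only [Set.mem_sdiff, mem_ofPred_eq, mem_inter_iff]; tauto
    rw [this]
    exact isOpen_nz isOpen_ball h.hol.differentiableOn
  have hc := preconnected_diff isOpen_ball (convex_ball (l x) s).isPreconnected h.cov_zero ho
  have hcont : ContinuousOn nf (ball (l x) s \ {t | t ∈ ball (l x) s ∧ δ t = 0}) := by
    intro t ht
    obtain ⟨T, S, h2⟩ := h1 t ht.1 fun h0 => ht.2 ⟨ht.1, h0⟩
    refine ContinuousAt.continuousWithinAt (continuousAt_const (y := T.card) |>.congr ?_)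
    exact h2.mono fun t' h3 => h3.2.2.2.symm
  obtain ⟨t₀, ht₀, h0⟩ := h.ne
  refine ⟨⟨Z ∩ (ball x r ∩ l ⁻¹' ball (l x) s), l, l x, s, δ, nf t₀, h.s_pos,
    h.an.continuousOn.mono fun y hy => hy.2.1, fun y hy => hy.2.2, fun K hK hKc => ?_,
    h.hol.differentiableOn, ⟨t₀, ht₀, h0⟩, fun t ht h0' => ?_, fun y hy => ?_⟩,
    rfl, rfl, rfl, rfl, rfl⟩
  · have hsub : closedBall x (r / 2) ⊆ ball x r := closedBall_subset_ball (by linarith [h.r_pos])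
    have : Z ∩ (ball x r ∩ l ⁻¹' ball (l x) s) ∩ l ⁻¹' K =
        closure Z ∩ (closedBall x (r / 2) ∩ l ⁻¹' K) := by
      ext y
      exact ⟨fun hy => ⟨subset_closure hy.1.1,
        ball_subset_closedBall (h.small y hy.1.1 hy.1.2.1 hy.1.2.2), hy.2⟩,
        fun hy => ⟨⟨h.closed y (hsub hy.2.1) (hK hy.2.2) hy.1, hsub hy.2.1, hK hy.2.2⟩, hy.2.2⟩⟩
    rw [this]
    refine IsCompact.inter_left ?_ isClosed_closure
    exact (isCompact_closedBall x (r / 2)).of_isClosed_subset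
      ((h.an.continuousOn.mono hsub).preimage_isClosed_of_isClosed isClosed_closedBall
        hKc.isClosed) inter_subset_left
  · obtain ⟨T, S, h2⟩ := h1 t ht h0'
    have h3 : T.card = nf t₀ := by
      rw [← h2.self_of_nhds.2.2.2]
      exact hc.constant hcont ⟨ht, fun h => h0' h.2⟩ ⟨ht₀, fun h => h0 h.2⟩
    set e := T.equivFinOfCardEq h3 with he
    refine ⟨_, inter_mem h2 (isOpen_ball.mem_nhds ht), fun j => S (e.symm j), fun j t' ht' =>
      (ht'.1.1 _ (e.symm j).2).differentiableAt.differentiableWithinAt,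
      fun t' ht' j j' hjj => e.symm.injective (Subtype.ext
        (ht'.1.2.1 (e.symm j).2 (e.symm j').2 hjj)), fun t' ht' y => ⟨fun hy => ?_, ?_⟩⟩
    · obtain ⟨w, hw, hwy⟩ := (ht'.1.2.2.1 y).1 ⟨hy.1.2.1, hy.1.1, hy.2⟩
      exact ⟨e ⟨w, hw⟩, by simpa using hwy⟩
    · rintro ⟨j, rfl⟩
      obtain ⟨h4, h5, h6⟩ := (ht'.1.2.2.1 _).2 ⟨_, (e.symm j).2, rfl⟩
      exact ⟨⟨h5, h4, by rw [mem_preimage, h6]; exact ht'.2⟩, h6⟩
  · have h2 := h.isOpen_box.mem_nhds hy.2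
    intro hcon
    obtain ⟨y', h3, h4⟩ := mem_closure_iff_nhds.1 (hp y hy.1 hy.2.1) _
      (inter_mem hcon.eventually_nhds (h.isOpen_box.mem_nhds hy.2))
    obtain ⟨y'', h5, h6, h7⟩ := ((h.freq h4 h3.2.1 h3.2.2).and_eventually
      (Eventually.and h3.1 (h.isOpen_box.eventually_mem h3.2))).exists
    exact h6 ⟨⟨h5.1, h7⟩, h5.2⟩

end LBox

/-- descending the slice dimension -/
theorem sdim_step {Z : Set E} {x : E} {d p : ℕ} (hZ : AnAt Z x)
    (hp : ∀ᶠ y in 𝓝 x, y ∈ Z → y ∈ closure {z | Reg Z d z}) (hd : d ≤ p) (h : SDim Z x (p + 1)) :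
    SDim Z x p := by
  obtain ⟨l, hl⟩ := h
  obtain ⟨s, r, δ, h1, h2⟩ := exists_lbox hZ (l.analyticAt x) hl hp
  have h3 : ∀ y ∈ Z, y ∈ ball x r → l y ∈ ball (l x) s → δ (l y) = 0 := by
    intro y hy hy' hy''
    by_contra h0
    obtain ⟨z, h4, h5⟩ := mem_closure_iff_nhds.1 (h1 hy' hy) _ (h2.reg hy hy' hy'' h0).eventually
    have := (h4 h5.mem).unique h5
    simp at this
    omega
  obtain ⟨t, ht, h0⟩ := h2.ne
  -- a direction in which `δ` does not vanish identically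
  obtain ⟨v, hv0, hv⟩ : ∃ v : Fin (p + 1) → ℂ, v ≠ 0 ∧
      ∀ᶠ c in 𝓝[≠] (0 : ℂ), δ (l x + c • v) ≠ 0 := by
    by_cases h4 : δ (l x) = 0
    · refine ⟨t - l x, fun h5 => h0 (by rw [sub_eq_zero.1 h5]; exact h4), ?_⟩
      have h5 : AnalyticOnNhd ℂ (fun c : ℂ => δ (l x + c • (t - l x)))
          ((fun c : ℂ => l x + c • (t - l x)) ⁻¹' ball (l x) s) := fun c hc =>
        AnalyticAt.comp (g := δ) (h2.hol _ hc) (by fun_prop)
      have h6 : Convex ℝ ((fun c : ℂ => l x + c • (t - l x)) ⁻¹' ball (l x) s) := by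
        have := (convex_ball (l x) s).affine_preimage
          (AffineMap.const ℝ ℂ (l x) + ((LinearMap.toSpanSingleton ℂ _ (t - l x)).restrictScalars
            ℝ).toAffineMap)
        exact this
      have h7 : (0 : ℂ) ∈ (fun c : ℂ => l x + c • (t - l x)) ⁻¹' ball (l x) s := by
        simpa using h2.s_pos
      rcases (h5 0 h7).eventually_eq_zero_or_eventually_ne_zero with h8 | h8
      · have := h5.eqOn_zero_of_preconnected_of_eventuallyEq_zero h6.isPreconnected h7 h8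
          (x := 1) (by simpa using ht)
        exact absurd (by simpa using this) h0
      · exact h8
    · refine ⟨fun _ => 1, fun h5 => one_ne_zero (congrFun h5 0), nhdsWithin_le_nhds ?_⟩
      have h5 : ContinuousAt (fun c : ℂ => δ (l x + c • fun _ => (1 : ℂ))) 0 :=
        ContinuousAt.comp_of_eq (h2.hol _ (mem_ball_self h2.s_pos)).continuousAt (by fun_prop)
          (by simp)
      exact h5.eventually_ne (by simpa using h4)
  obtain ⟨μ, -, hμ⟩ := exists_dual_vector ℂ v (norm_ne_zero_iff.2 hv0)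
  have hvn : ((‖v‖ : ℝ) : ℂ) ≠ 0 := Complex.ofReal_ne_zero.2 (norm_ne_zero_iff.2 hv0)
  have hμ' : μ v = ((‖v‖ : ℝ) : ℂ) := hμ
  have hs : Function.Surjective μ := fun c => ⟨(c / ‖v‖) • v, by
    rw [map_smul, hμ', smul_eq_mul, div_mul_cancel₀ _ hvn]⟩
  -- a linear map with kernel the line spanned by `v`
  obtain ⟨m, hm⟩ : ∃ m : (Fin (p + 1) → ℂ) →L[ℂ] (Fin p → ℂ), ∀ u, m u = 0 → ∃ c : ℂ, u = c • v := by
    have hk : finrank ℂ (LinearMap.ker (μ : (Fin (p + 1) → ℂ) →ₗ[ℂ] ℂ)) = finrank ℂ (Fin p → ℂ) := by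
      have h4 := LinearMap.finrank_range_add_finrank_ker (μ : (Fin (p + 1) → ℂ) →ₗ[ℂ] ℂ)
      rw [LinearMap.range_eq_top.2 hs] at h4
      simp only [finrank_top, finrank_self, finrank_fintype_fun_eq_card, Fintype.card_fin] at h4 ⊢
      omega
    let e := LinearEquiv.ofFinrankEq _ _ hk
    let P : (Fin (p + 1) → ℂ) →ₗ[ℂ] LinearMap.ker (μ : (Fin (p + 1) → ℂ) →ₗ[ℂ] ℂ) :=
      LinearMap.codRestrict _ (LinearMap.id - ((‖v‖ : ℂ)⁻¹ • (μ : (Fin (p + 1) → ℂ) →ₗ[ℂ] ℂ)).smulRight v)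
        fun u => by
          simp only [LinearMap.mem_ker, LinearMap.sub_apply, LinearMap.id_apply,
            LinearMap.smulRight_apply, LinearMap.smul_apply, map_sub, map_smul,
            ContinuousLinearMap.coe_coe, hμ', smul_eq_mul]
          field_simp
          ring
    refine ⟨LinearMap.toContinuousLinearMap (e.toLinearMap ∘ₗ P), fun u hu => ?_⟩
    have h4 : P u = 0 := e.injective (by simpa using hu)
    have h5 := congrArg Subtype.val h4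
    simp only [P, LinearMap.codRestrict_apply, LinearMap.sub_apply, LinearMap.id_apply,
      LinearMap.smulRight_apply, ZeroMemClass.coe_zero, sub_eq_zero] at h5
    exact ⟨_, h5⟩
  refine ⟨m.comp l, ?_⟩
  obtain ⟨ε, hε, h4⟩ := Metric.eventually_nhds_iff.1 (eventually_nhdsWithin_iff.1 hv)
  have h5 : ∀ᶠ y in 𝓝 x, ‖l y - l x‖ < ε * ‖v‖ := by
    have : ContinuousAt (fun y => ‖l y - l x‖) x := by fun_prop
    exact this.eventually (gt_mem_nhds (by simpa using mul_pos hε (norm_pos_iff.2 hv0)))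
  filter_upwards [hl, nhdsWithin_le_nhds h5, nhdsWithin_le_nhds
    (h2.isOpen_box.mem_nhds ⟨mem_ball_self h2.r_pos, mem_ball_self h2.s_pos⟩)]
    with y h6 h7 h8 hy he
  obtain ⟨c, hc⟩ := hm (l y - l x) (by rw [map_sub, sub_eq_zero]; exact he)
  have h9 : c ≠ 0 := fun h0 => h6 hy (by rw [← sub_eq_zero, hc, h0, zero_smul])
  rw [hc, norm_smul] at h7
  refine h4 (y := c) (by simpa using lt_of_mul_lt_mul_right h7 (norm_nonneg v)) h9 ?_
  rw [← hc, add_sub_cancel]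
  exact h3 y hy h8.1 h8.2

theorem sdim_pure {Z : Set E} {x : E} {d : ℕ} (hx : x ∈ Z) (hZ : AnAt Z x)
    (hp : ∀ᶠ y in 𝓝 x, y ∈ Z → y ∈ closure {z | Reg Z d z}) : SDim Z x d := by
  obtain ⟨z, hz⟩ := closure_nonempty_iff.1 ⟨x, hp.self_of_nhds hx⟩
  obtain ⟨k, hk⟩ := Nat.exists_eq_add_of_le (Reg.le_finrank hz)
  have h1 : SDim Z x (d + k) := by
    let e : E ≃L[ℂ] (Fin (d + k) → ℂ) := ContinuousLinearEquiv.ofFinrankEq (by simpa using hk)
    refine ⟨e, ?_⟩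
    filter_upwards [self_mem_nhdsWithin] with y hy _ he
    exact hy (e.injective he)
  clear hk
  induction k with
  | zero => exact h1
  | succ k ih => exact ih (sdim_step hZ hp (Nat.le_add_right d k) h1)

/-- **branched cover models exist** -/
theorem coverStmt (E : Type) [NormedAddCommGroup E] [NormedSpace ℂ E] [FiniteDimensional ℂ E] :
    CoverStmt E := by
  intro Z d x hx hZ hp N hN
  obtain ⟨l, hl⟩ := sdim_pure hx hZ hp
  obtain ⟨s, r, δ, h1, h2⟩ := exists_lbox hZ (l.analyticAt x) hl (inter_mem hN hp)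
  obtain ⟨B, h3, h4, h5, -, -⟩ := h2.exists_bc fun y hy hy' => by
    simpa using (h1 hy').2 hy
  exact ⟨B, _, h2.isOpen_box, ⟨mem_ball_self h2.r_pos, mem_ball_self h2.s_pos⟩,
    fun y hy => (h1 hy.1).1, h3, by rw [h4, h5], trivial⟩

/-- the Harnack inequality in the form requested for `Gr/Att` -/
theorem hk {P : Type} [TopologicalSpace P] {A : HA E P} {Z : Set P} {d : ℕ}
    (hZ : A.Irr univ Z d) (hK : IsCompact Z) {p₀ : P} (hp₀ : p₀ ∈ Z)
    (J : Type) [Finite J] (ch : J → A.ι) (V : J → Set P)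
    (hV : ∀ a, IsOpen (V a) ∧ V a ⊆ (A.e (ch a)).source) (hZV : Z ⊆ ⋃ a, V a) (a₀ : J)
    (h₀ : p₀ ∈ V a₀) :
    ∃ C : ℝ, ∀ (ψ : P → EReal) (B : ℝ) (u : J → E → EReal), 1 ≤ B →
      (∀ a, IsPsh (A.e (ch a) '' V a) (u a)) →
      (∀ a, ∀ p ∈ Z ∩ V a, ψ p ≤ u a (A.e (ch a) p) + (B : EReal) ∧
        u a (A.e (ch a) p) ≤ ψ p + (B : EReal)) →
      (∀ p ∈ Z, ψ p ≤ 0) → (∃ p ∈ Z, ((-B : ℝ) : EReal) ≤ ψ p) →
      ∀ᶠ r : ℝ in 𝓝[>] 0, ∃ q ∈ Z ∩ V a₀, ‖A.e (ch a₀) q - A.e (ch a₀) p₀‖ ≤ r ∧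
        ((C * B * Real.log r : ℝ) : EReal) ≤ ψ q := by
  let ι := {x : (P → EReal) × ℝ // 1 ≤ x.2 ∧ ∃ u : J → E → EReal,
    (∀ a, IsPsh (A.e (ch a) '' V a) (u a)) ∧ ∀ a, ∀ p ∈ Z ∩ V a,
      x.1 p ≤ u a (A.e (ch a) p) + (x.2 : EReal) ∧ u a (A.e (ch a) p) ≤ x.1 p + (x.2 : EReal)}
  have key := irr_loc (coverStmt E) (ψ := fun i : ι => i.1.1) (a := fun i : ι => i.1.2)
    isOpen_univ hZ (fun i => by linarith [i.2.1]) (fun z hz => ?_) hK
    (fun z hz => ⟨mem_univ z, hz⟩) ⟨mem_univ _, hp₀⟩ ((hV a₀).2 h₀) ((hV a₀).1.mem_nhds h₀)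
  · obtain ⟨C, hC, h1⟩ := key
    refine ⟨4 * C + 1, fun ψ B u hB hu hψ h0 hp => ?_⟩
    have h8 : ∀ᶠ r : ℝ in 𝓝[>] 0, 0 < r := self_mem_nhdsWithin
    have h9 : ∀ᶠ r : ℝ in 𝓝[>] 0, r ≤ 1 := nhdsWithin_le_nhds (ge_mem_nhds one_pos)
    filter_upwards [h8, h9, Real.tendsto_log_nhdsGT_zero.eventually_le_atBot (-1)]
      with r hr hr1 hl
    by_contra hcon
    push Not at hcon
    have h2 := h1.self_of_nhds ⟨mem_univ _, hp₀⟩ ⟨(ψ, B), hB, u, hu, hψ⟩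
      ((4 * C + 1) * B * Real.log r) 0 B r (by linarith) (fun y hy => h0 y hy.2)
      (by simpa using hp) hr hr1 fun y hy hy' _ hd =>
        (hcon y ⟨hy.2, hy'⟩ (by rw [← dist_eq_norm]; exact hd.le)).le
    simp only at h2
    have h3 : 0 ≤ C * B := by positivity
    nlinarith
  · obtain ⟨a, ha⟩ := mem_iUnion.1 (hZV hz.2)
    refine ⟨ch a, (hV a).2 ha, _, (A.e (ch a)).isOpen_image_of_subset_source (hV a).1 (hV a).2,
      mem_image_of_mem _ ha, 1, zero_le_one, fun i => ?_⟩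
    obtain ⟨u, hu, h2⟩ := i.2.2
    refine ⟨u a, hu a, fun y hy hy' ⟨y', h3, h4⟩ => ?_⟩
    have h5 : y' = y := (A.e (ch a)).injOn ((hV a).2 h3) hy' h4
    simpa using h2 a y ⟨hy.2, h5 ▸ h3⟩

end Crest.Agent.X261.Ans.Hk
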