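import Crest.Agent.X261.Ans.Defs
import Crest.Agent.R266.Osgood

/-!
# X261/Ans/Man0 (helper72): holomorphic maps between manifolds with an atlas `HA`

Charts (`tr_an`, `ev_chart`), the API of `HA.Hol`, and a topological lemma on connectedness.
-/

set_option autoImplicit false
set_option linter.unusedSectionVars false

open Set Filter Topology Module

namespace Crest.Agent.X261.Ans

namespace Man

/-- a dense, locally connected subset of a connected set is connected -/
theorem preconnected_of_local {X : Type*} [TopologicalSpace X] {C D : Set X}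
    (hc : IsPreconnected C) (hD : D ⊆ C)
    (h : ∀ x ∈ C, ∃ N : Set X, IsOpen N ∧ x ∈ N ∧ IsPreconnected (D ∩ N) ∧
      C ∩ N ⊆ closure (D ∩ N)) : IsPreconnected D := by
  intro u v hu hv huv hune hvne
  by_contra hcon
  have hdis : ∀ w ∈ D, w ∈ u → w ∈ v → False := fun w h1 h2 h3 => hcon ⟨w, h1, h2, h3⟩
  choose! N hNo hNx hNc hNd using h
  have hdi : ∀ x ∈ C, D ∩ N x ⊆ u ∨ D ∩ N x ⊆ v := by
    intro x hx
    by_contra h1
    rw [not_or, not_subset, not_subset] at h1
    obtain ⟨⟨a, ha, hau⟩, ⟨b, hb, hbv⟩⟩ := h1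
    obtain ⟨w, hw, hw1, hw2⟩ := hNc x hx u v hu hv (inter_subset_left.trans huv)
      ⟨b, hb, (huv hb.1).resolve_right hbv⟩ ⟨a, ha, (huv ha.1).resolve_left hau⟩
    exact hdis w hw.1 hw1 hw2
  let U : Set X → Set X := fun s => ⋃ x ∈ {x | x ∈ C ∧ D ∩ N x ⊆ s}, N x
  have hUo : ∀ s, IsOpen (U s) := fun s => isOpen_biUnion fun x hx => hNo x hx.1
  have hmem : ∀ s, ∀ x ∈ C, D ∩ N x ⊆ s → x ∈ U s := fun s x hx hs =>
    mem_biUnion (show x ∈ {x | x ∈ C ∧ D ∩ N x ⊆ s} from ⟨hx, hs⟩) (hNx x hx)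
  obtain ⟨y, hy, hy1, hy2⟩ := hc (U u) (U v) (hUo u) (hUo v)
    (fun x hx => (hdi x hx).imp (hmem u x hx) (hmem v x hx))
    (by
      obtain ⟨x, hx, hxu⟩ := hune
      refine ⟨x, hD hx, hmem u x (hD hx) ((hdi x (hD hx)).resolve_right fun h1 => ?_)⟩
      exact hdis x hx hxu (h1 ⟨hx, hNx x (hD hx)⟩))
    (by
      obtain ⟨x, hx, hxv⟩ := hvne
      refine ⟨x, hD hx, hmem v x (hD hx) ((hdi x (hD hx)).resolve_left fun h1 => ?_)⟩
      exact hdis x hx (h1 ⟨hx, hNx x (hD hx)⟩) hxv)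
  obtain ⟨a, ha, hya⟩ := mem_iUnion₂.1 hy1
  obtain ⟨b, hb, hyb⟩ := mem_iUnion₂.1 hy2
  obtain ⟨w, hw1, hw2⟩ := mem_closure_iff.1 (hNd a ha.1 ⟨hy, hya⟩) (N b) (hNo b hb.1) hyb
  exact hdis w hw2.1 (ha.2 hw2) (hb.2 ⟨hw2.1, hw1⟩)

end Man

variable {E F G : Type} [NormedAddCommGroup E] [NormedSpace ℂ E] [FiniteDimensional ℂ E]
  [NormedAddCommGroup F] [NormedSpace ℂ F] [FiniteDimensional ℂ F]
  [NormedAddCommGroup G] [NormedSpace ℂ G] [FiniteDimensional ℂ G]
  {M N P : Type} [TopologicalSpace M] [TopologicalSpace N] [TopologicalSpace P]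
  {A : HA E M} {B : HA F N} {C : HA G P}

namespace HA

/-! ### charts -/

theorem isOpen_ov (A : HA E M) (i j : A.ι) :
    IsOpen {z | z ∈ (A.e i).target ∧ (A.e i).symm z ∈ (A.e j).source} :=
  (A.e i).symm.isOpen_inter_preimage (A.e j).open_source

/-- the transition maps are analytic -/
theorem tr_an {x : M} {i j : A.ι} (hi : x ∈ (A.e i).source) (hj : x ∈ (A.e j).source) :
    AnalyticAt ℂ (fun z => A.e j ((A.e i).symm z)) (A.e i x) := by
  have := FiniteDimensional.complete ℂ E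
  refine R266.SCV.analyticOnNhd_of_differentiableOn (A.isOpen_ov i j) (A.holo i j) _
    ⟨(A.e i).map_source hi, ?_⟩
  rw [(A.e i).left_inv hi]
  exact hj

theorem ev_chart {x : M} {i : A.ι} (hx : x ∈ (A.e i).source) {p : M → Prop} :
    (∀ᶠ y in 𝓝 x, p y) ↔ ∀ᶠ z in 𝓝 (A.e i x), p ((A.e i).symm z) := by
  rw [← (A.e i).symm_map_nhds_eq hx, eventually_map]

theorem fr_chart {x : M} {i : A.ι} (hx : x ∈ (A.e i).source) {p : M → Prop} :
    (∃ᶠ y in 𝓝 x, p y) ↔ ∃ᶠ z in 𝓝 (A.e i x), p ((A.e i).symm z) := by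
  rw [← (A.e i).symm_map_nhds_eq hx, frequently_map]

theorem ev_chart' {x : M} {i : A.ι} (hx : x ∈ (A.e i).source) {p : E → Prop} :
    (∀ᶠ z in 𝓝 (A.e i x), p z) ↔ ∀ᶠ y in 𝓝 x, p (A.e i y) := by
  rw [← (A.e i).map_nhds_eq hx, eventually_map]

theorem ev_source {x : M} {i : A.ι} (hx : x ∈ (A.e i).source) :
    ∀ᶠ y in 𝓝 x, y ∈ (A.e i).source := (A.e i).open_source.mem_nhds hx

theorem ev_target {x : M} {i : A.ι} (hx : x ∈ (A.e i).source) :
    ∀ᶠ z in 𝓝 (A.e i x), z ∈ (A.e i).target :=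
  (A.e i).open_target.mem_nhds ((A.e i).map_source hx)

theorem cont_symm {x : M} {i : A.ι} (hx : x ∈ (A.e i).source) :
    ContinuousAt (A.e i).symm (A.e i x) :=
  (A.e i).continuousAt_symm ((A.e i).map_source hx)

theorem tendsto_symm {x : M} {i : A.ι} (hx : x ∈ (A.e i).source) :
    Tendsto (A.e i).symm (𝓝 (A.e i x)) (𝓝 x) := ((A.e i).symm_map_nhds_eq hx).le

theorem image_eq {i : A.ι} {S : Set M} (hS : S ⊆ (A.e i).source) :
    A.e i '' S = (A.e i).target ∩ (A.e i).symm ⁻¹' S :=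
  (A.e i).image_eq_target_inter_inv_preimage hS


/-! ### holomorphic maps -/

theorem Hol.cont {f : M → N} {x : M} (h : A.Hol B f x) : ContinuousAt f x := h.1

theorem hol_of {f : M → N} {x : M} (hc : ContinuousAt f x) {i : A.ι} {j : B.ι}
    (hi : x ∈ (A.e i).source) (hj : f x ∈ (B.e j).source)
    (h : AnalyticAt ℂ (fun z => B.e j (f ((A.e i).symm z))) (A.e i x)) : A.Hol B f x := by
  refine ⟨hc, fun i' j' hi' hj' => ?_⟩
  have h1 := tr_an hi' hi
  have h2 := tr_an hj hj'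
  have e1 : A.e i ((A.e i').symm (A.e i' x)) = A.e i x := by rw [(A.e i').left_inv hi']
  have e2 : B.e j (f ((A.e i).symm (A.e i x))) = B.e j (f x) := by rw [(A.e i).left_inv hi]
  have h3 := (h2.comp_of_eq h e2).comp_of_eq h1 e1
  refine h3.congr ?_
  have h4 : ∀ᶠ y in 𝓝 x, y ∈ (A.e i).source ∧ f y ∈ (B.e j).source :=
    (ev_source hi).and (hc.eventually (ev_source hj))
  filter_upwards [(ev_chart hi').1 h4] with z hz
  simp only [Function.comp_apply]
  rw [(A.e i).left_inv hz.1, (B.e j).left_inv hz.2]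

theorem hol_iff {f : M → N} {x : M} {i : A.ι} {j : B.ι}
    (hi : x ∈ (A.e i).source) (hj : f x ∈ (B.e j).source) : A.Hol B f x ↔
    ContinuousAt f x ∧ AnalyticAt ℂ (fun z => B.e j (f ((A.e i).symm z))) (A.e i x) :=
  ⟨fun h => ⟨h.1, h.2 i j hi hj⟩, fun h => hol_of h.1 hi hj h.2⟩

theorem hol_id (A : HA E M) (x : M) : A.Hol A (fun y => y) x :=
  ⟨continuousAt_id, fun _ _ hi hj => tr_an hi hj⟩

theorem Hol.comp {g : N → P} {f : M → N} {x : M} (hg : B.Hol C g (f x)) (hf : A.Hol B f x) :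
    A.Hol C (fun y => g (f y)) x := by
  refine ⟨ContinuousAt.comp (f := f) hg.1 hf.1, fun i k hi hk => ?_⟩
  obtain ⟨j, hj⟩ := B.cover (f x)
  have e2 : B.e j (f ((A.e i).symm (A.e i x))) = B.e j (f x) := by rw [(A.e i).left_inv hi]
  refine ((hg.2 j k hj hk).comp_of_eq (hf.2 i j hi hj) e2).congr ?_
  filter_upwards [(ev_chart hi).1 (hf.1.eventually (ev_source hj))] with z hz
  simp only [Function.comp_apply]
  rw [(B.e j).left_inv hz]

theorem Hol.comp_of_eq {g : N → P} {f : M → N} {x : M} {y : N} (hg : B.Hol C g y)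
    (hf : A.Hol B f x) (h : f x = y) : A.Hol C (fun y => g (f y)) x := by
  subst h
  exact hg.comp hf

theorem Hol.congr {f g : M → N} {x : M} (hf : A.Hol B f x) (h : f =ᶠ[𝓝 x] g) : A.Hol B g x := by
  have e : f x = g x := h.eq_of_nhds
  refine ⟨hf.1.congr h, fun i j hi hj => (hf.2 i j hi (e ▸ hj)).congr ?_⟩
  filter_upwards [(ev_chart hi).1 h] with z hz
  rw [hz]

theorem hol_const (A : HA E M) (B : HA F N) (c : N) (x : M) : A.Hol B (fun _ => c) x :=
  ⟨continuousAt_const, fun _ _ _ _ => analyticAt_const⟩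

theorem Hol.eventually {f : M → N} {x : M} (hf : A.Hol B f x) : ∀ᶠ y in 𝓝 x, A.Hol B f y := by
  have := FiniteDimensional.complete ℂ F
  obtain ⟨i, hi⟩ := A.cover x
  obtain ⟨j, hj⟩ := B.cover (f x)
  have h1 := (ev_chart' hi).1 (hf.2 i j hi hj).eventually_analyticAt
  have h2 : ∀ᶠ y in 𝓝 x, y ∈ (A.e i).source ∧ f y ∈ (B.e j).source :=
    (ev_source hi).and (hf.1.eventually (ev_source hj))
  filter_upwards [h1, h2.eventually_nhds] with y hy1 hy2
  have hy3 := hy2.self_of_nhds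
  refine hol_of ?_ hy3.1 hy3.2 hy1
  have e2 : B.e j (f ((A.e i).symm (A.e i y))) = B.e j (f y) := by rw [(A.e i).left_inv hy3.1]
  have h3 : ContinuousAt (fun w => (B.e j).symm (B.e j (f ((A.e i).symm (A.e i w))))) y := by
    refine ContinuousAt.comp (f := fun w => B.e j (f ((A.e i).symm (A.e i w)))) ?_ ?_
    · rw [e2]
      exact cont_symm hy3.2
    · exact ContinuousAt.comp (f := A.e i) hy1.continuousAt ((A.e i).continuousAt hy3.1)
  refine h3.congr ?_
  filter_upwards [hy2] with w hw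
  rw [(A.e i).left_inv hw.1, (B.e j).left_inv hw.2]


theorem self_hol_iff {f : E → F} {x : E} : (self E).Hol (self F) f x ↔ AnalyticAt ℂ f x :=
  ⟨fun h => h.2 () () (mem_univ _) (mem_univ _), fun h => ⟨h.continuousAt, fun _ _ _ _ => h⟩⟩

theorem hol_self_iff {f : M → F} {x : M} {i : A.ι} (hx : x ∈ (A.e i).source) :
    A.Hol (self F) f x ↔ AnalyticAt ℂ (fun z => f ((A.e i).symm z)) (A.e i x) := by
  refine ⟨fun h => h.2 i () hx (mem_univ _), fun h => hol_of (j := ()) ?_ hx (mem_univ _) h⟩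
  refine (ContinuousAt.comp (f := A.e i) h.continuousAt ((A.e i).continuousAt hx)).congr ?_
  filter_upwards [ev_source hx] with y hy
  simp only [Function.comp_apply]
  rw [(A.e i).left_inv hy]

theorem self_hol_iff' {f : E → N} {x : E} {j : B.ι} (hj : f x ∈ (B.e j).source) :
    (self E).Hol B f x ↔ ContinuousAt f x ∧ AnalyticAt ℂ (fun z => B.e j (f z)) x :=
  hol_iff (A := self E) (i := ()) (mem_univ _) hj

theorem hol_chart {x : M} {i : A.ι} (hx : x ∈ (A.e i).source) : A.Hol (self E) (A.e i) x := by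
  rw [hol_self_iff hx]
  exact tr_an hx hx

theorem hol_symm {z : E} {i : A.ι} (hz : z ∈ (A.e i).target) :
    (self E).Hol A (A.e i).symm z := by
  rw [self_hol_iff' ((A.e i).map_target hz)]
  refine ⟨(A.e i).continuousAt_symm hz, (analyticAt_id (𝕜 := ℂ) (z := z)).congr ?_⟩
  filter_upwards [(A.e i).open_target.mem_nhds hz] with w hw
  rw [(A.e i).right_inv hw]
  rfl

/-- a holomorphic map read in charts -/
theorem Hol.an {f : M → N} {i : A.ι} {j : B.ι} {z : E} (hz : z ∈ (A.e i).target)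
    (hf : A.Hol B f ((A.e i).symm z)) (hj : f ((A.e i).symm z) ∈ (B.e j).source) :
    AnalyticAt ℂ (fun z => B.e j (f ((A.e i).symm z))) z := by
  have h := hf.2 i j ((A.e i).map_target hz) hj
  rwa [(A.e i).right_inv hz] at h

/-- post-composition with an analytic map -/
theorem Hol.an_comp {g : F → G} {f : M → F} {x : M} (hf : A.Hol (self F) f x)
    (hg : AnalyticAt ℂ g (f x)) : A.Hol (self G) (fun y => g (f y)) x :=
  (self_hol_iff.2 hg).comp hf

theorem hol_fst (A : HA E M) (B : HA F N) (x : M × N) : (A.prod B).Hol A Prod.fst x := by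
  refine ⟨continuousAt_fst, fun p i hp hi => ?_⟩
  exact (tr_an hp.1 hi).comp_of_eq (analyticAt_fst (𝕜 := ℂ) (p := (A.prod B).e p x)) rfl

theorem hol_snd (A : HA E M) (B : HA F N) (x : M × N) : (A.prod B).Hol B Prod.snd x := by
  refine ⟨continuousAt_snd, fun p j hp hj => ?_⟩
  exact (tr_an hp.2 hj).comp_of_eq (analyticAt_snd (𝕜 := ℂ) (p := (A.prod B).e p x)) rfl

theorem Hol.prodMk {f : M → N} {g : M → P} {x : M} (hf : A.Hol B f x) (hg : A.Hol C g x) :
    A.Hol (B.prod C) (fun y => (f y, g y)) x :=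
  ⟨hf.1.prodMk hg.1, fun i p hi hp => (hf.2 i p.1 hi hp.1).prod (hg.2 i p.2 hi hp.2)⟩

theorem Hol.fst {f : M → N × P} {x : M} (hf : A.Hol (B.prod C) f x) :
    A.Hol B (fun y => (f y).1) x := (hol_fst B C (f x)).comp hf

theorem Hol.snd {f : M → N × P} {x : M} (hf : A.Hol (B.prod C) f x) :
    A.Hol C (fun y => (f y).2) x := (hol_snd B C (f x)).comp hf

theorem hol_swap (A : HA E M) (B : HA F N) (x : M × N) :
    (A.prod B).Hol (B.prod A) Prod.swap x := (hol_snd A B x).prodMk (hol_fst A B x)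

theorem hol_diag (A : HA E M) (x : M) : A.Hol (A.prod A) (fun y => (y, y)) x :=
  (hol_id A x).prodMk (hol_id A x)

theorem hol_inl (A : HA E M) (B : HA F N) (c : N) (x : M) :
    A.Hol (A.prod B) (fun y => (y, c)) x := (hol_id A x).prodMk (hol_const A B c x)

theorem hol_inr (A : HA E M) (B : HA F N) (c : M) (x : N) :
    B.Hol (A.prod B) (fun y => (c, y)) x := (hol_const B A c x).prodMk (hol_id B x)

theorem Hol.prodMap {H : Type} [NormedAddCommGroup H] [NormedSpace ℂ H] [FiniteDimensional ℂ H]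
    {Q : Type} [TopologicalSpace Q] {D : HA H Q} {f : M → P} {g : N → Q} {x : M × N}
    (hf : A.Hol C f x.1) (hg : B.Hol D g x.2) :
    (A.prod B).Hol (C.prod D) (fun y => (f y.1, g y.2)) x :=
  (hf.comp (hol_fst A B x)).prodMk (hg.comp (hol_snd A B x))

/-- pairs of maps to normed spaces -/
theorem Hol.pair {f : M → F} {g : M → G} {x : M} (hf : A.Hol (self F) f x)
    (hg : A.Hol (self G) g x) : A.Hol (self (F × G)) (fun y => (f y, g y)) x := by
  obtain ⟨i, hi⟩ := A.cover x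
  rw [hol_self_iff hi] at hf hg ⊢
  exact hf.prod hg

theorem Hol.sub {f g : M → F} {x : M} (hf : A.Hol (self F) f x) (hg : A.Hol (self F) g x) :
    A.Hol (self F) (fun y => f y - g y) x := by
  obtain ⟨i, hi⟩ := A.cover x
  rw [hol_self_iff hi] at hf hg ⊢
  exact hf.sub hg

theorem Hol.add {f g : M → F} {x : M} (hf : A.Hol (self F) f x) (hg : A.Hol (self F) g x) :
    A.Hol (self F) (fun y => f y + g y) x := by
  obtain ⟨i, hi⟩ := A.cover x
  rw [hol_self_iff hi] at hf hg ⊢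
  exact hf.add hg

theorem Hol.smul {f : M → ℂ} {g : M → F} {x : M} (hf : A.Hol (self ℂ) f x)
    (hg : A.Hol (self F) g x) : A.Hol (self F) (fun y => f y • g y) x := by
  obtain ⟨i, hi⟩ := A.cover x
  rw [hol_self_iff hi] at hf hg ⊢
  exact hf.smul hg


/-! ### topology -/

theorem locallyCompact (A : HA E M) : LocallyCompactSpace M := by
  have := FiniteDimensional.proper_rclike ℂ E
  refine ⟨fun x n hn => ?_⟩
  obtain ⟨i, hi⟩ := A.cover x
  have h1 : (A.e i).target ∩ (A.e i).symm ⁻¹' n ∈ 𝓝 (A.e i x) :=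
    inter_mem (ev_target hi) (tendsto_symm hi hn)
  obtain ⟨K, hK, hKs, hKc⟩ := local_compact_nhds h1
  refine ⟨(A.e i).symm '' K, ?_, ?_, ?_⟩
  · rw [← (A.e i).symm_map_nhds_eq hi]
    exact image_mem_map hK
  · rintro _ ⟨z, hz, rfl⟩
    exact (hKs hz).2
  · exact hKc.image_of_continuousOn
      ((A.e i).continuousOn_symm.mono fun z hz => (hKs hz).1)

theorem secondCountable (A : HA E M) [Countable A.ι] : SecondCountableTopology M := by
  have := FiniteDimensional.proper_rclike ℂ E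
  have : ∀ i, SecondCountableTopology (A.e i).source := fun i =>
    (A.e i).secondCountableTopology_source
  exact TopologicalSpace.secondCountableTopology_of_countable_cover
    (fun i => (A.e i).open_source) (eq_univ_of_forall fun x => mem_iUnion.2 (A.cover x))

/-- small coordinate balls -/
theorem exists_ball {x : M} {i : A.ι} (hx : x ∈ (A.e i).source) {W : Set M} (hW : W ∈ 𝓝 x) :
    ∃ r : ℝ, 0 < r ∧ Metric.ball (A.e i x) r ⊆ (A.e i).target ∩ (A.e i).symm ⁻¹' W :=
  Metric.mem_nhds_iff.1 (inter_mem (ev_target hx) (tendsto_symm hx hW))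

end HA

end Crest.Agent.X261.Ans
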