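import Crest.Agent.X261.Ans.Man3
import Crest.Agent.X261.Ans.Stat

/-!
# X261/Ans/Man4 (helper72): `AnM` is `An univ`; maximality of tubes in the `HA` language
-/

set_option autoImplicit false
set_option linter.unusedSectionVars false

open Set Filter Topology Module

namespace Crest.Agent.X261.Ans.Brg

open Crest.Agent.R275.Geo
open Crest.Agent.X261.Top (AnM Tube)

variable {n : ℕ} {M : Type} [TopologicalSpace M] {A : Atl n M}

theorem finEq (E : Type) [NormedAddCommGroup E] [NormedSpace ℂ E] [FiniteDimensional ℂ E] :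
    FinEq E := fun _ _ h => h.fin'

theorem anM_iff {Z : Set M} : AnM A Z ↔ (HA.of A).An univ Z :=
  ⟨an_of_anM, anM_of_an (finEq _)⟩


variable {G : Type} [Group G] [MulAction G M] {p : ℕ} (𝒯 : Tube A G p)

theorem tube_max {x : M} (hx : x ∈ 𝒯.M0) (hb : x ∉ 𝒯.Bad) {Z : Set M} (hK : IsCompact Z)
    (hc : IsPreconnected Z) (hZ : (HA.of A).An univ Z) (hxZ : x ∈ Z) : Z ⊆ 𝒯.W x :=
  𝒯.max x hx hb Z hK hc (anM_iff.2 hZ) hxZ


end Crest.Agent.X261.Ans.Brg
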